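import Mathlib

/-! Chernoff bounds for finite product distributions. -/

namespace Vale.Agent.P249

open Finset

/-- Product weights. -/
noncomputable def prodW {Ω : Type*} {K : ℕ} (w : Ω → ℝ) (om : Fin K → Ω) : ℝ := ∏ k, w (om k)

variable {Ω : Type*} [Fintype Ω] {K : ℕ}

lemma prodW_nonneg {w : Ω → ℝ} (hw : ∀ a, 0 ≤ w a) (om : Fin K → Ω) : 0 ≤ prodW w om :=
  Finset.prod_nonneg fun k _ => hw (om k)

lemma sum_prodW {w : Ω → ℝ} (hw : ∑ a, w a = 1) : ∑ om : Fin K → Ω, prodW w om = 1 := by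
  simp [prodW, ← Fintype.prod_sum, hw]

lemma sum_prodW_exp (w : Ω → ℝ) (Y : Ω → ℝ) :
    ∑ om : Fin K → Ω, prodW w om * Real.exp (∑ k, Y (om k))
      = (∑ a, w a * Real.exp (Y a)) ^ K := by
  have h : ∀ om : Fin K → Ω,
      prodW w om * Real.exp (∑ k, Y (om k)) = ∏ k, w (om k) * Real.exp (Y (om k)) := by
    intro om
    rw [Real.exp_sum, prodW, Finset.prod_mul_distrib]
  rw [Finset.sum_congr rfl fun om _ => h om, ← Fintype.prod_sum (fun _ : Fin K => fun a => w a * Real.exp (Y a))]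
  simp

lemma exp_le_secant {x : ℝ} (h0 : 0 ≤ x) (h1 : x ≤ 1) (s : ℝ) :
    Real.exp (s * x) ≤ 1 + (Real.exp s - 1) * x := by
  have h := convexOn_exp.2 (Set.mem_univ (0:ℝ)) (Set.mem_univ s)
    (by linarith : 0 ≤ 1 - x) h0 (by ring)
  simp only [smul_eq_mul, mul_zero, zero_add, Real.exp_zero, mul_one] at h
  rw [mul_comm s x]
  nlinarith

lemma tail_of_mgf (w : Ω → ℝ) (hw : ∀ a, 0 ≤ w a) (Y : Ω → ℝ) (B thr : ℝ)
    (hB : ∑ a, w a * Real.exp (Y a) ≤ Real.exp B)
    (P : (Fin K → Ω) → Prop) [DecidablePred P] (hP : ∀ om, P om → thr ≤ ∑ k, Y (om k)) :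
    ∑ om ∈ univ.filter P, prodW w om ≤ Real.exp (K * B - thr) := by
  calc ∑ om ∈ univ.filter P, prodW w om
      ≤ ∑ om ∈ univ.filter P, prodW w om * Real.exp (∑ k, Y (om k) - thr) := by
        refine Finset.sum_le_sum fun om hom => le_mul_of_one_le_right (prodW_nonneg hw om) ?_
        exact Real.one_le_exp (by linarith [hP om (Finset.mem_filter.1 hom).2])
    _ ≤ ∑ om : Fin K → Ω, prodW w om * Real.exp (∑ k, Y (om k) - thr) :=
        Finset.sum_le_sum_of_subset_of_nonneg (Finset.filter_subset _ _)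
          fun om _ _ => mul_nonneg (prodW_nonneg hw om) (Real.exp_pos _).le
    _ = (∑ a, w a * Real.exp (Y a)) ^ K * Real.exp (-thr) := by
        rw [← sum_prodW_exp, Finset.sum_mul]
        refine Finset.sum_congr rfl fun om _ => ?_
        rw [sub_eq_add_neg, Real.exp_add]; ring
    _ ≤ Real.exp B ^ K * Real.exp (-thr) := by
        have : 0 ≤ ∑ a, w a * Real.exp (Y a) :=
          Finset.sum_nonneg fun a _ => mul_nonneg (hw a) (Real.exp_pos _).le
        gcongr
    _ = Real.exp (K * B - thr) := by rw [← Real.exp_nat_mul, ← Real.exp_add, sub_eq_add_neg]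

open Classical in
/-- Both Chernoff tails for a bounded nonnegative variable. -/
lemma chernoff (w : Ω → ℝ) (hw : ∀ a, 0 ≤ w a) (hw1 : ∑ a, w a = 1) (X : Ω → ℝ) {b : ℝ}
    (hb : 0 < b) (hX0 : ∀ a, 0 ≤ X a) (hXb : ∀ a, X a ≤ b) (lo hi : ℝ)
    (hlo : lo ≤ ∑ a, w a * X a) (hhi : ∑ a, w a * X a ≤ hi) (L : ℝ) :
    (∑ om ∈ univ.filter (fun om : Fin K → Ω => 2 * K * hi + b * L < ∑ k, X (om k)), prodW w om
      ≤ Real.exp (-L)) ∧
    (∑ om ∈ univ.filter (fun om : Fin K → Ω => ∑ k, X (om k) < K * lo / 2 - b * L), prodW w om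
      ≤ Real.exp (-L)) := by
  have hmgf : ∀ (s μ : ℝ), (Real.exp s - 1) * ∑ a, w a * X a ≤ (Real.exp s - 1) * μ →
      ∑ a, w a * Real.exp (s * (X a / b)) ≤ Real.exp ((Real.exp s - 1) * μ / b) := by
    intro s μ hμ
    calc ∑ a, w a * Real.exp (s * (X a / b))
        ≤ ∑ a, w a * (1 + (Real.exp s - 1) * (X a / b)) :=
          Finset.sum_le_sum fun a _ => mul_le_mul_of_nonneg_left
            (exp_le_secant (div_nonneg (hX0 a) hb.le) ((div_le_one hb).2 (hXb a)) s) (hw a)
      _ = 1 + (Real.exp s - 1) * (∑ a, w a * X a) / b := by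
          simp only [mul_add, mul_one, Finset.sum_add_distrib, hw1, Finset.mul_sum,
            Finset.sum_div]
          congr 1
          exact Finset.sum_congr rfl fun a _ => by ring
      _ ≤ 1 + (Real.exp s - 1) * μ / b := by gcongr
      _ ≤ _ := by linarith [Real.add_one_le_exp ((Real.exp s - 1) * μ / b)]
  have hmean0 : 0 ≤ ∑ a, w a * X a := Finset.sum_nonneg fun a _ => mul_nonneg (hw a) (hX0 a)
  have he1 : Real.exp 1 - 1 ≤ 2 := by linarith [Real.exp_one_lt_d9]
  have he1' : 0 ≤ Real.exp 1 - 1 := by linarith [Real.exp_one_gt_d9]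
  have he2 : Real.exp (-1) - 1 ≤ -(1 / 2) := by
    have h : Real.exp (-1) ≤ 1 / 2 := by
      rw [Real.exp_neg, inv_le_comm₀ (Real.exp_pos _) (by norm_num)]
      linarith [Real.exp_one_gt_d9]
    linarith
  constructor
  · refine (tail_of_mgf w hw (fun a => 1 * (X a / b)) ((Real.exp 1 - 1) * hi / b)
      (2 * K * hi / b + L) (hmgf 1 hi (mul_le_mul_of_nonneg_left hhi he1')) _ ?_).trans ?_
    · intro om hom
      simp only [one_mul, ← Finset.sum_div]
      rw [le_div_iff₀ hb, add_mul, div_mul_cancel₀ _ hb.ne']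
      linarith
    · refine Real.exp_le_exp.2 ?_
      have h : (K:ℝ) * ((Real.exp 1 - 1) * hi / b) ≤ 2 * K * hi / b := by
        rw [← mul_div_assoc]
        apply div_le_div_of_nonneg_right _ hb.le
        have : 0 ≤ hi := hmean0.trans hhi
        nlinarith [mul_nonneg (Nat.cast_nonneg (α := ℝ) K) this]
      linarith
  · refine (tail_of_mgf w hw (fun a => -1 * (X a / b)) ((-(1/2)) * lo / b)
      (-(K * lo / 2 / b) + L) ?_ _ ?_).trans ?_
    · refine (hmgf (-1) (∑ a, w a * X a) le_rfl).trans (Real.exp_le_exp.2 ?_)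
      apply div_le_div_of_nonneg_right _ hb.le
      nlinarith [mul_le_mul_of_nonneg_right he2 hmean0]
    · intro om hom
      simp only [neg_mul, one_mul, Finset.sum_neg_distrib, ← Finset.sum_div]
      have h2 : (∑ k, X (om k)) / b ≤ K * lo / 2 / b - L := by
        rw [div_le_iff₀ hb, sub_mul, div_mul_cancel₀ _ hb.ne']
        linarith
      linarith
    · refine Real.exp_le_exp.2 ?_
      have : (K:ℝ) * (-(1 / 2) * lo / b) = -(K * lo / 2 / b) := by ring
      linarith

open Classical in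
/-- Union bound. -/
lemma exists_good {E : Type*} [Fintype E] (w : Ω → ℝ) (hw : ∀ a, 0 ≤ w a) (hw1 : ∑ a, w a = 1)
    (bad : E → (Fin K → Ω) → Prop) (δ : ℝ)
    (hbad : ∀ e, ∑ om ∈ univ.filter (bad e), prodW w om ≤ δ)
    (hδ : (Fintype.card E : ℝ) * δ < 1) : ∃ om, ∀ e, ¬ bad e om := by
  by_contra hcon
  push Not at hcon
  have h1 : (1:ℝ) ≤ ∑ e, ∑ om ∈ univ.filter (bad e), prodW w om := by
    simp only [Finset.sum_filter]
    rw [Finset.sum_comm, ← sum_prodW (K := K) hw1]
    refine Finset.sum_le_sum fun om _ => ?_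
    obtain ⟨e, he⟩ := hcon om
    refine le_trans ?_ (Finset.single_le_sum (f := fun e => if bad e om then prodW w om else 0)
      (fun e _ => ?_) (Finset.mem_univ e))
    · simp [he]
    · split_ifs
      · exact prodW_nonneg hw om
      · exact le_rfl
  have h2 : ∑ e, ∑ om ∈ univ.filter (bad e), prodW w om ≤ ∑ _e : E, δ :=
    Finset.sum_le_sum fun e _ => hbad e
  simp only [Finset.sum_const, Finset.card_univ, nsmul_eq_mul] at h2
  linarith

end Vale.Agent.P249
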