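import Mathlib

/-! Moment bounds for Rademacher sums. -/

namespace Vale.Agent.P249

open Finset

/-- The sign attached to a bit. -/
noncomputable def sgnB (b : Bool) : ℝ := if b then 1 else -1

lemma abs_sgnB (b : Bool) : |sgnB b| = 1 := by
  cases b <;> simp [sgnB]

/-- A constant depending only on the exponent. -/
noncomputable def momentConst (p : ℝ) : ℝ :=
  1 + 2 * ((Nat.factorial ⌈p⌉₊ : ℕ) : ℝ) * Real.exp (1 / 2)

lemma one_le_momentConst (p : ℝ) : 1 ≤ momentConst p := by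
  have h : 0 ≤ 2 * ((Nat.factorial ⌈p⌉₊ : ℕ) : ℝ) * Real.exp (1 / 2) := by positivity
  rw [momentConst]; linarith

lemma sum_exp_le (m : ℕ) (a : Fin m → ℝ) :
    ∑ e : Fin m → Bool, Real.exp (∑ i, sgnB (e i) * a i)
      ≤ 2 ^ m * Real.exp ((∑ i, a i ^ 2) / 2) := by
  have h1 : ∑ e : Fin m → Bool, Real.exp (∑ i, sgnB (e i) * a i)
      = ∏ i, ∑ b : Bool, Real.exp (sgnB b * a i) := by
    rw [Fintype.prod_sum]
    exact Finset.sum_congr rfl fun e _ => Real.exp_sum _ _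
  rw [h1, Finset.sum_div, Real.exp_sum]
  have h2 : ∀ i, ∑ b : Bool, Real.exp (sgnB b * a i) ≤ 2 * Real.exp (a i ^ 2 / 2) := by
    intro i
    have := Real.cosh_le_exp_half_sq (a i)
    rw [Real.cosh_eq] at this
    simp only [Fintype.sum_bool, sgnB, if_true, one_mul, Bool.false_eq_true, if_false,
      neg_one_mul]
    linarith
  calc ∏ i, ∑ b : Bool, Real.exp (sgnB b * a i) ≤ ∏ i : Fin m, (2 * Real.exp (a i ^ 2 / 2)) :=
        Finset.prod_le_prod (fun i _ => Finset.sum_nonneg fun b _ => (Real.exp_pos _).le)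
          fun i _ => h2 i
    _ = 2 ^ m * ∏ i : Fin m, Real.exp (a i ^ 2 / 2) := by
        rw [Finset.prod_mul_distrib]; simp

lemma abs_rpow_le (p x : ℝ) (hp : 0 ≤ p) :
    |x| ^ p ≤ 1 + ((Nat.factorial ⌈p⌉₊ : ℕ) : ℝ) * (Real.exp x + Real.exp (-x)) := by
  have hpos : 0 ≤ ((Nat.factorial ⌈p⌉₊ : ℕ) : ℝ) * (Real.exp x + Real.exp (-x)) := by positivity
  rcases le_total |x| 1 with h | h
  · have := Real.rpow_le_one (abs_nonneg x) h hp
    linarith
  · have h1 : |x| ^ p ≤ |x| ^ (⌈p⌉₊ : ℝ) := Real.rpow_le_rpow_of_exponent_le h (Nat.le_ceil p)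
    rw [Real.rpow_natCast] at h1
    have h2 : |x| ^ ⌈p⌉₊ / ((Nat.factorial ⌈p⌉₊ : ℕ) : ℝ) ≤ Real.exp |x| :=
      Real.pow_div_factorial_le_exp _ (abs_nonneg x) _
    rw [div_le_iff₀ (by positivity)] at h2
    have h3 : Real.exp |x| ≤ Real.exp x + Real.exp (-x) := by
      rcases abs_choice x with h' | h' <;> rw [h'] <;>
        linarith [Real.exp_pos x, Real.exp_pos (-x)]
    have h4 := mul_le_mul_of_nonneg_left h3
      (show (0:ℝ) ≤ ((Nat.factorial ⌈p⌉₊ : ℕ) : ℝ) by positivity)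
    nlinarith

lemma sum_abs_rpow_le_unit (m : ℕ) (a : Fin m → ℝ) (p : ℝ) (hp : 0 ≤ p)
    (ha : ∑ i, a i ^ 2 ≤ 1) :
    ∑ e : Fin m → Bool, |∑ i, sgnB (e i) * a i| ^ p ≤ 2 ^ m * momentConst p := by
  have h1 := sum_exp_le m a
  have h2 := sum_exp_le m (fun i => -a i)
  simp only [mul_neg, Finset.sum_neg_distrib, neg_sq] at h2
  have hexp : Real.exp ((∑ i, a i ^ 2) / 2) ≤ Real.exp (1 / 2) :=
    Real.exp_le_exp.2 (by linarith)
  have h3 : 2 ^ m * Real.exp ((∑ i, a i ^ 2) / 2) ≤ 2 ^ m * Real.exp (1 / 2) :=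
    mul_le_mul_of_nonneg_left hexp (by positivity)
  calc ∑ e : Fin m → Bool, |∑ i, sgnB (e i) * a i| ^ p
      ≤ ∑ e : Fin m → Bool, (1 + ((Nat.factorial ⌈p⌉₊ : ℕ) : ℝ) *
          (Real.exp (∑ i, sgnB (e i) * a i) + Real.exp (-∑ i, sgnB (e i) * a i))) :=
        Finset.sum_le_sum fun e _ => abs_rpow_le p _ hp
    _ = 2 ^ m + ((Nat.factorial ⌈p⌉₊ : ℕ) : ℝ) *
          ((∑ e : Fin m → Bool, Real.exp (∑ i, sgnB (e i) * a i)) +
           ∑ e : Fin m → Bool, Real.exp (-∑ i, sgnB (e i) * a i)) := by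
        rw [Finset.sum_add_distrib, ← Finset.mul_sum, Finset.sum_add_distrib]
        simp
    _ ≤ 2 ^ m + ((Nat.factorial ⌈p⌉₊ : ℕ) : ℝ) *
          (2 ^ m * Real.exp (1 / 2) + 2 ^ m * Real.exp (1 / 2)) := by
        gcongr <;> linarith
    _ = 2 ^ m * momentConst p := by rw [momentConst]; ring

/-- Khintchine's upper moment inequality. -/
lemma sum_abs_rpow_le (m : ℕ) (a : Fin m → ℝ) (p : ℝ) (hp : 0 < p) :
    ∑ e : Fin m → Bool, |∑ i, sgnB (e i) * a i| ^ p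
      ≤ 2 ^ m * momentConst p * (Real.sqrt (∑ i, a i ^ 2)) ^ p := by
  set σ := Real.sqrt (∑ i, a i ^ 2) with hσ
  rcases (Real.sqrt_nonneg (∑ i, a i ^ 2)).eq_or_lt with h | h
  · have h0 : ∀ i, a i = 0 := by
      have hz : ∑ i, a i ^ 2 = 0 :=
        le_antisymm (Real.sqrt_eq_zero'.1 h.symm) (Finset.sum_nonneg fun i _ => sq_nonneg _)
      intro i
      have := (Finset.sum_eq_zero_iff_of_nonneg fun i _ => sq_nonneg (a i)).1 hz i (Finset.mem_univ i)
      simpa using this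
    rw [hσ, ← h, Real.zero_rpow hp.ne']
    simp [h0, Real.zero_rpow hp.ne']
  · have hu : ∑ i, (a i / σ) ^ 2 ≤ 1 := by
      simp only [div_pow, ← Finset.sum_div]
      rw [hσ, Real.sq_sqrt (Finset.sum_nonneg fun i _ => sq_nonneg _)]
      exact div_self_le_one _
    have key := sum_abs_rpow_le_unit m (fun i => a i / σ) p hp.le hu
    have hs : ∀ e : Fin m → Bool, |∑ i, sgnB (e i) * a i| ^ p
        = σ ^ p * |∑ i, sgnB (e i) * (a i / σ)| ^ p := by
      intro e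
      have he : ∑ i, sgnB (e i) * a i = σ * ∑ i, sgnB (e i) * (a i / σ) := by
        rw [Finset.mul_sum]
        refine Finset.sum_congr rfl fun i _ => ?_
        have : σ ≠ 0 := h.ne'
        field_simp
      rw [he, abs_mul, abs_of_pos h, Real.mul_rpow h.le (abs_nonneg _)]
    simp only [hs, ← Finset.mul_sum]
    calc σ ^ p * _ ≤ σ ^ p * (2 ^ m * momentConst p) :=
          mul_le_mul_of_nonneg_left key (Real.rpow_nonneg h.le _)
      _ = _ := by ring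

lemma sum_sq_eq : ∀ (m : ℕ) (a : Fin m → ℝ),
    ∑ e : Fin m → Bool, (∑ i, sgnB (e i) * a i) ^ 2 = 2 ^ m * ∑ i, a i ^ 2
  | 0, a => by simp
  | m + 1, a => by
    rw [← Equiv.sum_comp (Fin.consEquiv fun _ => Bool), Fintype.sum_prod_type]
    have ih := sum_sq_eq m (fun i => a i.succ)
    simp only [Fintype.sum_bool, Fin.consEquiv_apply, Fin.sum_univ_succ, Fin.cons_zero,
      Fin.cons_succ, ← Finset.sum_add_distrib]
    have h : ∀ e : Fin m → Bool,
        (sgnB true * a 0 + ∑ i, sgnB (e i) * a i.succ) ^ 2 +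
          (sgnB false * a 0 + ∑ i, sgnB (e i) * a i.succ) ^ 2
        = 2 * a 0 ^ 2 + 2 * (∑ i, sgnB (e i) * a i.succ) ^ 2 := by
      intro e; simp [sgnB]; ring
    simp only [h, Finset.sum_add_distrib, ← Finset.mul_sum, ih]
    simp [pow_succ]; ring

/-- The lower moment inequality, by convexity. -/
lemma le_sum_abs_rpow (m : ℕ) (a : Fin m → ℝ) (p : ℝ) (hp : 2 ≤ p) :
    2 ^ m * (Real.sqrt (∑ i, a i ^ 2)) ^ p
      ≤ ∑ e : Fin m → Bool, |∑ i, sgnB (e i) * a i| ^ p := by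
  set w : (Fin m → Bool) → ℝ := fun _ => ((2:ℝ) ^ m)⁻¹ with hw
  have hN : (0:ℝ) < 2 ^ m := by positivity
  have h := Real.rpow_arith_mean_le_arith_mean_rpow Finset.univ w
    (fun e => (∑ i, sgnB (e i) * a i) ^ 2) (fun e _ => inv_nonneg.2 hN.le)
    (by simp [hw]) (fun e _ => sq_nonneg _) (show (1:ℝ) ≤ p / 2 by linarith)
  simp only [hw, ← Finset.mul_sum, sum_sq_eq] at h
  rw [inv_mul_cancel_left₀ hN.ne'] at h
  have hz : ∀ z : ℝ, (z ^ 2) ^ (p / 2) = |z| ^ p := by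
    intro z
    rw [← sq_abs, ← Real.rpow_natCast |z| 2, ← Real.rpow_mul (abs_nonneg z)]
    congr 1; push_cast; ring
  simp only [hz] at h
  rw [Real.sqrt_eq_rpow, ← Real.rpow_mul (Finset.sum_nonneg fun i _ => sq_nonneg _)]
  rw [show 1 / 2 * p = p / 2 by ring]
  calc (2:ℝ) ^ m * (∑ i, a i ^ 2) ^ (p / 2)
      ≤ 2 ^ m * (((2:ℝ) ^ m)⁻¹ * _) := mul_le_mul_of_nonneg_left h hN.le
    _ = _ := mul_inv_cancel_left₀ hN.ne' _

end Vale.Agent.P249
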