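import Mathlib
import Vale.Agent.P249.Chernoff

/-! Reduction to polynomially many coordinates by sensitivity sampling. -/

namespace Vale.Agent.P249

open Finset

/-- The `p`-th power of the `ℓ_p` distance. -/
noncomputable def powDist {ι : Type*} [Fintype ι] (p : ℝ) (u v : ι → ℝ) : ℝ := ∑ k, |u k - v k| ^ p

lemma powDist_nonneg {ι : Type*} [Fintype ι] (p : ℝ) (u v : ι → ℝ) : 0 ≤ powDist p u v :=
  Finset.sum_nonneg fun _ _ => Real.rpow_nonneg (abs_nonneg _) _

lemma powDist_pos {ι : Type*} [Fintype ι] {p : ℝ} {u v : ι → ℝ} (h : u ≠ v) :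
    0 < powDist p u v := by
  obtain ⟨k, hk⟩ := Function.ne_iff.1 h
  exact Finset.sum_pos' (fun _ _ => Real.rpow_nonneg (abs_nonneg _) _)
    ⟨k, Finset.mem_univ k, Real.rpow_pos_of_pos (abs_pos.2 (sub_ne_zero.2 hk)) _⟩

lemma two_sq_lt_exp (n : ℕ) : (2:ℝ) * (n:ℝ) ^ 2 * Real.exp (-(4 * (n:ℝ))) < 1 := by
  rw [Real.exp_neg, mul_inv_lt_iff₀ (Real.exp_pos _), one_mul]
  have h := Real.add_one_le_exp (2 * (n:ℝ))
  have hn : (0:ℝ) ≤ n := Nat.cast_nonneg n
  have h2 : (2 * (n:ℝ) + 1) ^ 2 ≤ Real.exp (2 * (n:ℝ)) ^ 2 := pow_le_pow_left₀ (by positivity) h 2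
  rw [← Real.exp_nat_mul] at h2
  push_cast at h2
  have : (2:ℝ) * (2 * (n:ℝ)) = 4 * n := by ring
  rw [this] at h2
  nlinarith

/-- Sampling coordinates proportionally to their sensitivity. -/
theorem exists_coord_reduction {p : ℝ} (hp : 0 < p) {n N : ℕ} (hn : 2 ≤ n)
    (X : Fin n → Fin N → ℝ) (hX : Function.Injective X) :
    ∃ Y : Fin n → Fin (16 * n ^ 3) → ℝ, ∀ i j,
      powDist p (X i) (X j) / 4 ≤ powDist p (Y i) (Y j) ∧
      powDist p (Y i) (Y j) ≤ 3 * powDist p (X i) (X j) := by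
  classical
  set σ : Fin N → ℝ := fun k => ∑ i, ∑ j, |X i k - X j k| ^ p / powDist p (X i) (X j) with hσ
  have hσ0 : ∀ k, 0 ≤ σ k := fun k => Finset.sum_nonneg fun i _ => Finset.sum_nonneg fun j _ =>
    div_nonneg (Real.rpow_nonneg (abs_nonneg _) _) (powDist_nonneg _ _ _)
  set S : ℝ := ∑ k, σ k with hS
  have hSle : S ≤ (n:ℝ) ^ 2 := by
    rw [hS, hσ, Finset.sum_comm]
    calc ∑ i, ∑ k, ∑ j, |X i k - X j k| ^ p / powDist p (X i) (X j)
        = ∑ i, ∑ j, powDist p (X i) (X j) / powDist p (X i) (X j) := by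
          refine Finset.sum_congr rfl fun i _ => ?_
          rw [Finset.sum_comm]
          exact Finset.sum_congr rfl fun j _ => by rw [← Finset.sum_div]; rfl
      _ ≤ ∑ _i : Fin n, ∑ _j : Fin n, (1:ℝ) :=
          Finset.sum_le_sum fun i _ => Finset.sum_le_sum fun j _ => div_self_le_one _
      _ = _ := by simp [pow_two]
  have hsens : ∀ i j k, |X i k - X j k| ^ p ≤ σ k * powDist p (X i) (X j) := by
    intro i j k
    rcases eq_or_ne i j with rfl | hij
    · simp [Real.zero_rpow hp.ne', mul_nonneg (hσ0 k) (powDist_nonneg _ _ _)]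
    have hT : 0 < powDist p (X i) (X j) := powDist_pos (hX.ne hij)
    rw [← div_le_iff₀ hT]
    have hnn : ∀ i' j', 0 ≤ |X i' k - X j' k| ^ p / powDist p (X i') (X j') := fun _ _ =>
      div_nonneg (Real.rpow_nonneg (abs_nonneg _) _) (powDist_nonneg _ _ _)
    exact (Finset.single_le_sum (f := fun j' => |X i k - X j' k| ^ p / powDist p (X i) (X j'))
      (fun j' _ => hnn i j') (Finset.mem_univ j)).trans
      (Finset.single_le_sum (f := fun i' => ∑ j', |X i' k - X j' k| ^ p / powDist p (X i') (X j'))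
        (fun i' _ => Finset.sum_nonneg fun j' _ => hnn i' j') (Finset.mem_univ i))
  have hSpos : 0 < S := by
    set i : Fin n := ⟨0, by omega⟩
    set j : Fin n := ⟨1, by omega⟩
    have hij : i ≠ j := by simp [i, j, Fin.ext_iff]
    have hT := powDist_pos (p := p) (hX.ne hij)
    have : powDist p (X i) (X j) ≤ S * powDist p (X i) (X j) := by
      rw [hS, Finset.sum_mul]
      exact Finset.sum_le_sum fun k _ => hsens i j k
    nlinarith
  set w : Fin N → ℝ := fun k => σ k / S with hw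
  have hw0 : ∀ k, 0 ≤ w k := fun k => div_nonneg (hσ0 k) hSpos.le
  have hw1 : ∑ k, w k = 1 := by rw [hw, ← Finset.sum_div, ← hS, div_self hSpos.ne']
  set K := 16 * n ^ 3 with hK
  have hKR : (K:ℝ) = 16 * (n:ℝ) ^ 3 := by rw [hK]; push_cast; ring
  have hn1 : (1:ℝ) ≤ (n:ℝ) := by exact_mod_cast (by omega : 1 ≤ n)
  set Z : Fin n → Fin n → Fin N → ℝ := fun i j k => |X i k - X j k| ^ p / w k
  have hZ0 : ∀ i j k, 0 ≤ Z i j k := fun i j k =>
    div_nonneg (Real.rpow_nonneg (abs_nonneg _) _) (hw0 k)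
  have hmean : ∀ i j, ∑ k, w k * Z i j k = powDist p (X i) (X j) := by
    intro i j
    refine Finset.sum_congr rfl fun k _ => ?_
    rcases eq_or_ne (w k) 0 with h | h
    · have : σ k = 0 := by simpa [hw, hSpos.ne'] using h
      have h2 := hsens i j k
      rw [this, zero_mul] at h2
      simp [Z, h, le_antisymm h2 (Real.rpow_nonneg (abs_nonneg _) _)]
    · simp only [Z]; field_simp
  have hbound : ∀ i j k, Z i j k ≤ (n:ℝ) ^ 2 * powDist p (X i) (X j) := by
    intro i j k
    rcases eq_or_ne (w k) 0 with h | h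
    · simp [Z, h]; exact mul_nonneg (by positivity) (powDist_nonneg _ _ _)
    · rw [show Z i j k = |X i k - X j k| ^ p / w k from rfl,
        div_le_iff₀ (lt_of_le_of_ne (hw0 k) (Ne.symm h))]
      calc |X i k - X j k| ^ p ≤ σ k * powDist p (X i) (X j) := hsens i j k
        _ = S * powDist p (X i) (X j) * w k := by simp only [hw]; field_simp
        _ ≤ _ := by
            refine mul_le_mul_of_nonneg_right ?_ (hw0 k)
            exact mul_le_mul_of_nonneg_right hSle (powDist_nonneg _ _ _)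
  set bad : (Fin n × Fin n) × Bool → (Fin K → Fin N) → Prop := fun e om =>
    e.1.1 ≠ e.1.2 ∧ if e.2 then
      2 * K * powDist p (X e.1.1) (X e.1.2)
        + (n:ℝ) ^ 2 * powDist p (X e.1.1) (X e.1.2) * (4 * n) < ∑ l, Z e.1.1 e.1.2 (om l)
    else ∑ l, Z e.1.1 e.1.2 (om l) < K * powDist p (X e.1.1) (X e.1.2) / 2
        - (n:ℝ) ^ 2 * powDist p (X e.1.1) (X e.1.2) * (4 * n) with hbad
  obtain ⟨om, hom⟩ := exists_good (K := K) w hw0 hw1 bad (Real.exp (-(4 * (n:ℝ)))) (by
    rintro ⟨⟨i, j⟩, b⟩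
    rcases eq_or_ne i j with rfl | hij
    · refine le_trans (le_of_eq (Finset.sum_eq_zero ?_)) (Real.exp_pos _).le
      intro om hom
      simp [hbad] at hom
    have hb : 0 < (n:ℝ) ^ 2 * powDist p (X i) (X j) :=
      mul_pos (by positivity) (powDist_pos (hX.ne hij))
    obtain ⟨c1, c2⟩ := chernoff (K := K) w hw0 hw1 (Z i j) hb (hZ0 i j) (hbound i j)
      (powDist p (X i) (X j)) (powDist p (X i) (X j)) (hmean i j).ge (hmean i j).le (4 * (n:ℝ))
    cases b
    · refine le_trans (le_of_eq (Finset.sum_congr ?_ fun _ _ => rfl)) c2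
      ext om; simp [hbad, hij]
    · refine le_trans (le_of_eq (Finset.sum_congr ?_ fun _ _ => rfl)) c1
      ext om; simp [hbad, hij])
    (by
      have := two_sq_lt_exp n
      simp only [Fintype.card_prod, Fintype.card_fin, Fintype.card_bool]
      push_cast
      nlinarith)
  refine ⟨fun i l => ((w (om l) * K)⁻¹) ^ (1 / p) * X i (om l), fun i j => ?_⟩
  have hK0 : (0:ℝ) < K := by rw [hKR]; positivity
  have hY : powDist p (fun l => ((w (om l) * K)⁻¹) ^ (1 / p) * X i (om l))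
      (fun l => ((w (om l) * K)⁻¹) ^ (1 / p) * X j (om l)) = (∑ l, Z i j (om l)) / K := by
    rw [powDist, Finset.sum_div]
    refine Finset.sum_congr rfl fun l _ => ?_
    have hnn : 0 ≤ (w (om l) * K)⁻¹ := inv_nonneg.2 (mul_nonneg (hw0 _) hK0.le)
    rw [← mul_sub, abs_mul, Real.mul_rpow (abs_nonneg _) (abs_nonneg _),
      abs_of_nonneg (Real.rpow_nonneg hnn _), ← Real.rpow_mul hnn, one_div_mul_cancel hp.ne',
      Real.rpow_one]
    simp only [Z]; ring
  rw [hY]
  rcases eq_or_ne i j with rfl | hij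
  · simp [Z, powDist, Real.zero_rpow hp.ne']
  have hT := powDist_nonneg p (X i) (X j)
  have h1 : ¬ bad ((i, j), true) om := hom _
  have h2 : ¬ bad ((i, j), false) om := hom _
  simp only [hbad, hij, ne_eq, not_false_eq_true, true_and, if_true, not_lt, Bool.false_eq_true,
    if_false] at h1 h2
  rw [le_div_iff₀ hK0, div_le_iff₀ hK0]
  rw [hKR] at h1 h2 ⊢
  have hn3 : 0 ≤ (n:ℝ) ^ 3 * powDist p (X i) (X j) := mul_nonneg (by positivity) hT
  constructor <;> nlinarith

end Vale.Agent.P249
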