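import Mathlib
import Vale.Agent.P249.Chernoff
import Vale.Agent.P249.Khintchine

/-! Random signs: a sum is, half of the time, at least as large as any one of its terms. -/

namespace Vale.Agent.P249

open Finset

variable {V : Type*} [NormedAddCommGroup V] [NormedSpace ℝ V]

/-- Flip one bit. -/
def flipOthers {W : ℕ} (i0 : Fin W) (σ : Fin W → Bool) : Fin W → Bool :=
  fun i => if i = i0 then σ i else !(σ i)

lemma flipOthers_bijective {W : ℕ} (i0 : Fin W) : Function.Bijective (flipOthers i0) := by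
  refine Function.Involutive.bijective fun σ => ?_
  funext i
  by_cases h : i = i0 <;> simp [flipOthers, h]

lemma signed_pair_ge {W : ℕ} (v : Fin W → V) (i0 : Fin W) (σ : Fin W → Bool) :
    ‖v i0‖ ≤ ‖∑ i, sgnB (σ i) • v i‖ ∨ ‖v i0‖ ≤ ‖∑ i, sgnB (flipOthers i0 σ i) • v i‖ := by
  have hsum : (∑ i, sgnB (σ i) • v i) + ∑ i, sgnB (flipOthers i0 σ i) • v i
      = (2 * sgnB (σ i0)) • v i0 := by
    rw [← Finset.sum_add_distrib, Finset.sum_eq_single i0]
    · simp [flipOthers, ← add_smul, two_mul]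
    · intro i _ hi
      rw [← add_smul]
      cases h : σ i <;> simp [flipOthers, hi, h, sgnB]
    · simp
  by_contra hc
  push Not at hc
  have h2 := norm_add_le (∑ i, sgnB (σ i) • v i) (∑ i, sgnB (flipOthers i0 σ i) • v i)
  rw [hsum, norm_smul, Real.norm_eq_abs, abs_mul, abs_two, abs_sgnB, mul_one] at h2
  linarith [hc.1, hc.2]

/-- A short list of sign patterns good for finitely many families at once. -/
theorem exists_signs {E : Type*} [Fintype E] {W : ℕ} (v : E → Fin W → V) (i0 : E → Fin W)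
    {R : ℕ} {L : ℝ} (hfail : (Fintype.card E : ℝ) * Real.exp (-L) < 1) (hR : 8 * L ≤ R) :
    ∃ σ : Fin R → Fin W → Bool, ∀ e, (R : ℝ) / 8 ≤
      ∑ k, (if ‖v e (i0 e)‖ ≤ ‖∑ i, sgnB (σ k i) • v e i‖ then (1:ℝ) else 0) := by
  classical
  set w : (Fin W → Bool) → ℝ := fun _ => ((2:ℝ) ^ W)⁻¹ with hw
  have hw0 : ∀ a, 0 ≤ w a := fun a => by positivity
  have hw1 : ∑ a, w a = 1 := by simp [hw]
  set Z : E → (Fin W → Bool) → ℝ :=
    fun e a => if ‖v e (i0 e)‖ ≤ ‖∑ i, sgnB (a i) • v e i‖ then 1 else 0 with hZ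
  have hZ0 : ∀ e a, 0 ≤ Z e a := fun e a => by simp only [hZ]; split_ifs <;> norm_num
  have hZ1 : ∀ e a, Z e a ≤ 1 := fun e a => by simp only [hZ]; split_ifs <;> norm_num
  have hmean : ∀ e, 1 / 2 ≤ ∑ a, w a * Z e a := by
    intro e
    have h1 : ∑ a, w a * Z e (flipOthers (i0 e) a) = ∑ a, w a * Z e a :=
      Fintype.sum_bijective _ (flipOthers_bijective (i0 e)) _ _ fun a => rfl
    have h2 : ∑ a, w a * 1 ≤ ∑ a, (w a * Z e a + w a * Z e (flipOthers (i0 e) a)) := by
      refine Finset.sum_le_sum fun a _ => ?_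
      rw [← mul_add]
      refine mul_le_mul_of_nonneg_left ?_ (hw0 a)
      have := hZ0 e a
      have := hZ0 e (flipOthers (i0 e) a)
      rcases signed_pair_ge (v e) (i0 e) a with h | h
      · simp only [hZ] at *; rw [if_pos h] at *; linarith
      · simp only [hZ] at *; rw [if_pos h] at *; linarith
    simp only [mul_one, hw1, Finset.sum_add_distrib, h1] at h2
    linarith
  obtain ⟨σ, hσ⟩ := exists_good (K := R) w hw0 hw1
    (fun e om => ∑ k, Z e (om k) < R * (1 / 2 : ℝ) / 2 - 1 * L) (Real.exp (-L))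
    (fun e => by
      refine le_trans (le_of_eq (Finset.sum_congr ?_ fun _ _ => rfl))
        (chernoff (K := R) w hw0 hw1 (Z e) one_pos (hZ0 e) (hZ1 e) (1 / 2) 1 (hmean e) (by
          calc ∑ a, w a * Z e a ≤ ∑ a, w a * 1 :=
                Finset.sum_le_sum fun a _ => mul_le_mul_of_nonneg_left (hZ1 e a) (hw0 a)
            _ = 1 := by simp [hw1]) L).2
      ext om; simp) hfail
  refine ⟨σ, fun e => ?_⟩
  have := hσ e
  push Not at this
  simp only [hZ] at this
  linarith

end Vale.Agent.P249
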