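import Mathlib
import Vale.Agent.P249.Khintchine
import Vale.Agent.P249.Chernoff
import Vale.Agent.P249.Reduce
import Vale.Agent.P249.Signs

/-! Combining windows by random signs, and elementary bounds. -/

namespace Vale.Agent.P249

open Finset

lemma log_fail_bound {n : ℕ} (hn : 2 ≤ n) :
    2 * (n:ℝ) ^ 2 * Real.exp (-(3 * Real.log n + 2)) < 1 := by
  have hn0 : (0:ℝ) < n := by exact_mod_cast (by omega : 0 < n)
  have h1 : Real.exp (3 * Real.log n + 2) = (n:ℝ) ^ 3 * Real.exp 2 := by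
    rw [Real.exp_add]
    congr 1
    rw [show (3:ℝ) = ((3:ℕ) : ℝ) by norm_num, Real.exp_nat_mul, Real.exp_log hn0]
  rw [Real.exp_neg, h1, mul_inv_lt_iff₀ (by positivity), one_mul]
  have he : 2 < Real.exp 2 := by linarith [Real.add_one_le_exp (2:ℝ)]
  have hn2 : (n:ℝ) ^ 2 ≤ (n:ℝ) ^ 3 := pow_le_pow_right₀ (by exact_mod_cast (by omega : 1 ≤ n)) (by norm_num)
  calc 2 * (n:ℝ) ^ 2 ≤ 2 * (n:ℝ) ^ 3 := by linarith
    _ < Real.exp 2 * (n:ℝ) ^ 3 := mul_lt_mul_of_pos_right he (by positivity)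
    _ = _ := by ring

lemma log_add_one_le {n : ℕ} (hn : 1 ≤ n) {g : ℝ} (hg : 0 < g) :
    Real.log n + 1 ≤ (1 / g + 1) * (n:ℝ) ^ g := by
  have h1 := Real.log_le_rpow_div (Nat.cast_nonneg n) hg
  have h2 : (1:ℝ) ≤ (n:ℝ) ^ g := Real.one_le_rpow (by exact_mod_cast hn) hg.le
  calc Real.log n + 1 ≤ (n:ℝ) ^ g / g + (n:ℝ) ^ g := by linarith
    _ = _ := by ring

lemma lpNorm_pow {ι : Type*} [Fintype ι] {p : ℝ} (hp : 0 < p) [Fact (1 ≤ ENNReal.ofReal p)]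
    (u v : ι → ℝ) :
    ‖(WithLp.toLp (ENNReal.ofReal p) u : PiLp (ENNReal.ofReal p) fun _ : ι => ℝ)
      - WithLp.toLp (ENNReal.ofReal p) v‖ = powDist p u v ^ (1 / p) := by
  have hr : (ENNReal.ofReal p).toReal = p := ENNReal.toReal_ofReal hp.le
  rw [PiLp.norm_eq_sum (by rw [hr]; exact hp), hr]
  simp [powDist, Real.norm_eq_abs]

lemma signs_combine {p : ℝ} (hp : 0 < p) [Fact (1 ≤ ENNReal.ofReal p)] {κ : Type*} [Fintype κ]
    {n Wn R : ℕ} (hn : 2 ≤ n) {L : ℝ} (hL : L = 3 * Real.log n + 2) (hR : 8 * L ≤ R)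
    (F : Fin Wn → Fin n → PiLp (ENNReal.ofReal p) (fun _ : κ => ℝ))
    (t : Fin n → Fin n → ℝ) (ht : ∀ x y, 0 ≤ t x y) {D1 c : ℝ} (hc : 0 ≤ c)
    (hsum : ∀ x y, ∑ i, ‖F i x - F i y‖ ≤ D1 * t x y)
    (hex : ∀ x y, x ≠ y → ∃ i, c * t x y ≤ ‖F i x - F i y‖) :
    ∃ f : Fin n → Fin (Fintype.card (Fin R × κ)) → ℝ, ∀ x y, x ≠ y →
      (R:ℝ) / 8 * (c * t x y) ^ p ≤ powDist p (f x) (f y) ∧
      powDist p (f x) (f y) ≤ (R:ℝ) * (D1 * t x y) ^ p := by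
  classical
  have hexv : ∀ e : {e : Fin n × Fin n // e.1 ≠ e.2}, ∃ i,
      c * t e.1.1 e.1.2 ≤ ‖F i e.1.1 - F i e.1.2‖ := fun e => hex e.1.1 e.1.2 e.2
  choose i0 hi0 using hexv
  obtain ⟨σ, hσ⟩ := exists_signs
    (fun (e : {e : Fin n × Fin n // e.1 ≠ e.2}) i => F i e.1.1 - F i e.1.2) i0 (R := R) (L := L) (by
      have hcard : (Fintype.card {e : Fin n × Fin n // e.1 ≠ e.2} : ℝ) ≤ (n:ℝ) ^ 2 := by
        have := Fintype.card_subtype_le (fun e : Fin n × Fin n => e.1 ≠ e.2)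
        rw [Fintype.card_prod, Fintype.card_fin] at this
        rw [sq]; exact_mod_cast this
      have := log_fail_bound hn
      rw [← hL] at this
      nlinarith [Real.exp_pos (-L)]) hR
  refine ⟨fun x z => WithLp.ofLp (∑ i, sgnB (σ ((Fintype.equivFin (Fin R × κ)).symm z).1 i) • F i x)
    ((Fintype.equivFin (Fin R × κ)).symm z).2, fun x y hxy => ?_⟩
  have hpow : powDist p
      (fun z => WithLp.ofLp (∑ i, sgnB (σ ((Fintype.equivFin (Fin R × κ)).symm z).1 i) • F i x)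
        ((Fintype.equivFin (Fin R × κ)).symm z).2)
      (fun z => WithLp.ofLp (∑ i, sgnB (σ ((Fintype.equivFin (Fin R × κ)).symm z).1 i) • F i y)
        ((Fintype.equivFin (Fin R × κ)).symm z).2)
      = ∑ k, ‖(∑ i, sgnB (σ k i) • F i x) - ∑ i, sgnB (σ k i) • F i y‖ ^ p := by
    rw [powDist, Equiv.sum_comp (Fintype.equivFin (Fin R × κ)).symm
      (fun u => |WithLp.ofLp (∑ i, sgnB (σ u.1 i) • F i x) u.2
        - WithLp.ofLp (∑ i, sgnB (σ u.1 i) • F i y) u.2| ^ p),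
      Fintype.sum_prod_type]
    refine Finset.sum_congr rfl fun k _ => ?_
    have := lpNorm_pow hp (WithLp.ofLp (∑ i, sgnB (σ k i) • F i x))
      (WithLp.ofLp (∑ i, sgnB (σ k i) • F i y))
    simp only [WithLp.toLp_ofLp] at this
    rw [this, ← Real.rpow_mul (powDist_nonneg _ _ _), one_div_mul_cancel hp.ne', Real.rpow_one]
    rfl
  rw [hpow]
  simp only [← Finset.sum_sub_distrib, ← smul_sub]
  constructor
  · refine le_trans (mul_le_mul_of_nonneg_right (hσ ⟨(x, y), hxy⟩)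
      (Real.rpow_nonneg (mul_nonneg hc (ht x y)) _)) ?_
    rw [Finset.sum_mul]
    refine Finset.sum_le_sum fun k _ => ?_
    split_ifs with hk
    · rw [one_mul]
      exact Real.rpow_le_rpow (mul_nonneg hc (ht x y)) (le_trans (hi0 ⟨(x, y), hxy⟩) hk) hp.le
    · rw [zero_mul]; exact Real.rpow_nonneg (norm_nonneg _) _
  · refine (Finset.sum_le_sum (g := fun _ => (D1 * t x y) ^ p) fun k _ => ?_).trans
      (le_of_eq (by simp))
    refine Real.rpow_le_rpow (norm_nonneg _) ((norm_sum_le _ _).trans ?_) hp.le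
    simp only [norm_smul, Real.norm_eq_abs, abs_sgnB, one_mul]
    exact hsum x y

lemma final_bounds {p : ℝ} (hp1 : 1 ≤ p) {TX F D1 TY : ℝ} {R : ℕ} (hX : 0 ≤ TX) (hF : 0 ≤ F)
    (hD : 1 ≤ D1) (h1 : TX / 4 ≤ TY) (h2 : TY ≤ 3 * TX)
    (hlo : (R:ℝ) / 8 * (1 / 2048 * TY ^ (1 / p)) ^ p ≤ F)
    (hhi : F ≤ (R:ℝ) * (D1 * TY ^ (1 / p)) ^ p) :
    (R:ℝ) ^ (1 / p) / 65536 * TX ^ (1 / p) ≤ F ^ (1 / p) ∧
      F ^ (1 / p) ≤ 3 * D1 * 65536 * ((R:ℝ) ^ (1 / p) / 65536 * TX ^ (1 / p)) := by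
  have hp0 : 0 < p := by linarith
  have hp' : 1 / p ≤ 1 := (div_le_one hp0).2 hp1
  have hY : 0 ≤ TY := by linarith
  have hR0 : (0:ℝ) ≤ R := Nat.cast_nonneg R
  set τ := TY ^ (1 / p) with hτ
  have hτ0 : 0 ≤ τ := Real.rpow_nonneg hY _
  have hroot : ∀ z : ℝ, 0 ≤ z → ((R:ℝ) * z ^ p) ^ (1 / p) = (R:ℝ) ^ (1 / p) * z := fun z hz => by
    rw [Real.mul_rpow hR0 (Real.rpow_nonneg hz _), ← Real.rpow_mul hz,
      mul_one_div_cancel hp0.ne', Real.rpow_one]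
  have hτlo : TX ^ (1 / p) / 4 ≤ τ := by
    calc TX ^ (1 / p) / 4 = 1 / 4 * TX ^ (1 / p) := by ring
      _ ≤ (1 / 4 : ℝ) ^ (1 / p) * TX ^ (1 / p) := mul_le_mul_of_nonneg_right
          (Real.self_le_rpow_of_le_one (by norm_num) (by norm_num) hp') (Real.rpow_nonneg hX _)
      _ = (1 / 4 * TX) ^ (1 / p) := by rw [Real.mul_rpow (by norm_num) hX]
      _ ≤ _ := Real.rpow_le_rpow (by positivity) (by linarith) (by positivity)
  have hτhi : τ ≤ 3 * TX ^ (1 / p) := by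
    calc τ ≤ (3 * TX) ^ (1 / p) := Real.rpow_le_rpow hY h2 (by positivity)
      _ = (3:ℝ) ^ (1 / p) * TX ^ (1 / p) := by rw [Real.mul_rpow (by norm_num) hX]
      _ ≤ _ := mul_le_mul_of_nonneg_right ((Real.rpow_le_rpow_of_exponent_le (by norm_num) hp').trans_eq
          (Real.rpow_one _)) (Real.rpow_nonneg hX _)
  have hRp : 0 ≤ (R:ℝ) ^ (1 / p) := Real.rpow_nonneg hR0 _
  constructor
  · have e1 := Real.rpow_le_rpow (by positivity) hlo (show 0 ≤ 1 / p by positivity)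
    rw [show (R:ℝ) / 8 * (1 / 2048 * τ) ^ p = 1 / 8 * ((R:ℝ) * (1 / 2048 * τ) ^ p) by ring,
      Real.mul_rpow (by norm_num) (by positivity), hroot _ (by positivity)] at e1
    refine le_trans ?_ e1
    have e8 : (1 / 8 : ℝ) ≤ (1 / 8 : ℝ) ^ (1 / p) :=
      Real.self_le_rpow_of_le_one (by norm_num) (by norm_num) hp'
    calc (R:ℝ) ^ (1 / p) / 65536 * TX ^ (1 / p)
        = 1 / 8 * ((R:ℝ) ^ (1 / p) * (1 / 2048 * (TX ^ (1 / p) / 4))) := by ring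
      _ ≤ _ := by gcongr
  · have e1 := Real.rpow_le_rpow hF hhi (show 0 ≤ 1 / p by positivity)
    rw [hroot _ (by positivity)] at e1
    refine e1.trans ?_
    calc (R:ℝ) ^ (1 / p) * (D1 * τ) ≤ (R:ℝ) ^ (1 / p) * (D1 * (3 * TX ^ (1 / p))) := by gcongr
      _ = _ := by ring

end Vale.Agent.P249
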