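import Mathlib

/-!
Gluing of scales in a finite metric: averaging a map over metric balls whose radius ranges over
`U` consecutive dyadic scales costs, summed over all windows, only `O(log n / U)`.
-/

namespace Vale.Agent.P249

open Finset

variable {n : ℕ} {V : Type*} [NormedAddCommGroup V] [NormedSpace ℝ V]

/-- A closed ball in a finite metric given by a function. -/
noncomputable def ballF (t : Fin n → Fin n → ℝ) (x : Fin n) (R : ℝ) : Finset (Fin n) :=
  Finset.univ.filter (fun z => t x z ≤ R)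

lemma ballF_mono (t : Fin n → Fin n → ℝ) (x : Fin n) {R R' : ℝ} (h : R ≤ R') :
    ballF t x R ⊆ ballF t x R' := fun z hz => by
  simp only [ballF, Finset.mem_filter, Finset.mem_univ, true_and] at hz ⊢
  linarith

/-- Log of the cardinality of a ball. -/
noncomputable def logBall (t : Fin n → Fin n → ℝ) (x : Fin n) (R : ℝ) : ℝ :=
  Real.log ((ballF t x R).card : ℝ)

lemma logBall_nonneg (t : Fin n → Fin n → ℝ) (x : Fin n) (R : ℝ) : 0 ≤ logBall t x R :=
  Real.log_natCast_nonneg _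

lemma logBall_le (t : Fin n → Fin n → ℝ) (x : Fin n) (R : ℝ) : logBall t x R ≤ Real.log n := by
  rcases Nat.eq_zero_or_pos (ballF t x R).card with h | h
  · simp only [logBall, h, Nat.cast_zero, Real.log_zero]
    exact Real.log_natCast_nonneg n
  · refine Real.log_le_log (by exact_mod_cast h) ?_
    exact_mod_cast (Finset.card_le_univ _).trans (le_of_eq (Fintype.card_fin n))

lemma logBall_mono (t : Fin n → Fin n → ℝ) (x : Fin n) : Monotone (logBall t x) := by
  intro R R' h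
  rcases Nat.eq_zero_or_pos (ballF t x R).card with h0 | h0
  · rw [logBall, h0, Nat.cast_zero, Real.log_zero]; exact logBall_nonneg _ _ _
  · exact Real.log_le_log (by exact_mod_cast h0)
      (by exact_mod_cast Finset.card_le_card (ballF_mono t x h))

/-- The average over a finite set. -/
noncomputable def avgF (s : Finset (Fin n)) (G : Fin n → V) : V :=
  (s.card : ℝ)⁻¹ • ∑ z ∈ s, G z

lemma norm_avgF_sub_le {s : Finset (Fin n)} (hs : s.Nonempty) (G : Fin n → V) (v : V) {δ : ℝ}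
    (h : ∀ z ∈ s, ‖G z - v‖ ≤ δ) : ‖avgF s G - v‖ ≤ δ := by
  have hc : (0:ℝ) < s.card := by exact_mod_cast hs.card_pos
  have he : avgF s G - v = (s.card : ℝ)⁻¹ • ∑ z ∈ s, (G z - v) := by
    rw [avgF, Finset.sum_sub_distrib, smul_sub, Finset.sum_const, ← Nat.cast_smul_eq_nsmul ℝ,
      inv_smul_smul₀ hc.ne']
  rw [he, norm_smul, Real.norm_eq_abs, abs_of_pos (inv_pos.2 hc), inv_mul_le_iff₀ hc]
  calc ‖∑ z ∈ s, (G z - v)‖ ≤ ∑ z ∈ s, ‖G z - v‖ := norm_sum_le _ _
    _ ≤ ∑ _z ∈ s, δ := Finset.sum_le_sum h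
    _ = _ := by simp

lemma norm_avgF_subset {A O : Finset (Fin n)} (hA : A.Nonempty) (hAO : A ⊆ O) (G : Fin n → V)
    {δ : ℝ} (hδ : 0 ≤ δ) (h : ∀ z ∈ O, ∀ z' ∈ O, ‖G z - G z'‖ ≤ δ) :
    ‖avgF A G - avgF O G‖ ≤ δ * (Real.log O.card - Real.log A.card) := by
  classical
  have hO : O.Nonempty := hA.mono hAO
  have hcA : (0:ℝ) < A.card := by exact_mod_cast hA.card_pos
  have hcO : (0:ℝ) < O.card := by exact_mod_cast hO.card_pos
  have he : avgF A G - avgF O G = (O.card : ℝ)⁻¹ • ∑ z ∈ O \ A, (avgF A G - G z) := by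
    have h1 : ∑ z ∈ O, G z = ∑ z ∈ O \ A, G z + ∑ z ∈ A, G z := (Finset.sum_sdiff hAO).symm
    have h2 : ∑ z ∈ A, G z = (A.card : ℝ) • avgF A G := by
      rw [avgF, smul_inv_smul₀ hcA.ne']
    have h3 : ((O \ A).card : ℝ) = (O.card : ℝ) - A.card := by
      rw [Finset.card_sdiff_of_subset hAO, Nat.cast_sub (Finset.card_le_card hAO)]
    calc avgF A G - avgF O G
        = (O.card : ℝ)⁻¹ • ((O.card : ℝ) • avgF A G - ∑ z ∈ O, G z) := by
          rw [smul_sub, inv_smul_smul₀ hcO.ne']; rfl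
      _ = _ := by
          congr 1
          rw [h1, h2, Finset.sum_sub_distrib, Finset.sum_const, ← Nat.cast_smul_eq_nsmul ℝ, h3,
            sub_smul]
          abel
  rw [he, norm_smul, Real.norm_eq_abs, abs_of_pos (inv_pos.2 hcO)]
  have hb : ‖∑ z ∈ O \ A, (avgF A G - G z)‖ ≤ ((O \ A).card : ℝ) * δ := by
    refine (norm_sum_le _ _).trans ?_
    calc ∑ z ∈ O \ A, ‖avgF A G - G z‖ ≤ ∑ _z ∈ O \ A, δ :=
          Finset.sum_le_sum fun z hz => norm_avgF_sub_le hA G _ fun z' hz' =>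
            h z' (hAO hz') z (Finset.mem_sdiff.1 hz).1
      _ = _ := by simp
  refine (mul_le_mul_of_nonneg_left hb (inv_nonneg.2 hcO.le)).trans ?_
  rw [Finset.card_sdiff_of_subset hAO, Nat.cast_sub (Finset.card_le_card hAO),
    ← Real.log_div hcO.ne' hcA.ne']
  calc (O.card : ℝ)⁻¹ * (((O.card : ℝ) - A.card) * δ) = δ * (1 - ((O.card : ℝ) / A.card)⁻¹) := by
        field_simp
    _ ≤ _ := mul_le_mul_of_nonneg_left (Real.one_sub_inv_le_log_of_pos (by positivity)) hδ

/-- A finite metric given by a function. -/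
structure FMetric (t : Fin n → Fin n → ℝ) : Prop where
  self : ∀ x, t x x = 0
  symm : ∀ x y, t x y = t y x
  tri : ∀ x y z, t x z ≤ t x y + t y z
  pos : ∀ x y, x ≠ y → 0 < t x y

lemma FMetric.nonneg {t : Fin n → Fin n → ℝ} (ht : FMetric t) (x y : Fin n) : 0 ≤ t x y := by
  rcases eq_or_ne x y with rfl | h
  · rw [ht.self]
  · exact (ht.pos x y h).le

lemma mem_ballF_self {t : Fin n → Fin n → ℝ} (ht : FMetric t) (x : Fin n) {R : ℝ} (hR : 0 ≤ R) :
    x ∈ ballF t x R := by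
  simp [ballF, ht.self, hR]

/-- Averages over two nearby balls. -/
lemma norm_ball_avg_sub {t : Fin n → Fin n → ℝ} (ht : FMetric t) (x y : Fin n) {R : ℝ}
    (hR : t x y ≤ R) (G : Fin n → V) {δ : ℝ} (hδ : 0 ≤ δ)
    (h : ∀ z ∈ ballF t x (R + t x y), ∀ z' ∈ ballF t x (R + t x y), ‖G z - G z'‖ ≤ δ) :
    ‖avgF (ballF t x R) G - avgF (ballF t y R) G‖
      ≤ 2 * δ * (logBall t x (R + t x y) - logBall t x (R - t x y)) := by
  have h0 := ht.nonneg x y
  set O := ballF t x (R + t x y)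
  have hI : (ballF t x (R - t x y)).Nonempty := ⟨x, mem_ballF_self ht x (by linarith)⟩
  have hsub : ∀ A : Finset (Fin n), ballF t x (R - t x y) ⊆ A → A ⊆ O →
      ‖avgF A G - avgF O G‖ ≤ δ * (logBall t x (R + t x y) - logBall t x (R - t x y)) := by
    intro A h1 h2
    refine (norm_avgF_subset (hI.mono h1) h2 G hδ h).trans (mul_le_mul_of_nonneg_left ?_ hδ)
    have : Real.log ((ballF t x (R - t x y)).card : ℝ) ≤ Real.log (A.card : ℝ) :=
      Real.log_le_log (by exact_mod_cast hI.card_pos) (by exact_mod_cast Finset.card_le_card h1)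
    simp only [logBall, O]
    linarith
  have e1 := hsub (ballF t x R) (ballF_mono t x (by linarith)) (ballF_mono t x (by linarith))
  have e2 := hsub (ballF t y R)
    (fun z hz => by
      simp only [ballF, Finset.mem_filter, Finset.mem_univ, true_and] at hz ⊢
      linarith [ht.tri y x z, ht.symm x y])
    (fun z hz => by
      simp only [O, ballF, Finset.mem_filter, Finset.mem_univ, true_and] at hz ⊢
      linarith [ht.tri x y z])
  calc ‖avgF (ballF t x R) G - avgF (ballF t y R) G‖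
      ≤ ‖avgF (ballF t x R) G - avgF O G‖ + ‖avgF (ballF t y R) G - avgF O G‖ := by
        rw [norm_sub_rev (avgF (ballF t y R) G)]
        exact norm_sub_le_norm_sub_add_norm_sub _ _ _
    _ ≤ _ := by linarith

/-- The radius average at scale `2^k`, with `S` sample radii. -/
noncomputable def smoothAt (t : Fin n → Fin n → ℝ) (S : ℕ) (k : ℤ) (G : Fin n → V) (x : Fin n) :
    V :=
  (S : ℝ)⁻¹ • ∑ s ∈ Finset.range S, avgF (ballF t x ((2:ℝ) ^ k + s * ((2:ℝ) ^ k / S))) G

lemma smoothAt_near {t : Fin n → Fin n → ℝ} (ht : FMetric t) {S : ℕ} (hS : 0 < S) (k : ℤ)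
    (G : Fin n → V) (x : Fin n) (v : V) {δ : ℝ}
    (h : ∀ z, t x z ≤ 2 * (2:ℝ) ^ k → ‖G z - v‖ ≤ δ) :
    ‖smoothAt t S k G x - v‖ ≤ δ := by
  have hSR : (0:ℝ) < S := by exact_mod_cast hS
  have h2 : (0:ℝ) < (2:ℝ) ^ k := zpow_pos (by norm_num) k
  have he : smoothAt t S k G x - v = (S:ℝ)⁻¹ • ∑ s ∈ Finset.range S,
      (avgF (ballF t x ((2:ℝ) ^ k + s * ((2:ℝ) ^ k / S))) G - v) := by
    rw [smoothAt, Finset.sum_sub_distrib, smul_sub, Finset.sum_const, Finset.card_range,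
      ← Nat.cast_smul_eq_nsmul ℝ, inv_smul_smul₀ hSR.ne']
  rw [he, norm_smul, Real.norm_eq_abs, abs_of_pos (inv_pos.2 hSR), inv_mul_le_iff₀ hSR]
  refine (norm_sum_le _ _).trans ((Finset.sum_le_sum (g := fun _ => δ) fun s hs => ?_).trans ?_)
  · refine norm_avgF_sub_le ⟨x, mem_ballF_self ht x (by positivity)⟩ G v fun z hz => h z ?_
    simp only [ballF, Finset.mem_filter, Finset.mem_univ, true_and] at hz
    have hsS : (s:ℝ) ≤ S := by exact_mod_cast (Finset.mem_range.1 hs).le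
    have hmul : (s:ℝ) * ((2:ℝ) ^ k / S) ≤ (S:ℝ) * ((2:ℝ) ^ k / S) :=
      mul_le_mul_of_nonneg_right hsS (by positivity)
    rw [mul_div_cancel₀ _ hSR.ne'] at hmul
    linarith
  · simp

lemma sum_shift (a : ℕ → ℝ) (m S : ℕ) :
    ∑ s ∈ Finset.range S, (a (s + m) - a s) = ∑ j ∈ Finset.range m, (a (S + j) - a j) := by
  have h1 := Finset.sum_range_add a m S
  have h2 := Finset.sum_range_add a S m
  have h3 : ∑ s ∈ Finset.range S, a (s + m) = ∑ s ∈ Finset.range S, a (m + s) :=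
    Finset.sum_congr rfl fun s _ => by rw [add_comm]
  rw [Finset.sum_sub_distrib, Finset.sum_sub_distrib, h3]
  rw [add_comm m S] at h1
  linarith

/-- The gradient bound at one scale. -/
lemma smoothAt_gradient {t : Fin n → Fin n → ℝ} (ht : FMetric t) {S : ℕ} (hS : 0 < S) (k : ℤ)
    (x y : Fin n) (hsmall : 2 * t x y ≤ (2:ℝ) ^ k) (hfine : (2:ℝ) ^ k / S ≤ t x y)
    (G : Fin n → V) {δ : ℝ} (hδ : 0 ≤ δ)
    (h : ∀ z z', t x z ≤ 3 * (2:ℝ) ^ k → t x z' ≤ 3 * (2:ℝ) ^ k → ‖G z - G z'‖ ≤ δ) :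
    ‖smoothAt t S k G x - smoothAt t S k G y‖
      ≤ 6 * δ * (t x y / (2:ℝ) ^ k) *
        (logBall t x ((2:ℝ) ^ (k + 2)) - logBall t x ((2:ℝ) ^ (k - 1))) := by
  have hSR : (0:ℝ) < S := by exact_mod_cast hS
  have h2 : (0:ℝ) < (2:ℝ) ^ k := zpow_pos (by norm_num) k
  set τ := t x y with hτ
  set η := (2:ℝ) ^ k / S with hη
  have hη0 : 0 < η := by positivity
  set m := ⌈2 * τ / η⌉₊
  have hτ0 : 0 < τ := lt_of_lt_of_le hη0 hfine
  have hm1 : 2 * τ / η ≤ (m:ℝ) := Nat.le_ceil _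
  have hm2 : (m:ℝ) ≤ 3 * τ / η := by
    have := Nat.ceil_lt_add_one (show 0 ≤ 2 * τ / η by positivity)
    have h1 : 1 ≤ τ / η := (one_le_div hη0).2 hfine
    have : 3 * τ / η = 2 * τ / η + τ / η := by ring
    linarith
  rw [div_le_iff₀ hη0] at hm1
  have hm2' : (m:ℝ) * η ≤ 3 * τ := (le_div_iff₀ hη0).1 hm2
  have hSη : (S:ℝ) * η = (2:ℝ) ^ k := mul_div_cancel₀ _ hSR.ne'
  set a : ℕ → ℝ := fun u => logBall t x ((2:ℝ) ^ k + u * η - τ)
  have hrad : ∀ s ∈ Finset.range S, (2:ℝ) ^ k + s * η + τ ≤ 3 * (2:ℝ) ^ k := by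
    intro s hs
    have : (s:ℝ) * η ≤ (S:ℝ) * η :=
      mul_le_mul_of_nonneg_right (by exact_mod_cast (Finset.mem_range.1 hs).le) hη0.le
    linarith
  have hterm : ∀ s ∈ Finset.range S,
      ‖avgF (ballF t x ((2:ℝ) ^ k + s * η)) G - avgF (ballF t y ((2:ℝ) ^ k + s * η)) G‖
        ≤ 2 * δ * (a (s + m) - a s) := by
    intro s hs
    have hb := hrad s hs
    have hsn : 0 ≤ (s:ℝ) * η := by positivity
    refine (norm_ball_avg_sub ht x y (R := (2:ℝ) ^ k + s * η) (by linarith) G hδ ?_).trans ?_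
    · intro z hz z' hz'
      simp only [ballF, Finset.mem_filter, Finset.mem_univ, true_and] at hz hz'
      exact h z z' (by linarith) (by linarith)
    · refine mul_le_mul_of_nonneg_left (sub_le_sub_right (logBall_mono t x ?_) _) (by linarith)
      push_cast
      rw [add_mul]
      linarith
  have hdiff : smoothAt t S k G x - smoothAt t S k G y = (S:ℝ)⁻¹ • ∑ s ∈ Finset.range S,
      (avgF (ballF t x ((2:ℝ) ^ k + s * η)) G - avgF (ballF t y ((2:ℝ) ^ k + s * η)) G) := by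
    rw [smoothAt, smoothAt, ← smul_sub, ← Finset.sum_sub_distrib]
  rw [hdiff, norm_smul, Real.norm_eq_abs, abs_of_pos (inv_pos.2 hSR)]
  have htop : (2:ℝ) ^ (k + 2) = 4 * (2:ℝ) ^ k := by
    rw [zpow_add₀ (by norm_num : (2:ℝ) ≠ 0)]; norm_num; ring
  have hbot : (2:ℝ) ^ (k - 1) = (2:ℝ) ^ k / 2 := by
    rw [zpow_sub₀ (by norm_num : (2:ℝ) ≠ 0)]; norm_num
  set Lk := logBall t x ((2:ℝ) ^ (k + 2)) - logBall t x ((2:ℝ) ^ (k - 1))
  have hsum : ∑ s ∈ Finset.range S, (a (s + m) - a s) ≤ (m:ℝ) * Lk := by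
    rw [sum_shift]
    calc ∑ j ∈ Finset.range m, (a (S + j) - a j) ≤ ∑ _j ∈ Finset.range m, Lk := by
          refine Finset.sum_le_sum fun j hj => sub_le_sub (logBall_mono t x ?_) (logBall_mono t x ?_)
          · have : (j:ℝ) * η ≤ (m:ℝ) * η :=
              mul_le_mul_of_nonneg_right (by exact_mod_cast (Finset.mem_range.1 hj).le) hη0.le
            push_cast
            rw [add_mul, htop]
            linarith
          · have : 0 ≤ (j:ℝ) * η := by positivity
            rw [hbot]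
            linarith
      _ = _ := by simp
  have hLk : 0 ≤ Lk := by
    refine sub_nonneg.2 (logBall_mono t x ?_)
    rw [htop, hbot]; linarith
  calc (S:ℝ)⁻¹ * ‖∑ s ∈ Finset.range S,
        (avgF (ballF t x ((2:ℝ) ^ k + s * η)) G - avgF (ballF t y ((2:ℝ) ^ k + s * η)) G)‖
      ≤ (S:ℝ)⁻¹ * (2 * δ * ((m:ℝ) * Lk)) := by
        refine mul_le_mul_of_nonneg_left ?_ (by positivity)
        refine (norm_sum_le _ _).trans ((Finset.sum_le_sum hterm).trans ?_)
        rw [← Finset.mul_sum]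
        exact mul_le_mul_of_nonneg_left hsum (by linarith)
    _ ≤ (S:ℝ)⁻¹ * (2 * δ * (3 * τ / η * Lk)) := by gcongr
    _ = _ := by
        rw [hη]; field_simp; ring

/-- The glued map in one window. -/
noncomputable def windowMap (t : Fin n → Fin n → ℝ) (S U : ℕ) (G : ℤ → Fin n → V) (w : ℤ)
    (x : Fin n) : V :=
  (U : ℝ)⁻¹ • ∑ u ∈ Finset.range U, smoothAt t S (w * U + u) (G w) x

lemma card_interval_le {J : Finset ℕ} {P : ℕ} (h : ∀ i ∈ J, ∀ j ∈ J, i < j + P) : J.card ≤ P := by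
  rcases J.eq_empty_or_nonempty with rfl | hJ
  · simp
  have hsub : J ⊆ Finset.Ico (J.min' hJ) (J.min' hJ + P) := fun i hi =>
    Finset.mem_Ico.2 ⟨Finset.min'_le _ _ hi, h i hi _ (Finset.min'_mem _ _)⟩
  calc J.card ≤ (Finset.Ico (J.min' hJ) (J.min' hJ + P)).card := Finset.card_le_card hsub
    _ = P := by simp

lemma sum_two_pow_le {J : Finset ℕ} (k0 : ℤ) (b : ℝ) (hb : 0 ≤ b)
    (h : ∀ j ∈ J, (2:ℝ) ^ (k0 + j) ≤ b) : ∑ j ∈ J, (2:ℝ) ^ (k0 + j) ≤ 2 * b := by
  rcases J.eq_empty_or_nonempty with rfl | hJ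
  · simpa using hb
  set M := J.max' hJ
  have hM := h M (Finset.max'_mem _ _)
  have hgeo : ∀ M : ℕ, ∑ j ∈ Finset.range (M + 1), (2:ℝ) ^ j ≤ 2 * 2 ^ M := by
    intro M
    rw [geom_sum_eq (by norm_num) (M + 1)]
    rw [pow_succ]; norm_num
    linarith [pow_pos (show (0:ℝ) < 2 by norm_num) M]
  have hk : (0:ℝ) < (2:ℝ) ^ k0 := zpow_pos (by norm_num) _
  simp only [zpow_add₀ (by norm_num : (2:ℝ) ≠ 0), zpow_natCast, ← Finset.mul_sum] at hM ⊢
  calc (2:ℝ) ^ k0 * ∑ j ∈ J, (2:ℝ) ^ j ≤ (2:ℝ) ^ k0 * ∑ j ∈ Finset.range (M + 1), (2:ℝ) ^ j := by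
        refine mul_le_mul_of_nonneg_left ?_ hk.le
        refine Finset.sum_le_sum_of_subset_of_nonneg (fun j hj => ?_) fun j _ _ => by positivity
        exact Finset.mem_range.2 (Nat.lt_succ_of_le (Finset.le_max' _ _ hj))
    _ ≤ (2:ℝ) ^ k0 * (2 * 2 ^ M) := mul_le_mul_of_nonneg_left (hgeo M) hk.le
    _ = 2 * ((2:ℝ) ^ k0 * 2 ^ M) := by ring
    _ ≤ _ := by linarith

lemma sum_shift_three (f : ℕ → ℝ) (N : ℕ) (lo hi : ℝ) (hlo : ∀ j, lo ≤ f j) (hhi : ∀ j, f j ≤ hi) :
    ∑ j ∈ Finset.range N, (f (j + 3) - f j) ≤ 3 * (hi - lo) := by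
  rw [sum_shift]
  calc ∑ j ∈ Finset.range 3, (f (N + j) - f j) ≤ ∑ _j ∈ Finset.range 3, (hi - lo) :=
        Finset.sum_le_sum fun j _ => by linarith [hlo j, hhi (N + j)]
    _ = _ := by simp; ring

lemma sum_windows (g : ℕ → ℝ) (U : ℕ) : ∀ Wn : ℕ,
    ∑ i ∈ Finset.range Wn, ∑ u ∈ Finset.range U, g (i * U + u) = ∑ j ∈ Finset.range (Wn * U), g j
  | 0 => by simp
  | Wn + 1 => by
    rw [Finset.sum_range_succ, sum_windows g U Wn, Nat.succ_mul, Finset.sum_range_add]

/-- The gluing theorem. -/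
theorem glue {t : Fin n → Fin n → ℝ} (ht : FMetric t) (G : ℤ → Fin n → V) {U Q P S : ℕ}
    (hU : 0 < U) (hS : 0 < S) {C0 c0 B0 : ℝ} (hC0 : 1 ≤ C0) (hc0 : 0 < c0)
    (hup : ∀ (w : ℤ) z z', ‖G w z - G w z'‖ ≤ C0 * (t z z' + (2:ℝ) ^ (w * U)))
    (hbdd : ∀ (w : ℤ) z z', ‖G w z - G w z'‖ ≤ B0 * (2:ℝ) ^ (w * U))
    (hlow : ∀ (w : ℤ) z z', (2:ℝ) ^ (w * U) ≤ t z z' → t z z' < (2:ℝ) ^ ((w + 2) * U + Q) →
      c0 * t z z' ≤ ‖G w z - G w z'‖)
    (hQ : 12 * C0 ≤ (2:ℝ) ^ Q * c0) (hB0 : 0 ≤ B0) (hP : B0 ≤ (2:ℝ) ^ P)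
    (a : ℤ) (Wn : ℕ)
    (hfine : ∀ x y, x ≠ y → (2:ℝ) ^ ((a + Wn) * U) / S ≤ t x y)
    (hcover : ∀ x y, x ≠ y →
      (2:ℝ) ^ ((a + 1) * U + Q) ≤ t x y ∧ t x y < (2:ℝ) ^ ((a + Wn + 1) * U + Q)) :
    (∀ x y, ∑ i ∈ Finset.range Wn,
        ‖windowMap t S U G (a + i) x - windowMap t S U G (a + i) y‖
        ≤ (135 * C0 * Real.log n + 11 * C0 * P + 4) / U * t x y) ∧
    (∀ x y, x ≠ y → ∃ i : Fin Wn,
        c0 * t x y / 2 ≤ ‖windowMap t S U G (a + (i : ℕ)) x - windowMap t S U G (a + (i : ℕ)) y‖) := by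
  have hUR : (0:ℝ) < U := by exact_mod_cast hU
  have hz2 : ∀ {i j : ℤ}, i ≤ j → (2:ℝ) ^ i ≤ (2:ℝ) ^ j := fun h =>
    zpow_le_zpow_right₀ (by norm_num) h
  constructor
  · intro x y
    rcases eq_or_ne x y with rfl | hxy
    · simp [ht.self]
    set τ := t x y with hτdef
    have hτ : 0 < τ := ht.pos x y hxy
    set k0 : ℤ := a * U with hk0
    set LB : ℕ → ℝ := fun j => logBall t x ((2:ℝ) ^ (k0 + j - 1)) with hLB
    set g : ℕ → ℝ := fun j =>
      (if 2 * τ ≤ (2:ℝ) ^ (k0 + j) then 45 * C0 * τ * (LB (j + 3) - LB j) else 0)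
      + (if 2 * τ / 2 ^ P < (2:ℝ) ^ (k0 + j) ∧ (2:ℝ) ^ (k0 + j) < 2 * τ then 11 * C0 * τ else 0)
      + (if (2:ℝ) ^ (k0 + j) ≤ 2 * τ / 2 ^ P then B0 * (2:ℝ) ^ (k0 + j) else 0) with hg
    have hlevel : ∀ i < Wn, ∀ u < U,
        ‖smoothAt t S ((a + (i:ℤ)) * U + u) (G (a + i)) x
          - smoothAt t S ((a + (i:ℤ)) * U + u) (G (a + i)) y‖ ≤ g (i * U + u) := by
      intro i hi u hu
      have hk : (a + (i:ℤ)) * U + u = k0 + ((i * U + u : ℕ) : ℤ) := by
        rw [hk0]; push_cast; ring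
      set k := (a + (i:ℤ)) * U + u with hkdef
      have hr : (2:ℝ) ^ ((a + (i:ℤ)) * U) ≤ (2:ℝ) ^ k := hz2 (by rw [hkdef]; linarith)
      have hktop : k ≤ (a + Wn) * U := by
        have h1 : (i:ℤ) + 1 ≤ (Wn:ℤ) := by exact_mod_cast hi
        have h2 : (u:ℤ) ≤ (U:ℤ) := by exact_mod_cast hu.le
        nlinarith [Int.natCast_nonneg (n := U)]
      have hkpos : (0:ℝ) < (2:ℝ) ^ k := zpow_pos (by norm_num) k
      simp only [hg, ← hk]
      by_cases h1 : 2 * τ ≤ (2:ℝ) ^ k
      · have hP1 : 2 * τ / 2 ^ P ≤ 2 * τ :=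
          div_le_self (by linarith) (one_le_pow₀ (by norm_num))
        have hη : (2:ℝ) ^ k / S ≤ τ :=
          (div_le_div_of_nonneg_right (hz2 hktop) (Nat.cast_nonneg S)).trans (hfine x y hxy)
        rw [if_pos h1, if_neg (fun h => by linarith [h.2])]
        refine le_add_of_le_of_nonneg ?_ (by split_ifs <;> positivity)
        rw [add_zero]
        refine (smoothAt_gradient ht hS k x y h1 hη (G (a + i))
          (δ := C0 * (7 * (2:ℝ) ^ k)) (by positivity) fun z z' hz hz' => ?_).trans ?_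
        · refine (hup _ z z').trans (mul_le_mul_of_nonneg_left ?_ (by linarith))
          linarith [ht.tri z x z', ht.symm z x]
        · have e : (2:ℝ) ^ (k + 2) = (2:ℝ) ^ (k0 + ((i * U + u + 3 : ℕ) : ℤ) - 1) := by
            congr 1; rw [hk]; push_cast; ring
          have e' : (2:ℝ) ^ (k - 1) = (2:ℝ) ^ (k0 + ((i * U + u : ℕ) : ℤ) - 1) := by rw [hk]
          rw [e, e']
          have hnn : 0 ≤ LB (i * U + u + 3) - LB (i * U + u) :=
            sub_nonneg.2 (logBall_mono t x (hz2 (by push_cast; linarith)))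
          calc 6 * (C0 * (7 * (2:ℝ) ^ k)) * (τ / (2:ℝ) ^ k) * (LB (i * U + u + 3) - LB (i * U + u))
              = 42 * C0 * τ * (LB (i * U + u + 3) - LB (i * U + u)) := by field_simp; ring
            _ ≤ _ := mul_le_mul_of_nonneg_right (by nlinarith) hnn
      · push Not at h1
        rw [if_neg (not_le.2 h1), zero_add]
        by_cases h2 : (2:ℝ) ^ k ≤ 2 * τ / 2 ^ P
        · rw [if_neg (fun h => by linarith [h.1]), if_pos h2, zero_add]
          refine smoothAt_near ht hS k _ x _ fun z _ => ?_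
          rw [norm_sub_rev]
          refine smoothAt_near ht hS k _ y _ fun z' _ => ?_
          exact (hbdd _ z' z).trans (mul_le_mul_of_nonneg_left hr hB0)
        · push Not at h2
          rw [if_pos ⟨h2, h1⟩, if_neg (not_le.2 h2), add_zero]
          refine smoothAt_near ht hS k _ x _ fun z hz => ?_
          rw [norm_sub_rev]
          refine smoothAt_near ht hS k _ y _ fun z' hz' => ?_
          calc ‖G (a + i) z' - G (a + i) z‖ ≤ C0 * (t z' z + (2:ℝ) ^ ((a + (i:ℤ)) * U)) := hup _ _ _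
            _ ≤ C0 * (11 * τ) := by
                refine mul_le_mul_of_nonneg_left ?_ (by linarith)
                linarith [ht.tri z' y z, ht.tri y x z, ht.symm y z', ht.symm x y]
            _ = _ := by ring
    calc ∑ i ∈ Finset.range Wn, ‖windowMap t S U G (a + i) x - windowMap t S U G (a + i) y‖
        ≤ ∑ i ∈ Finset.range Wn, (U:ℝ)⁻¹ * ∑ u ∈ Finset.range U, g (i * U + u) := by
          refine Finset.sum_le_sum fun i hi => ?_
          rw [windowMap, windowMap, ← smul_sub, ← Finset.sum_sub_distrib, norm_smul,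
            Real.norm_eq_abs, abs_of_pos (inv_pos.2 hUR)]
          refine mul_le_mul_of_nonneg_left ((norm_sum_le _ _).trans ?_) (by positivity)
          exact Finset.sum_le_sum fun u hu =>
            hlevel i (Finset.mem_range.1 hi) u (Finset.mem_range.1 hu)
      _ = (U:ℝ)⁻¹ * ∑ j ∈ Finset.range (Wn * U), g j := by
          rw [← Finset.mul_sum, sum_windows]
      _ ≤ (U:ℝ)⁻¹ * ((135 * C0 * Real.log n + 11 * C0 * P + 4) * τ) := by
          refine mul_le_mul_of_nonneg_left ?_ (by positivity)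
          simp only [hg, Finset.sum_add_distrib]
          have s1 : ∑ j ∈ Finset.range (Wn * U),
              (if 2 * τ ≤ (2:ℝ) ^ (k0 + j) then 45 * C0 * τ * (LB (j + 3) - LB j) else 0)
              ≤ 135 * C0 * Real.log n * τ := by
            calc _ ≤ ∑ j ∈ Finset.range (Wn * U), 45 * C0 * τ * (LB (j + 3) - LB j) := by
                  refine Finset.sum_le_sum fun j _ => ?_
                  have : 0 ≤ 45 * C0 * τ * (LB (j + 3) - LB j) := mul_nonneg (by positivity)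
                    (sub_nonneg.2 (logBall_mono t x (hz2 (by push_cast; linarith))))
                  split_ifs <;> linarith
              _ = 45 * C0 * τ * ∑ j ∈ Finset.range (Wn * U), (LB (j + 3) - LB j) := by
                  rw [Finset.mul_sum]
              _ ≤ 45 * C0 * τ * (3 * (Real.log n - 0)) := mul_le_mul_of_nonneg_left
                  (sum_shift_three LB _ 0 _ (fun j => logBall_nonneg _ _ _) fun j => logBall_le _ _ _)
                  (by positivity)
              _ = _ := by ring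
          have s2 : ∑ j ∈ Finset.range (Wn * U),
              (if 2 * τ / 2 ^ P < (2:ℝ) ^ (k0 + j) ∧ (2:ℝ) ^ (k0 + j) < 2 * τ then 11 * C0 * τ else 0)
              ≤ 11 * C0 * P * τ := by
            rw [← Finset.sum_filter, Finset.sum_const, nsmul_eq_mul]
            set J := (Finset.range (Wn * U)).filter
              (fun j : ℕ => 2 * τ / 2 ^ P < (2:ℝ) ^ (k0 + (j:ℤ)) ∧ (2:ℝ) ^ (k0 + (j:ℤ)) < 2 * τ)
            have hJ : J.card ≤ P := card_interval_le fun i hi j hj => by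
              by_contra hc
              have hi' := (Finset.mem_filter.1 hi).2.2
              have hj' := (Finset.mem_filter.1 hj).2.1
              have hle : k0 + (j:ℤ) + P ≤ k0 + i := by push Not at hc; omega
              have h3 := hz2 hle
              rw [zpow_add₀ (by norm_num : (2:ℝ) ≠ 0) (k0 + j), zpow_natCast] at h3
              rw [div_lt_iff₀ (by positivity)] at hj'
              linarith
            have hJR : (J.card : ℝ) ≤ P := by exact_mod_cast hJ
            nlinarith [mul_le_mul_of_nonneg_right hJR (show 0 ≤ 11 * C0 * τ by positivity)]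
          have s3 : ∑ j ∈ Finset.range (Wn * U),
              (if (2:ℝ) ^ (k0 + j) ≤ 2 * τ / 2 ^ P then B0 * (2:ℝ) ^ (k0 + j) else 0) ≤ 4 * τ := by
            rw [← Finset.sum_filter, ← Finset.mul_sum]
            have := sum_two_pow_le k0 (2 * τ / 2 ^ P) (by positivity)
              (J := (Finset.range (Wn * U)).filter (fun j : ℕ => (2:ℝ) ^ (k0 + (j:ℤ)) ≤ 2 * τ / 2 ^ P))
              fun j hj => (Finset.mem_filter.1 hj).2
            calc B0 * _ ≤ B0 * (2 * (2 * τ / 2 ^ P)) := mul_le_mul_of_nonneg_left this hB0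
              _ ≤ 2 ^ P * (2 * (2 * τ / 2 ^ P)) := mul_le_mul_of_nonneg_right hP (by positivity)
              _ = 4 * τ := by field_simp; ring
          linarith
      _ = _ := by ring
  · intro x y hxy
    set τ := t x y with hτdef
    obtain ⟨h1, h2⟩ := hcover x y hxy
    have hex : ∃ i : ℕ, τ < (2:ℝ) ^ ((a + i + 2) * U + Q) := by
      refine ⟨Wn, h2.trans_le (hz2 ?_)⟩
      nlinarith [Int.natCast_nonneg (n := U)]
    classical
    set i := Nat.find hex with hi
    have hi1 : τ < (2:ℝ) ^ ((a + i + 2) * U + Q) := Nat.find_spec hex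
    have hiW : i < Wn := by
      rcases Nat.eq_zero_or_pos Wn with h0 | h0
      · subst h0; simp only [Nat.cast_zero, add_zero] at h2; linarith
      · refine lt_of_le_of_lt (Nat.find_min' hex (m := Wn - 1) ?_) (by omega)
        refine h2.trans_le (hz2 ?_)
        rw [Nat.cast_sub (by omega : 1 ≤ Wn)]; push_cast; linarith
    have hi2 : (2:ℝ) ^ ((a + i + 1) * U + Q) ≤ τ := by
      rcases Nat.eq_zero_or_pos i with h0 | h0
      · rw [h0]; simpa using h1
      · have := Nat.find_min hex (m := i - 1) (by omega)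
        push Not at this
        refine le_trans (hz2 ?_) this
        rw [Nat.cast_sub (by omega : 1 ≤ i)]; push_cast; linarith
    refine ⟨⟨i, hiW⟩, ?_⟩
    set w : ℤ := a + i with hw
    have hU2 : (2:ℝ) ^ ((w + 1) * U + Q) = (2:ℝ) ^ ((w + 1) * U) * 2 ^ Q := by
      rw [zpow_add₀ (by norm_num : (2:ℝ) ≠ 0), zpow_natCast]
    have hr : (2:ℝ) ^ (w * U) ≤ (2:ℝ) ^ ((w + 1) * U) := hz2 (by nlinarith [Int.natCast_nonneg (n := U)])
    have hwin : ∀ z : Fin n, ‖windowMap t S U G w z - G w z‖ ≤ 3 * C0 * (2:ℝ) ^ ((w + 1) * U) := by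
      intro z
      have he : windowMap t S U G w z - G w z
          = (U:ℝ)⁻¹ • ∑ u ∈ Finset.range U, (smoothAt t S (w * U + u) (G w) z - G w z) := by
        rw [windowMap, Finset.sum_sub_distrib, smul_sub, Finset.sum_const, Finset.card_range,
          ← Nat.cast_smul_eq_nsmul ℝ, inv_smul_smul₀ hUR.ne']
      rw [he, norm_smul, Real.norm_eq_abs, abs_of_pos (inv_pos.2 hUR), inv_mul_le_iff₀ hUR]
      refine (norm_sum_le _ _).trans ((Finset.sum_le_sum
        (g := fun _ => 3 * C0 * (2:ℝ) ^ ((w + 1) * U)) fun u hu => ?_).trans (by simp))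
      refine smoothAt_near ht hS _ _ z _ fun z' hz' => ?_
      calc ‖G w z' - G w z‖ ≤ C0 * (t z' z + (2:ℝ) ^ (w * U)) := hup w z' z
        _ ≤ C0 * (3 * (2:ℝ) ^ ((w + 1) * U)) := by
            refine mul_le_mul_of_nonneg_left ?_ (by linarith)
            have : (2:ℝ) ^ (w * U + u) ≤ (2:ℝ) ^ ((w + 1) * U) := hz2 (by
              have : (u:ℤ) ≤ U := by exact_mod_cast (Finset.mem_range.1 hu).le
              linarith)
            rw [ht.symm z' z]; linarith
        _ = _ := by ring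
    have hG : c0 * τ ≤ ‖G w x - G w y‖ := by
      refine hlow w x y (le_trans ?_ hi2) hi1
      exact hz2 (by nlinarith [Int.natCast_nonneg (n := U), Int.natCast_nonneg (n := Q)])
    have ea := hwin x
    have eb := hwin y
    have etri : ‖G w x - G w y‖ ≤ ‖windowMap t S U G w x - G w x‖
        + ‖windowMap t S U G w x - windowMap t S U G w y‖
        + ‖windowMap t S U G w y - G w y‖ := by
      have h3 := norm_sub_le_norm_sub_add_norm_sub (G w x) (windowMap t S U G w x) (G w y)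
      have h4 := norm_sub_le_norm_sub_add_norm_sub (windowMap t S U G w x)
        (windowMap t S U G w y) (G w y)
      rw [norm_sub_rev (G w x) (windowMap t S U G w x)] at h3
      linarith
    rw [hU2] at hi2
    have hb : 12 * C0 * (2:ℝ) ^ ((w + 1) * U) ≤ c0 * τ := by
      nlinarith [mul_le_mul_of_nonneg_left hi2 hc0.le,
        mul_le_mul_of_nonneg_right hQ (zpow_nonneg (by norm_num : (0:ℝ) ≤ 2) ((w + 1) * U))]
    linarith

end Vale.Agent.P249
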