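import Mathlib

/-! Sparse spanners of finite (pseudo)metrics. -/

namespace Vale.Agent.P249

open Finset

variable {V : Type*} [Fintype V] [DecidableEq V]


/-- All cycles of the graph are longer than `2k`. -/
lemma path_eq_of_long_cycles {H : SimpleGraph V} {k : ℕ}
    (hc : ∀ (v : V) (c : H.Walk v v), c.IsCycle → 2 * k < c.length) {u w : V}
    (p q : H.Walk u w) (hp : p.IsPath) (hq : q.IsPath) (hpk : p.length ≤ k) (hqk : q.length ≤ k) :
    p = q := by
  classical
  set G' : SimpleGraph V :=
    SimpleGraph.fromEdgeSet {e | e ∈ p.edges ∨ e ∈ q.edges} with hG'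
  have hsub : ∀ e, (e ∈ p.edges ∨ e ∈ q.edges) → e ∈ G'.edgeSet := by
    intro e he
    rw [hG', SimpleGraph.edgeSet_fromEdgeSet]
    refine ⟨he, H.not_isDiag_of_mem_edgeSet ?_⟩
    rcases he with he | he
    · exact p.edges_subset_edgeSet he
    · exact q.edges_subset_edgeSet he
  have hle : G' ≤ H := by
    rw [hG']
    intro a b hab
    rw [SimpleGraph.fromEdgeSet_adj] at hab
    rcases hab.1 with h | h
    · exact p.adj_of_mem_edges h
    · exact q.adj_of_mem_edges h
  have hacyc : G'.IsAcyclic := by
    intro v c hcyc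
    have h1 := hc v (c.mapLe hle) (hcyc.mapLe hle)
    rw [SimpleGraph.Walk.length_map] at h1
    have h2 : c.edges.toFinset ⊆ p.edges.toFinset ∪ q.edges.toFinset := by
      intro e he
      rw [List.mem_toFinset] at he
      have := c.edges_subset_edgeSet he
      rw [hG', SimpleGraph.edgeSet_fromEdgeSet] at this
      simpa using this.1
    have h3 := (Finset.card_le_card h2).trans (Finset.card_union_le _ _)
    rw [List.toFinset_card_of_nodup hcyc.edges_nodup, SimpleGraph.Walk.length_edges] at h3
    have h4 := p.edges.toFinset_card_le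
    have h5 := q.edges.toFinset_card_le
    rw [SimpleGraph.Walk.length_edges] at h4 h5
    omega
  have hp' : (p.transfer G' fun e he => hsub e (Or.inl he)).IsPath := hp.transfer _
  have hq' : (q.transfer G' fun e he => hsub e (Or.inr he)).IsPath := hq.transfer _
  have := congrArg Subtype.val ((hacyc.subsingleton_path u w).elim ⟨_, hp'⟩ ⟨_, hq'⟩)
  simp only at this
  apply SimpleGraph.Walk.ext_support
  have h := congrArg SimpleGraph.Walk.support this
  simpa using h

/-- Vertices reached by short paths inside a set in which all degrees are at least four. -/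
lemma paths_grow {H : SimpleGraph V} [DecidableRel H.Adj] {k : ℕ}
    (hc : ∀ (v : V) (c : H.Walk v v), c.IsCycle → 2 * k < c.length) {S : Finset V}
    (hdeg : ∀ u ∈ S, 3 < (S.filter fun w => H.Adj u w).card) {v : V} (hv : v ∈ S) :
    ∀ i ≤ k, ∃ T : Finset (Σ u, H.Walk v u), 3 ^ i ≤ T.card ∧
      ∀ q ∈ T, q.2.IsPath ∧ q.2.length = i ∧ q.1 ∈ S := by
  classical
  intro i
  induction i with
  | zero =>
    exact fun _ => ⟨{⟨v, SimpleGraph.Walk.nil⟩}, by simp, by simp [hv]⟩
  | succ i ih =>
    intro hik
    obtain ⟨T, hT, hTp⟩ := ih (by omega)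
    have hext : ∀ q : T, ∃ e : Fin 3 → V, Function.Injective e ∧
        ∀ j, e j ∈ S ∧ H.Adj q.1.1 (e j) ∧ e j ∉ q.1.2.support := by
      rintro ⟨⟨u, q⟩, hq⟩
      obtain ⟨hqp, hql', hqS⟩ := hTp _ hq
      have hql : q.length = i := hql'
      set A := (S.filter fun w => H.Adj u w).erase q.penultimate with hA
      have hAc : 3 ≤ A.card := by
        have h1 := Finset.pred_card_le_card_erase (s := S.filter fun w => H.Adj u w)
          (a := q.penultimate)
        have h2 := hdeg u hqS
        rw [hA]; omega
      obtain ⟨B, hBA, hB3⟩ := Finset.exists_subset_card_eq hAc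
      refine ⟨fun j => (B.equivFinOfCardEq hB3).symm j,
        Subtype.val_injective.comp (Equiv.injective _), fun j => ?_⟩
      have hj := hBA ((B.equivFinOfCardEq hB3).symm j).2
      set w : V := ((B.equivFinOfCardEq hB3).symm j).1
      rw [hA, Finset.mem_erase, Finset.mem_filter] at hj
      refine ⟨hj.2.1, hj.2.2, fun hmem => ?_⟩
      have hne : w ≠ u := (hj.2.2.ne).symm
      have h1 := path_eq_of_long_cycles hc (q.dropUntil w hmem)
        (SimpleGraph.Walk.cons hj.2.2.symm SimpleGraph.Walk.nil) (hqp.dropUntil hmem)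
        (by simp [hne]) ((q.length_dropUntil_le_length hmem).trans (by omega))
        (by simp; omega)
      have h2 : q.penultimate = w := by
        conv_lhs => rw [← q.take_spec hmem, h1]
        exact SimpleGraph.Walk.penultimate_concat _ _
      exact hj.1 h2.symm
    choose e he hep using hext
    refine ⟨(Finset.univ : Finset (T × Fin 3)).image
      fun x => ⟨e x.1 x.2, x.1.1.2.concat (hep x.1 x.2).2.1⟩, ?_, ?_⟩
    · rw [Finset.card_image_of_injective, Finset.card_univ, Fintype.card_prod, Fintype.card_coe,
        Fintype.card_fin, pow_succ]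
      · exact Nat.mul_le_mul_right 3 hT
      · rintro ⟨⟨⟨u, q⟩, hq⟩, j⟩ ⟨⟨⟨u', q'⟩, hq'⟩, j'⟩ h
        simp only [Sigma.mk.injEq] at h
        obtain ⟨h1, h2⟩ := h
        have hval : ∀ {a b : V} (x : H.Walk v a) (y : H.Walk v b), a = b → x ≍ y →
            x.support = y.support := by
          rintro a b x y rfl hxy
          rw [eq_of_heq hxy]
        have h3 := hval _ _ h1 h2
        simp only [SimpleGraph.Walk.support_concat] at h3
        have h4 := (List.append_inj' h3 rfl).1
        have hu : u = u' := by
          have := congrArg List.getLast? h4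
          simp only [List.getLast?_eq_getLast_of_ne_nil (SimpleGraph.Walk.support_ne_nil _),
            SimpleGraph.Walk.getLast_support, Option.some.injEq] at this
          exact this
        subst hu
        obtain rfl : q = q' := SimpleGraph.Walk.ext_support h4
        obtain rfl := he _ h1
        rfl
    · intro r hr
      obtain ⟨⟨⟨⟨u, q⟩, hq⟩, j⟩, -, rfl⟩ := Finset.mem_image.1 hr
      obtain ⟨hqp, hql, hqS⟩ := hTp _ hq
      exact ⟨hqp.concat (hep _ j).2.2 _, by simp [hql], (hep _ j).1⟩

/-- A set of vertices of a graph without short cycles has a vertex of degree at most three. -/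
lemma exists_low_degree {H : SimpleGraph V} [DecidableRel H.Adj] {k : ℕ}
    (hc : ∀ (v : V) (c : H.Walk v v), c.IsCycle → 2 * k < c.length)
    (hk : Fintype.card V < 3 ^ k) {S : Finset V} (hS : S.Nonempty) :
    ∃ u ∈ S, (S.filter fun w => H.Adj u w).card ≤ 3 := by
  classical
  by_contra hcon
  push Not at hcon
  obtain ⟨v, hv⟩ := hS
  obtain ⟨T, hT, hTp⟩ := paths_grow hc hcon hv k le_rfl
  have hinj : Set.InjOn (fun q : Σ u, H.Walk v u => q.1) ↑T := by
    rintro ⟨u, q⟩ hq ⟨u', q'⟩ hq' h
    obtain rfl : u = u' := h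
    obtain ⟨a1, a2, -⟩ := hTp _ hq
    obtain ⟨b1, b2, -⟩ := hTp _ hq'
    rw [path_eq_of_long_cycles hc q q' a1 b1 a2.le b2.le]
  have h1 : T.card ≤ Fintype.card V :=
    (Finset.card_le_card_of_injOn (t := Finset.univ) _ (fun _ _ => Finset.mem_univ _) hinj).trans_eq
      Finset.card_univ
  omega

/-- Graphs without short cycles have linearly many edges. -/
lemma card_adj_pairs_le {H : SimpleGraph V} [DecidableRel H.Adj] {k : ℕ}
    (hc : ∀ (v : V) (c : H.Walk v v), c.IsCycle → 2 * k < c.length)
    (hk : Fintype.card V < 3 ^ k) :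
    ((Finset.univ : Finset (V × V)).filter fun e => H.Adj e.1 e.2).card ≤ 6 * Fintype.card V := by
  suffices h : ∀ S : Finset V,
      ((S ×ˢ S).filter fun e => H.Adj e.1 e.2).card ≤ 6 * S.card by
    simpa using h Finset.univ
  intro S
  induction S using Finset.strongInduction with
  | _ S ih =>
    rcases S.eq_empty_or_nonempty with rfl | hS
    · simp
    obtain ⟨u, hu, hdeg⟩ := exists_low_degree hc hk hS
    have hsub : (S ×ˢ S).filter (fun e => H.Adj e.1 e.2) ⊆
        ((S.erase u ×ˢ S.erase u).filter fun e => H.Adj e.1 e.2) ∪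
          ((S.filter fun w => H.Adj u w).image (fun w => (u, w)) ∪
           (S.filter fun w => H.Adj u w).image (fun w => (w, u))) := by
      rintro ⟨a, b⟩ h
      simp only [Finset.mem_filter, Finset.mem_product] at h
      simp only [Finset.mem_union, Finset.mem_filter, Finset.mem_product, Finset.mem_erase,
        Finset.mem_image, Prod.mk.injEq]
      by_cases ha : a = u
      · subst ha; exact Or.inr (Or.inl ⟨b, ⟨h.1.2, h.2⟩, rfl, rfl⟩)
      by_cases hb : b = u
      · subst hb; exact Or.inr (Or.inr ⟨a, ⟨h.1.1, h.2.symm⟩, rfl, rfl⟩)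
      exact Or.inl ⟨⟨⟨ha, h.1.1⟩, hb, h.1.2⟩, h.2⟩
    have h1 := ih (S.erase u) (Finset.erase_ssubset hu)
    have h2 := (Finset.card_le_card hsub).trans ((Finset.card_union_le _ _).trans
      (Nat.add_le_add le_rfl (Finset.card_union_le _ _)))
    have h3 := Finset.card_image_le (s := S.filter fun w => H.Adj u w) (f := fun w => (u, w))
    have h4 := Finset.card_image_le (s := S.filter fun w => H.Adj u w) (f := fun w => (w, u))
    have h5 := Finset.card_erase_add_one hu
    omega

/-- A cycle through an edge gives a walk around that edge avoiding it. -/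
lemma walk_around {G : SimpleGraph V} {v : V} {c : G.Walk v v} (hc : c.IsCycle) {x y : V}
    (he : s(x, y) ∈ c.edges) :
    ∃ (a b : V) (q : G.Walk b a), s(a, b) = s(x, y) ∧ s(x, y) ∉ q.edges ∧
      q.length + 1 = c.length := by
  obtain ⟨d, hd, hde⟩ := List.mem_map.1 he
  have hmem : d.fst ∈ c.support := c.dart_fst_mem_support_of_mem_darts hd
  have hc' := hc.rotate hmem
  have hd' : d ∈ (c.rotate d.fst hmem).darts := (c.rotate_darts d.fst hmem).mem_iff.2 hd
  have hlen : (c.rotate d.fst hmem).length = c.length := by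
    rw [← SimpleGraph.Walk.length_edges, ← SimpleGraph.Walk.length_edges]
    exact (c.rotate_edges d.fst hmem).perm.length_eq
  revert hc' hd' hlen
  generalize c.rotate d.fst hmem = c'
  intro hc' hd' hlen
  cases c' with
  | nil => simp at hd'
  | cons h rest =>
    have hnd := hc'.nodup_dropLast_support
    rw [← SimpleGraph.Walk.map_fst_darts] at hnd
    rw [SimpleGraph.Walk.darts_cons, List.map_cons, List.nodup_cons] at hnd
    rw [SimpleGraph.Walk.darts_cons, List.mem_cons] at hd'
    rcases hd' with hd' | hd'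
    · rw [SimpleGraph.Walk.cons_isCycle_iff] at hc'
      refine ⟨d.fst, d.snd,
        rest.copy (congrArg (fun a : G.Dart => a.snd) hd').symm rfl, hde, ?_, ?_⟩
      · have he2 := hde.symm.trans (congrArg SimpleGraph.Dart.edge hd')
        rw [SimpleGraph.Walk.edges_copy, he2]
        exact hc'.2
      · rw [SimpleGraph.Walk.length_copy, ← hlen]
        rfl
    · exact absurd (List.mem_map.2 ⟨d, hd', rfl⟩) hnd.1

/-- Greedy spanner. -/
theorem exists_greedy (t : V → V → ℝ) (hsymm : ∀ x y, t x y = t y x) (k : ℕ) (hk : 1 ≤ k)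
    (E : Finset (V × V)) :
    ∃ H : SimpleGraph V, (∀ x y, H.Adj x y → (x, y) ∈ E ∨ (y, x) ∈ E) ∧
      (∀ (v : V) (c : H.Walk v v), c.IsCycle → 2 * k < c.length) ∧
      ∀ e ∈ E, ∃ q : H.Walk e.1 e.2, q.length ≤ 2 * k ∧
        ∀ d ∈ q.darts, t d.fst d.snd ≤ t e.1 e.2 := by
  classical
  induction E using Finset.strongInduction with
  | _ E ih =>
    rcases E.eq_empty_or_nonempty with rfl | hE
    · refine ⟨⊥, by simp, fun v c hc => ?_, by simp⟩
      cases c with
      | nil => exact absurd hc (by simp)
      | cons h _ => exact h.elim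
    obtain ⟨⟨x, y⟩, hxy, hmax⟩ := E.exists_max_image (fun e => t e.1 e.2) hE
    obtain ⟨H, hH, hcyc, hspan⟩ := ih (E.erase (x, y)) (Finset.erase_ssubset hxy)
    have hbound : ∀ a b, H.Adj a b → t a b ≤ t x y := by
      intro a b hab
      rcases hH a b hab with h | h
      · exact hmax _ (Finset.mem_of_mem_erase h)
      · rw [hsymm]; exact hmax _ (Finset.mem_of_mem_erase h)
    have hsub : ∀ a b, H.Adj a b → (a, b) ∈ E ∨ (b, a) ∈ E := fun a b hab =>
      (hH a b hab).imp Finset.mem_of_mem_erase Finset.mem_of_mem_erase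
    by_cases hw : ∃ q : H.Walk x y, q.length ≤ 2 * k
    · obtain ⟨q, hq⟩ := hw
      refine ⟨H, hsub, hcyc, fun e he => ?_⟩
      rcases eq_or_ne e (x, y) with rfl | hne
      · exact ⟨q, hq, fun d _ => hbound _ _ d.adj⟩
      · exact hspan e (Finset.mem_erase.2 ⟨hne, he⟩)
    push Not at hw
    have hxne : x ≠ y := by
      rintro rfl
      have := hw SimpleGraph.Walk.nil
      simp at this
    set H' := H ⊔ SimpleGraph.edge x y with hH'
    have hadj : H'.Adj x y := Or.inr (by simp [SimpleGraph.edge_adj, hxne])
    have hnew : ∀ a b, H'.Adj a b → H.Adj a b ∨ s(a, b) = s(x, y) := by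
      intro a b h
      rcases h with h | h
      · exact Or.inl h
      · rw [SimpleGraph.edge_adj] at h
        right
        rcases h.1 with ⟨rfl, rfl⟩ | ⟨rfl, rfl⟩
        · rfl
        · exact Sym2.eq_swap
    refine ⟨H', fun a b hab => ?_, fun v c hc => ?_, fun e he => ?_⟩
    · rcases hnew a b hab with h | h
      · exact hsub a b h
      · rcases Sym2.eq_iff.1 h with ⟨rfl, rfl⟩ | ⟨rfl, rfl⟩
        · exact Or.inl hxy
        · exact Or.inr hxy
    · by_cases he : s(x, y) ∈ c.edges
      · obtain ⟨a, b, q, hab, hq, hlen⟩ := walk_around hc he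
        have hqH : ∀ e ∈ q.edges, e ∈ H.edgeSet := by
          intro e he'
          induction e using Sym2.ind with
          | _ a' b' =>
            rcases hnew a' b' (q.adj_of_mem_edges he') with h | h
            · exact h
            · exact absurd (h ▸ he') hq
        have hlen2 : 2 * k < q.length := by
          rcases Sym2.eq_iff.1 hab with ⟨rfl, rfl⟩ | ⟨rfl, rfl⟩
          · simpa using hw (q.transfer H hqH).reverse
          · simpa using hw (q.transfer H hqH)
        omega
      · have hqH : ∀ e ∈ c.edges, e ∈ H.edgeSet := by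
          intro e he'
          induction e using Sym2.ind with
          | _ a' b' =>
            rcases hnew a' b' (c.adj_of_mem_edges he') with h | h
            · exact h
            · exact absurd (h ▸ he') he
        simpa using hcyc v (c.transfer H hqH) (hc.transfer _)
    · rcases eq_or_ne e (x, y) with rfl | hne
      · refine ⟨SimpleGraph.Walk.cons hadj SimpleGraph.Walk.nil, by simp; omega, ?_⟩
        simp
      · obtain ⟨q, hq, hqt⟩ := hspan e (Finset.mem_erase.2 ⟨hne, he⟩)
        exact ⟨q.mapLe le_sup_left, by simpa using hq, by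
          intro d hd
          simp only [SimpleGraph.Walk.darts_map, List.mem_map] at hd
          obtain ⟨d', hd', rfl⟩ := hd
          exact hqt d' hd'⟩

end Vale.Agent.P249
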