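import Mathlib
import Vale.Agent.P249.Chernoff
import Vale.Agent.P249.Reduce
import Vale.Agent.P249.Combine
import Vale.Agent.P249.Spanner

/-! Dimension `n (log n)^{p+1}` at every distortion above one. -/

namespace Vale.Agent.P249

open Finset

lemma exp_le_quadratic {δ : ℝ} (h : |δ| ≤ 1) : Real.exp δ - 1 ≤ δ + δ ^ 2 := by
  have := (abs_le.1 (Real.abs_exp_sub_one_sub_id_le h)).2
  linarith

open Classical in
/-- Chernoff tails with arbitrary precision. -/
lemma chernoff_eps {Ω : Type*} [Fintype Ω] {K : ℕ} (w : Ω → ℝ) (hw : ∀ a, 0 ≤ w a)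
    (hw1 : ∑ a, w a = 1) (X : Ω → ℝ) {b : ℝ} (hb : 0 < b) (hX0 : ∀ a, 0 ≤ X a)
    (hXb : ∀ a, X a ≤ b) (μ : ℝ) (hμ : ∑ a, w a * X a = μ) {ε : ℝ} (hε0 : 0 < ε) (hε1 : ε ≤ 1)
    (L : ℝ) (hK : L ≤ K * μ * ε ^ 2 / (4 * b)) :
    (∑ om ∈ univ.filter (fun om : Fin K → Ω => (1 + ε) * (K * μ) < ∑ k, X (om k)), prodW w om
      ≤ Real.exp (-L)) ∧
    (∑ om ∈ univ.filter (fun om : Fin K → Ω => ∑ k, X (om k) < (1 - ε) * (K * μ)), prodW w om
      ≤ Real.exp (-L)) := by
  have hμ0 : 0 ≤ μ := hμ ▸ Finset.sum_nonneg fun a _ => mul_nonneg (hw a) (hX0 a)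
  have hm : ∀ s : ℝ, |s| ≤ 1 →
      ∑ a, w a * Real.exp (s * (X a / b)) ≤ Real.exp ((s + s ^ 2) * (μ / b)) := by
    intro s hs
    calc ∑ a, w a * Real.exp (s * (X a / b))
        ≤ ∑ a, w a * (1 + (Real.exp s - 1) * (X a / b)) :=
          Finset.sum_le_sum fun a _ => mul_le_mul_of_nonneg_left
            (exp_le_secant (div_nonneg (hX0 a) hb.le) ((div_le_one hb).2 (hXb a)) s) (hw a)
      _ = 1 + (Real.exp s - 1) * (μ / b) := by
          simp only [mul_add, mul_one, Finset.sum_add_distrib, hw1, ← hμ, Finset.mul_sum,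
            Finset.sum_div]
          congr 1
          exact Finset.sum_congr rfl fun a _ => by ring
      _ ≤ 1 + (s + s ^ 2) * (μ / b) :=
          add_le_add le_rfl (mul_le_mul_of_nonneg_right (exp_le_quadratic hs) (by positivity))
      _ ≤ _ := by linarith [Real.add_one_le_exp ((s + s ^ 2) * (μ / b))]
  have key : ∀ s thr : ℝ, |s| ≤ 1 → K * ((s + s ^ 2) * (μ / b)) - thr ≤ -(K * μ * ε ^ 2 / (4 * b)) →
      ∀ P : (Fin K → Ω) → Prop, (∀ om, P om → thr ≤ s * ((∑ k, X (om k)) / b)) →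
        ∑ om ∈ univ.filter P, prodW w om ≤ Real.exp (-L) := by
    intro s thr hs hthr P hP
    refine (tail_of_mgf w hw (fun a => s * (X a / b)) _ thr (hm s hs) P fun om hom => ?_).trans
      (Real.exp_le_exp.2 (by linarith))
    refine (hP om hom).trans (le_of_eq ?_)
    rw [Finset.sum_div, Finset.mul_sum]
  constructor
  · refine key (ε / 2) (ε / 2 * ((1 + ε) * (K * μ)) / b)
      (by rw [abs_of_pos (by linarith)]; linarith) (le_of_eq (by ring)) _ fun om hom => ?_
    rw [mul_div_assoc]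
    gcongr
  · refine key (-(ε / 2)) (-(ε / 2) * ((1 - ε) * (K * μ)) / b)
      (by rw [abs_neg, abs_of_pos (by linarith)]; linarith) (le_of_eq (by ring)) _ fun om hom => ?_
    rw [mul_div_assoc, neg_mul, neg_mul, neg_le_neg_iff]
    gcongr

/-- The increments of one coordinate along a walk. -/
lemma abs_diff_le_walk {V : Type*} {H : SimpleGraph V} (g : V → ℝ) {x y : V} (q : H.Walk x y)
    {B : ℝ} (hB : ∀ d ∈ q.darts, |g d.fst - g d.snd| ≤ B) : |g x - g y| ≤ q.length * B := by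
  induction q with
  | nil => simp
  | @cons u v w h r ih =>
    have h1 := hB ⟨(u, v), h⟩ (by simp)
    have h2 := ih fun d hd => hB d (by simp [hd])
    have h3 := abs_sub_le (g u) (g v) (g w)
    simp only at h1
    simp only [SimpleGraph.Walk.length_cons]
    push_cast
    linarith

/-- Coordinate weights of total mass `O(n (log n)^p)` dominating all sensitivities. -/
lemma exists_sensitivity {p : ℝ} (hp : 1 ≤ p) {n N : ℕ} (hn : 2 ≤ n)
    (X : Fin n → Fin N → ℝ) (hX : Function.Injective X) :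
    ∃ σ : Fin N → ℝ, (∀ k, 0 ≤ σ k) ∧
      ∑ k, σ k ≤ (2 * (Real.log n + 2)) ^ p * (6 * n) ∧
      ∀ i j k, |X i k - X j k| ^ p ≤ σ k * powDist p (X i) (X j) := by
  classical
  have hp0 : 0 < p := by linarith
  obtain ⟨k0, hk0⟩ : ∃ k0, k0 = Nat.log 3 n + 1 := ⟨_, rfl⟩
  have hn3 : n < 3 ^ k0 := hk0 ▸ Nat.lt_pow_succ_log_self (by norm_num) n
  set t : Fin n → Fin n → ℝ := fun i j => powDist p (X i) (X j) with ht
  obtain ⟨H, -, hcyc, hspan⟩ := exists_greedy t
    (fun x y => by simp [ht, powDist, abs_sub_comm]) k0 (by omega) Finset.univ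
  set P := (Finset.univ : Finset (Fin n × Fin n)).filter fun e => H.Adj e.1 e.2 with hPdef
  have hPcard : P.card ≤ 6 * n := by
    simpa using card_adj_pairs_le (H := H) hcyc (by simpa using hn3)
  set τ : Fin N → ℝ := fun k => ∑ e ∈ P, |X e.1 k - X e.2 k| ^ p / t e.1 e.2 with hτ
  have hk0R : (k0:ℝ) ≤ Real.log n + 2 := by
    have h1 : ((3:ℝ)) ^ (Nat.log 3 n) ≤ n := by exact_mod_cast Nat.pow_log_le_self 3 (by omega : n ≠ 0)
    have h2 := Real.log_le_log (by positivity) h1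
    rw [Real.log_pow] at h2
    have h3 : 1 ≤ Real.log 3 := by
      rw [Real.le_log_iff_exp_le (by norm_num)]
      linarith [Real.exp_one_lt_d9]
    have h4 : (Nat.log 3 n : ℝ) ≤ Real.log n := by
      nlinarith [Nat.cast_nonneg (α := ℝ) (Nat.log 3 n)]
    rw [hk0]; push_cast
    linarith
  have hlogn : 0 ≤ Real.log n := Real.log_natCast_nonneg n
  have hτ0 : ∀ k, 0 ≤ τ k := fun k => Finset.sum_nonneg fun e _ =>
    div_nonneg (Real.rpow_nonneg (abs_nonneg _) _) (powDist_nonneg _ _ _)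
  refine ⟨fun k => (2 * (Real.log n + 2)) ^ p * τ k,
    fun k => mul_nonneg (by positivity) (hτ0 k), ?_, fun i j k => ?_⟩
  · rw [← Finset.mul_sum]
    refine mul_le_mul_of_nonneg_left ?_ (by positivity)
    rw [hτ, Finset.sum_comm]
    calc ∑ e ∈ P, ∑ k, |X e.1 k - X e.2 k| ^ p / t e.1 e.2 ≤ ∑ e ∈ P, (1:ℝ) :=
          Finset.sum_le_sum fun e _ => by rw [← Finset.sum_div]; exact div_self_le_one _
      _ ≤ _ := by simp; exact_mod_cast hPcard
  · obtain ⟨q, hq, hqt⟩ := hspan (i, j) (Finset.mem_univ _)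
    have hB : ∀ d ∈ q.darts, |X d.fst k - X d.snd k| ≤ (τ k * t i j) ^ (1 / p) := by
      intro d hd
      have hdt : 0 < t d.fst d.snd := powDist_pos (hX.ne d.adj.ne)
      have hmem : (d.fst, d.snd) ∈ P := by simp [hPdef, d.adj]
      have h1 : |X d.fst k - X d.snd k| ^ p ≤ τ k * t d.fst d.snd := by
        rw [← div_le_iff₀ hdt]
        exact Finset.single_le_sum (f := fun e => |X e.1 k - X e.2 k| ^ p / t e.1 e.2)
          (fun e _ => div_nonneg (Real.rpow_nonneg (abs_nonneg _) _) (powDist_nonneg _ _ _)) hmem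
      have h2 := Real.rpow_le_rpow (Real.rpow_nonneg (abs_nonneg _) _)
        (h1.trans (mul_le_mul_of_nonneg_left (hqt d hd) (hτ0 k))) (by positivity : 0 ≤ 1 / p)
      rwa [← Real.rpow_mul (abs_nonneg _), mul_one_div_cancel hp0.ne', Real.rpow_one] at h2
    have h3 := abs_diff_le_walk (fun v => X v k) q hB
    have hnn : 0 ≤ τ k * t i j := mul_nonneg (hτ0 k) (powDist_nonneg _ _ _)
    have hl : (q.length : ℝ) ≤ 2 * (Real.log n + 2) := by
      have : (q.length : ℝ) ≤ 2 * k0 := by exact_mod_cast hq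
      linarith
    have h4 := Real.rpow_le_rpow (abs_nonneg _)
      (h3.trans (mul_le_mul_of_nonneg_right hl (Real.rpow_nonneg hnn _))) hp0.le
    rw [Real.mul_rpow (by positivity) (Real.rpow_nonneg hnn _), ← Real.rpow_mul hnn,
      one_div_mul_cancel hp0.ne', Real.rpow_one, ← mul_assoc] at h4
    exact h4

end Vale.Agent.P249

namespace Vale.Agent.P249

/-- Reduction to `n (log n)^(p+1)` coordinates at every distortion above one. -/
theorem near_linear (p : ℝ) (hp : 1 ≤ p) (D : ℝ) (hD : 1 < D) :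
    ∃ C : ℝ, 0 < C ∧ ∀ n : ℕ, 2 ≤ n → ∀ (N : ℕ) (X : Fin n → Fin N → ℝ),
      Function.Injective X →
        ∃ d : ℕ, (d : ℝ) ≤ C * n * (Real.log n + 1) ^ (p + 1) ∧
          ∃ (f : Fin n → Fin d → ℝ) (s : ℝ), 0 < s ∧ ∀ i j : Fin n,
            s * (∑ k, |X i k - X j k| ^ p) ^ (1 / p) ≤ (∑ k, |f i k - f j k| ^ p) ^ (1 / p) ∧
            (∑ k, |f i k - f j k| ^ p) ^ (1 / p)
              ≤ D * (s * (∑ k, |X i k - X j k| ^ p) ^ (1 / p)) := by
  classical
  have hp0 : 0 < p := by linarith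
  obtain ⟨ε, hεdef⟩ : ∃ ε, ε = (D - 1) / (D + 1) := ⟨_, rfl⟩
  have hε0 : 0 < ε := hεdef ▸ div_pos (by linarith) (by linarith)
  have hε1 : ε < 1 := by rw [hεdef, div_lt_one (by linarith)]; linarith
  have hεD : 1 + ε = D * (1 - ε) := by rw [hεdef]; field_simp; ring
  refine ⟨4 ^ p * 6 * 12 / ε ^ 2 + 1, by positivity, fun n hn N X hX => ?_⟩
  obtain ⟨σ, hσ0, hσle, hsens⟩ := exists_sensitivity hp hn X hX
  have hlogn : 0 ≤ Real.log n := Real.log_natCast_nonneg n
  have hn1 : (1:ℝ) ≤ n := by exact_mod_cast (by omega : 1 ≤ n)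
  set S := ∑ k, σ k with hS
  have hSpos : 0 < S := by
    set i : Fin n := ⟨0, by omega⟩
    set j : Fin n := ⟨1, by omega⟩
    have hij : i ≠ j := by simp [i, j, Fin.ext_iff]
    have hT := powDist_pos (p := p) (hX.ne hij)
    have : powDist p (X i) (X j) ≤ S * powDist p (X i) (X j) := by
      rw [hS, Finset.sum_mul]
      exact Finset.sum_le_sum fun k _ => hsens i j k
    nlinarith
  set w : Fin N → ℝ := fun k => σ k / S with hw
  have hw0 : ∀ k, 0 ≤ w k := fun k => div_nonneg (hσ0 k) hSpos.le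
  have hw1 : ∑ k, w k = 1 := by rw [hw, ← Finset.sum_div, ← hS, div_self hSpos.ne']
  obtain ⟨L, hL⟩ : ∃ L, L = 3 * Real.log n + 2 := ⟨_, rfl⟩
  obtain ⟨K, hK⟩ : ∃ K : ℕ, K = ⌈4 * S * L / ε ^ 2⌉₊ := ⟨_, rfl⟩
  have hL0 : 0 < L := by linarith
  have hK1 : 4 * S * L / ε ^ 2 ≤ K := hK ▸ Nat.le_ceil _
  have hK0 : (0:ℝ) < K := lt_of_lt_of_le (by positivity) hK1
  set T : Fin n → Fin n → ℝ := fun i j => powDist p (X i) (X j) with hT
  set Z : Fin n → Fin n → Fin N → ℝ := fun i j k => |X i k - X j k| ^ p / w k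
  have hZ0 : ∀ i j k, 0 ≤ Z i j k := fun i j k =>
    div_nonneg (Real.rpow_nonneg (abs_nonneg _) _) (hw0 k)
  have hmean : ∀ i j, ∑ k, w k * Z i j k = T i j := by
    intro i j
    refine Finset.sum_congr rfl fun k _ => ?_
    rcases eq_or_ne (w k) 0 with h | h
    · have : σ k = 0 := by simpa [hw, hSpos.ne'] using h
      have h2 := hsens i j k
      rw [this, zero_mul] at h2
      simp [Z, h, le_antisymm h2 (Real.rpow_nonneg (abs_nonneg _) _)]
    · simp only [Z]; field_simp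
  have hbound : ∀ i j k, Z i j k ≤ S * T i j := by
    intro i j k
    rcases eq_or_ne (w k) 0 with h | h
    · simp [Z, h]; exact mul_nonneg hSpos.le (powDist_nonneg _ _ _)
    · rw [show Z i j k = |X i k - X j k| ^ p / w k from rfl,
        div_le_iff₀ (lt_of_le_of_ne (hw0 k) (Ne.symm h))]
      exact (hsens i j k).trans (le_of_eq (by simp only [hw, hT]; field_simp))
  set bad : (Fin n × Fin n) × Bool → (Fin K → Fin N) → Prop := fun e om =>
    e.1.1 ≠ e.1.2 ∧ if e.2 then (1 + ε) * (K * T e.1.1 e.1.2) < ∑ l, Z e.1.1 e.1.2 (om l)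
    else ∑ l, Z e.1.1 e.1.2 (om l) < (1 - ε) * (K * T e.1.1 e.1.2) with hbad
  obtain ⟨om, hom⟩ := exists_good (K := K) w hw0 hw1 bad (Real.exp (-L)) (by
    rintro ⟨⟨i, j⟩, b⟩
    rcases eq_or_ne i j with rfl | hij
    · refine le_trans (le_of_eq (Finset.sum_eq_zero ?_)) (Real.exp_pos _).le
      intro om hom
      simp [hbad] at hom
    have hTij : 0 < T i j := powDist_pos (hX.ne hij)
    obtain ⟨c1, c2⟩ := chernoff_eps (K := K) w hw0 hw1 (Z i j) (mul_pos hSpos hTij) (hZ0 i j)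
      (hbound i j) (T i j) (hmean i j) hε0 hε1.le L (by
        rw [le_div_iff₀ (by positivity)]
        rw [div_le_iff₀ (by positivity)] at hK1
        nlinarith [mul_le_mul_of_nonneg_right hK1 hTij.le])
    cases b
    · refine le_trans (le_of_eq (Finset.sum_congr ?_ fun _ _ => rfl)) c2
      ext om; simp [hbad, hij]
    · refine le_trans (le_of_eq (Finset.sum_congr ?_ fun _ _ => rfl)) c1
      ext om; simp [hbad, hij])
    (by
      have := log_fail_bound hn
      rw [← hL] at this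
      simp only [Fintype.card_prod, Fintype.card_fin, Fintype.card_bool]
      push_cast
      linarith)
  refine ⟨K, ?_, fun i l => ((w (om l) * K)⁻¹) ^ (1 / p) * X i (om l), (1 - ε) ^ (1 / p),
    Real.rpow_pos_of_pos (by linarith) _, fun i j => ?_⟩
  · rw [hK]
    refine (Nat.ceil_lt_add_one (by positivity)).le.trans ?_
    have hbase : 1 ≤ Real.log n + 1 := by linarith
    have h1 : (2 * (Real.log n + 2)) ^ p ≤ 4 ^ p * (Real.log n + 1) ^ p := by
      rw [← Real.mul_rpow (by norm_num) (by linarith)]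
      exact Real.rpow_le_rpow (by positivity) (by linarith) hp0.le
    have h2 : L ≤ 3 * (Real.log n + 1) := by linarith
    have h3 : (Real.log n + 1) ^ (p + 1) = (Real.log n + 1) ^ p * (Real.log n + 1) :=
      Real.rpow_add_one (by linarith) p
    have h4 : (1:ℝ) ≤ (n:ℝ) * (Real.log n + 1) ^ (p + 1) :=
      one_le_mul_of_one_le_of_one_le hn1 (Real.one_le_rpow hbase (by linarith))
    have h5 : S * L ≤ 4 ^ p * (Real.log n + 1) ^ p * (6 * n) * (3 * (Real.log n + 1)) :=
      mul_le_mul (hσle.trans (mul_le_mul_of_nonneg_right h1 (by positivity))) h2 hL0.le (by positivity)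
    calc 4 * S * L / ε ^ 2 + 1
        ≤ 4 * (4 ^ p * (Real.log n + 1) ^ p * (6 * n) * (3 * (Real.log n + 1))) / ε ^ 2
          + n * (Real.log n + 1) ^ (p + 1) := by
          refine add_le_add (div_le_div_of_nonneg_right ?_ (by positivity)) h4
          linarith
      _ = _ := by rw [h3]; ring
  have hY : ∑ l, |((w (om l) * K)⁻¹) ^ (1 / p) * X i (om l)
      - ((w (om l) * K)⁻¹) ^ (1 / p) * X j (om l)| ^ p = (∑ l, Z i j (om l)) / K := by
    rw [Finset.sum_div]
    refine Finset.sum_congr rfl fun l _ => ?_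
    have hnn : 0 ≤ (w (om l) * K)⁻¹ := inv_nonneg.2 (mul_nonneg (hw0 _) hK0.le)
    rw [← mul_sub, abs_mul, Real.mul_rpow (abs_nonneg _) (abs_nonneg _),
      abs_of_nonneg (Real.rpow_nonneg hnn _), ← Real.rpow_mul hnn, one_div_mul_cancel hp0.ne',
      Real.rpow_one]
    simp only [Z]; ring
  rw [hY]
  change (1 - ε) ^ (1 / p) * T i j ^ (1 / p) ≤ _ ∧ _ ≤ D * ((1 - ε) ^ (1 / p) * T i j ^ (1 / p))
  rcases eq_or_ne i j with rfl | hij
  · simp [Z, hT, powDist, Real.zero_rpow hp0.ne', hp0.ne']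
  have h1 : ¬ bad ((i, j), true) om := hom _
  have h2 : ¬ bad ((i, j), false) om := hom _
  simp only [hbad, hij, ne_eq, not_false_eq_true, true_and, if_true, not_lt, Bool.false_eq_true,
    if_false] at h1 h2
  have hT0 : 0 ≤ T i j := powDist_nonneg _ _ _
  have hA0 : 0 ≤ (∑ l, Z i j (om l)) / K :=
    div_nonneg (Finset.sum_nonneg fun l _ => hZ0 i j _) hK0.le
  rw [← Real.mul_rpow (by linarith) hT0]
  constructor
  · refine Real.rpow_le_rpow (mul_nonneg (by linarith) hT0) ?_ (by positivity)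
    rw [le_div_iff₀ hK0]; linarith
  · calc ((∑ l, Z i j (om l)) / K) ^ (1 / p) ≤ (D * ((1 - ε) * T i j)) ^ (1 / p) := by
          refine Real.rpow_le_rpow hA0 ?_ (by positivity)
          rw [div_le_iff₀ hK0, ← mul_assoc, ← hεD]
          linarith
      _ = D ^ (1 / p) * ((1 - ε) * T i j) ^ (1 / p) :=
          Real.mul_rpow (by linarith) (mul_nonneg (by linarith) hT0)
      _ ≤ _ := mul_le_mul_of_nonneg_right
          ((Real.rpow_le_rpow_of_exponent_le hD.le ((div_le_one hp0).2 hp)).trans_eq (Real.rpow_one D))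
          (Real.rpow_nonneg (mul_nonneg (by linarith) hT0) _)

end Vale.Agent.P249
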