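import Mathlib
import Vale.Agent.P249.Khintchine

/-! One sparse random sign row followed by a circle map. -/

namespace Vale.Agent.P249

open Finset

/-- Weight of one entry of a sparse sign row. -/
noncomputable def entryW (ρ : ℝ) : Option Bool → ℝ
  | none => 1 - ρ
  | some _ => ρ / 2

/-- Value of one entry of a sparse sign row. -/
noncomputable def entryV : Option Bool → ℝ
  | none => 0
  | some b => sgnB b

/-- Weight of a row. -/
noncomputable def rowW {N : ℕ} (ρ : ℝ) (e : Fin N → Option Bool) : ℝ := ∏ j, entryW ρ (e j)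

/-- Inner product with a row. -/
noncomputable def rowDot {N : ℕ} (e : Fin N → Option Bool) (v : Fin N → ℝ) : ℝ :=
  ∑ j, entryV (e j) * v j

/-- Expectation over a row. -/
noncomputable def rowE {N : ℕ} (ρ : ℝ) (v : Fin N → ℝ) (R : ℝ) (f : ℝ → ℝ) : ℝ :=
  ∑ e : Fin N → Option Bool, rowW ρ e * f (R + rowDot e v)

lemma rowW_nonneg {N : ℕ} {ρ : ℝ} (h0 : 0 ≤ ρ) (h1 : ρ ≤ 1) (e : Fin N → Option Bool) :
    0 ≤ rowW ρ e :=
  Finset.prod_nonneg fun j _ => by cases e j <;> simp [entryW] <;> linarith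

lemma sum_rowW (N : ℕ) (ρ : ℝ) : ∑ e : Fin N → Option Bool, rowW ρ e = 1 := by
  simp only [rowW, ← Fintype.prod_sum (fun _ : Fin N => entryW ρ)]
  have h : ∑ o : Option Bool, entryW ρ o = 1 := by
    simp [Fintype.sum_option, entryW]; ring
  simp [h]

lemma rowDot_sub {N : ℕ} (e : Fin N → Option Bool) (x y : Fin N → ℝ) :
    rowDot e (fun j => x j - y j) = rowDot e x - rowDot e y := by
  simp [rowDot, mul_sub, Finset.sum_sub_distrib]

lemma rowE_succ {N : ℕ} (ρ : ℝ) (v : Fin (N + 1) → ℝ) (R : ℝ) (f : ℝ → ℝ) :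
    rowE ρ v R f = (1 - ρ) * rowE ρ (fun j => v j.succ) R f
      + ρ / 2 * rowE ρ (fun j => v j.succ) (R + v 0) f
      + ρ / 2 * rowE ρ (fun j => v j.succ) (R - v 0) f := by
  rw [rowE, ← Equiv.sum_comp (Fin.consEquiv fun _ => Option Bool), Fintype.sum_prod_type,
    Fintype.sum_option, Fintype.sum_bool]
  simp only [Fin.consEquiv_apply, rowW, rowDot, Fin.prod_univ_succ, Fin.sum_univ_succ,
    Fin.cons_zero, Fin.cons_succ, entryW, entryV, sgnB, if_true, Bool.false_eq_true, if_false,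
    zero_mul, zero_add, one_mul, neg_one_mul, rowE, Finset.mul_sum, mul_assoc, add_assoc,
    sub_eq_add_neg]

lemma two_point {p : ℝ} (hp0 : 0 ≤ p) (hp2 : p ≤ 2) (a b : ℝ) :
    |a + b| ^ p + |a - b| ^ p ≤ 2 * (|a| ^ p + |b| ^ p) := by
  have hq0 : 0 ≤ p / 2 := by linarith
  have hq1 : p / 2 ≤ 1 := by linarith
  have hz : ∀ z : ℝ, (z ^ 2) ^ (p / 2) = |z| ^ p := by
    intro z
    rw [← sq_abs, ← Real.rpow_natCast |z| 2, ← Real.rpow_mul (abs_nonneg z)]
    congr 1; push_cast; ring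
  have hc := (Real.concaveOn_rpow hq0 hq1).2 (Set.mem_Ici.2 (sq_nonneg (a + b)))
    (Set.mem_Ici.2 (sq_nonneg (a - b))) (by norm_num : (0:ℝ) ≤ 1/2) (by norm_num : (0:ℝ) ≤ 1/2)
    (by norm_num)
  simp only [smul_eq_mul] at hc
  rw [hz, hz, show 1/2 * (a + b) ^ 2 + 1/2 * (a - b) ^ 2 = a ^ 2 + b ^ 2 by ring] at hc
  have hs := Real.rpow_add_le_add_rpow (sq_nonneg a) (sq_nonneg b) hq0 hq1
  rw [hz, hz] at hs
  linarith

lemma rowE_abs_le {p : ℝ} (hp0 : 0 ≤ p) (hp2 : p ≤ 2) {ρ : ℝ} (h0 : 0 ≤ ρ) (h1 : ρ ≤ 1) :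
    ∀ {N : ℕ} (v : Fin N → ℝ) (R : ℝ),
      rowE ρ v R (fun s => |s| ^ p) ≤ |R| ^ p + ρ * ∑ j, |v j| ^ p
  | 0, v, R => by simp [rowE, rowW, rowDot]
  | N + 1, v, R => by
    rw [rowE_succ, Fin.sum_univ_succ]
    have e0 := rowE_abs_le hp0 hp2 h0 h1 (fun j => v j.succ) R
    have e1 := rowE_abs_le hp0 hp2 h0 h1 (fun j => v j.succ) (R + v 0)
    have e2 := rowE_abs_le hp0 hp2 h0 h1 (fun j => v j.succ) (R - v 0)
    have e3 := two_point hp0 hp2 R (v 0)
    have m0 := mul_le_mul_of_nonneg_left e0 (by linarith : (0:ℝ) ≤ 1 - ρ)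
    have m1 := mul_le_mul_of_nonneg_left e1 (by linarith : (0:ℝ) ≤ ρ / 2)
    have m2 := mul_le_mul_of_nonneg_left e2 (by linarith : (0:ℝ) ≤ ρ / 2)
    have m3 := mul_le_mul_of_nonneg_left e3 (by linarith : (0:ℝ) ≤ ρ / 2)
    linarith

/-- The periodic profile. -/
noncomputable def sinProf (p M s : ℝ) : ℝ := (M * |Real.sin (s / (2 * M))|) ^ p

lemma sinProf_nonneg {p M : ℝ} (hM : 0 ≤ M) (s : ℝ) : 0 ≤ sinProf p M s :=
  Real.rpow_nonneg (mul_nonneg hM (abs_nonneg _)) _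

lemma rowE_nonneg {N : ℕ} {ρ : ℝ} (h0 : 0 ≤ ρ) (h1 : ρ ≤ 1) (v : Fin N → ℝ) (R : ℝ)
    {f : ℝ → ℝ} (hf : ∀ s, 0 ≤ f s) : 0 ≤ rowE ρ v R f :=
  Finset.sum_nonneg fun e _ => mul_nonneg (rowW_nonneg h0 h1 e) (hf _)

lemma sinProf_pair {p M : ℝ} (hp0 : 0 ≤ p) (hM : 0 < M) {v : ℝ} (hv : |v| ≤ M) (R : ℝ) :
    (|v| / 4) ^ p ≤ sinProf p M (R + v) + sinProf p M (R - v) := by
  set φ := R / (2 * M)
  set θ := v / (2 * M)
  have e1 : (R + v) / (2 * M) = φ + θ := by simp only [φ, θ]; ring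
  have e2 : (R - v) / (2 * M) = φ - θ := by simp only [φ, θ]; ring
  have htri : |Real.sin (v / M)| ≤ |Real.sin (φ + θ)| + |Real.sin (φ - θ)| := by
    have : v / M = (φ + θ) - (φ - θ) := by simp only [φ, θ]; field_simp; ring
    rw [this, Real.sin_sub (φ + θ)]
    refine (abs_sub _ _).trans (add_le_add ?_ ?_) <;> rw [abs_mul]
    · exact mul_le_of_le_one_right (abs_nonneg _) (Real.abs_cos_le_one _)
    · exact mul_le_of_le_one_left (abs_nonneg _) (Real.abs_cos_le_one _)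
  have hlow : |v| / (2 * M) ≤ |Real.sin (v / M)| := by
    have h1 : |v| / M ≤ 1 := (div_le_one hM).2 hv
    have h2 := Real.mul_le_sin (x := |v| / M) (by positivity)
      (h1.trans (by linarith [Real.pi_gt_three]))
    have h3 : |Real.sin (|v| / M)| = |Real.sin (v / M)| := by
      rcases abs_choice v with h | h <;> rw [h]
      rw [neg_div, Real.sin_neg, abs_neg]
    have h4 : (1:ℝ) / 2 ≤ 2 / Real.pi := by
      rw [div_le_div_iff₀ (by norm_num) Real.pi_pos]; linarith [Real.pi_le_four]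
    have h5 := mul_le_mul_of_nonneg_right h4 (show 0 ≤ |v| / M by positivity)
    have : |v| / (2 * M) = 1 / 2 * (|v| / M) := by field_simp
    linarith [le_abs_self (Real.sin (|v| / M))]
  rw [div_le_iff₀ (by linarith)] at hlow
  have hsum : |v| / 2 ≤ M * |Real.sin (φ + θ)| + M * |Real.sin (φ - θ)| := by nlinarith
  have ha : 0 ≤ sinProf p M (R + v) := sinProf_nonneg hM.le _
  have hb : 0 ≤ sinProf p M (R - v) := sinProf_nonneg hM.le _
  rcases le_total (M * |Real.sin (φ + θ)|) (M * |Real.sin (φ - θ)|) with h | h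
  · have := Real.rpow_le_rpow (by positivity) (show |v| / 4 ≤ M * |Real.sin (φ - θ)| by linarith) hp0
    rw [sinProf, sinProf, e1, e2] at *
    linarith
  · have := Real.rpow_le_rpow (by positivity) (show |v| / 4 ≤ M * |Real.sin (φ + θ)| by linarith) hp0
    rw [sinProf, sinProf, e1, e2] at *
    linarith

lemma rowE_sinProf_ge {p : ℝ} (hp0 : 0 ≤ p) (hp2 : p ≤ 2) {ρ : ℝ} (h0 : 0 ≤ ρ) (h1 : ρ ≤ 1)
    {M : ℝ} (hM : 0 < M) :
    ∀ {N : ℕ} (v : Fin N → ℝ) (S : Finset (Fin N)), (∀ j ∈ S, |v j| ≤ M) → ∀ R : ℝ,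
      ρ / 32 * (1 - ρ) ^ S.card * ∑ j ∈ S, |v j| ^ p ≤ rowE ρ v R (sinProf p M)
  | 0, v, S, _, R => by
    rw [Subsingleton.elim S ∅]
    simpa using rowE_nonneg h0 h1 v R (sinProf_nonneg hM.le)
  | N + 1, v, S, hS, R => by
    classical
    rw [rowE_succ]
    set v' : Fin N → ℝ := fun j => v j.succ with hv'
    set S' : Finset (Fin N) := Finset.univ.filter (fun j => j.succ ∈ S) with hS'
    have hS'v : ∀ j ∈ S', |v' j| ≤ M := fun j hj => hS _ (Finset.mem_filter.1 hj).2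
    have ih := rowE_sinProf_ge hp0 hp2 h0 h1 hM v' S' hS'v
    set g := ρ / 32 * (1 - ρ) ^ S'.card * ∑ j ∈ S', |v' j| ^ p with hg
    have hsum : ∀ f : Fin (N + 1) → ℝ, ∑ j ∈ S, f j
        = (if (0 : Fin (N + 1)) ∈ S then f 0 else 0) + ∑ j ∈ S', f j.succ := by
      intro f
      rw [hS', Finset.sum_filter, ← Fin.sum_univ_succ (fun j => if j ∈ S then f j else 0),
        Finset.sum_ite_mem, Finset.univ_inter]
    have hcard : S.card = (if (0 : Fin (N + 1)) ∈ S then 1 else 0) + S'.card := by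
      have h := hsum (fun _ => 1)
      simp only [Finset.sum_const, nsmul_eq_mul, mul_one] at h
      split_ifs at h ⊢ <;> exact_mod_cast h
    by_cases hz : (0 : Fin (N + 1)) ∈ S
    · rw [hsum, hcard, if_pos hz, if_pos hz]
      have m0 := mul_le_mul_of_nonneg_left (ih R) (by linarith : (0:ℝ) ≤ 1 - ρ)
      have hpair : ρ / 32 * |v 0| ^ p ≤
          ρ / 2 * rowE ρ v' (R + v 0) (sinProf p M) + ρ / 2 * rowE ρ v' (R - v 0) (sinProf p M) := by
        rw [← mul_add, rowE, rowE, ← Finset.sum_add_distrib]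
        have hp16 : |v 0| ^ p / 16 ≤ (|v 0| / 4) ^ p := by
          rw [Real.div_rpow (abs_nonneg _) (by norm_num)]
          refine div_le_div_of_nonneg_left (Real.rpow_nonneg (abs_nonneg _) _)
            (Real.rpow_pos_of_pos (by norm_num) _) ?_
          calc (4:ℝ) ^ p ≤ 4 ^ (2:ℝ) := Real.rpow_le_rpow_of_exponent_le (by norm_num) hp2
            _ = 16 := by norm_num
        calc ρ / 32 * |v 0| ^ p = ρ / 2 * ∑ e : Fin N → Option Bool, rowW ρ e * (|v 0| ^ p / 16) := by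
              rw [← Finset.sum_mul, sum_rowW]; ring
          _ ≤ _ := by
              refine mul_le_mul_of_nonneg_left (Finset.sum_le_sum fun e _ => ?_) (by linarith)
              rw [← mul_add]
              refine mul_le_mul_of_nonneg_left (hp16.trans ?_) (rowW_nonneg h0 h1 e)
              rw [add_right_comm R, sub_add_eq_add_sub]
              exact sinProf_pair hp0 hM (hS 0 hz) _
      have hpow : (1 - ρ) ^ (1 + S'.card) ≤ 1 := pow_le_one₀ (by linarith) (by linarith)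
      have hv0 : 0 ≤ ρ / 32 * |v 0| ^ p :=
        mul_nonneg (by linarith) (Real.rpow_nonneg (abs_nonneg _) _)
      have hb := mul_le_mul_of_nonneg_left hpow hv0
      have hexp : ρ / 32 * (1 - ρ) ^ (1 + S'.card) * (|v 0| ^ p + ∑ j ∈ S', |v j.succ| ^ p)
          = ρ / 32 * |v 0| ^ p * (1 - ρ) ^ (1 + S'.card) + (1 - ρ) * g := by
        rw [hg, hv', pow_add, pow_one]; ring
      rw [hexp]
      linarith
    · rw [hsum, hcard, if_neg hz, if_neg hz, zero_add, zero_add]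
      have m0 := mul_le_mul_of_nonneg_left (ih R) (by linarith : (0:ℝ) ≤ 1 - ρ)
      have m1 := mul_le_mul_of_nonneg_left (ih (R + v 0)) (by linarith : (0:ℝ) ≤ ρ / 2)
      have m2 := mul_le_mul_of_nonneg_left (ih (R - v 0)) (by linarith : (0:ℝ) ≤ ρ / 2)
      have : g = (1 - ρ) * g + ρ / 2 * g + ρ / 2 * g := by ring
      rw [show ρ / 32 * (1 - ρ) ^ S'.card * ∑ j ∈ S', |v j.succ| ^ p = g from rfl]
      linarith

/-- The cost of a pair on one circle. -/
noncomputable def circCost (p M a b : ℝ) : ℝ :=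
  |M * Real.sin (a / M) - M * Real.sin (b / M)| ^ p
    + |M * Real.cos (a / M) - M * Real.cos (b / M)| ^ p

lemma circCost_nonneg (p M a b : ℝ) : 0 ≤ circCost p M a b :=
  add_nonneg (Real.rpow_nonneg (abs_nonneg _) _) (Real.rpow_nonneg (abs_nonneg _) _)

lemma circCost_le {p M : ℝ} (hp0 : 0 ≤ p) (hM : 0 < M) (a b : ℝ) :
    circCost p M a b ≤ 2 * |a - b| ^ p ∧ circCost p M a b ≤ 2 * (2 * M) ^ p := by
  have key : ∀ T : ℝ → ℝ, (∀ u, |T u| ≤ 1) → (∀ u w, |T u - T w| ≤ |u - w|) →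
      |M * T (a / M) - M * T (b / M)| ^ p ≤ |a - b| ^ p ∧
      |M * T (a / M) - M * T (b / M)| ^ p ≤ (2 * M) ^ p := by
    intro T hT1 hT2
    rw [← mul_sub, abs_mul, abs_of_pos hM]
    have hnn : 0 ≤ M * |T (a / M) - T (b / M)| := mul_nonneg hM.le (abs_nonneg _)
    constructor <;> refine Real.rpow_le_rpow hnn ?_ hp0
    · have h := mul_le_mul_of_nonneg_left (hT2 (a / M) (b / M)) hM.le
      rwa [← sub_div, abs_div, abs_of_pos hM, mul_div_cancel₀ _ hM.ne'] at h
    · have h1 := abs_sub (T (a / M)) (T (b / M))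
      have := hT1 (a / M)
      have := hT1 (b / M)
      nlinarith
  have hs := key Real.sin Real.abs_sin_le_one fun u w => by
    simpa [Real.dist_eq] using Real.lipschitzWith_sin.dist_le_mul u w
  have hc := key Real.cos Real.abs_cos_le_one fun u w => by
    simpa [Real.dist_eq] using Real.lipschitzWith_cos.dist_le_mul u w
  exact ⟨by unfold circCost; linarith [hs.1, hc.1], by unfold circCost; linarith [hs.2, hc.2]⟩

lemma sinProf_le_circCost {p M : ℝ} (hp0 : 0 ≤ p) (hM : 0 < M) (a b : ℝ) :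
    sinProf p M (a - b) ≤ circCost p M a b := by
  set A := |M * Real.sin (a / M) - M * Real.sin (b / M)| with hA
  set B := |M * Real.cos (a / M) - M * Real.cos (b / M)| with hB
  have hAB : A ^ 2 + B ^ 2 = (2 * (M * |Real.sin ((a - b) / (2 * M))|)) ^ 2 := by
    rw [hA, hB, sq_abs, sq_abs, ← mul_sub, ← mul_sub, Real.sin_sub_sin, Real.cos_sub_cos,
      show (a / M - b / M) / 2 = (a - b) / (2 * M) by ring]
    have hsq : (2 * (M * |Real.sin ((a - b) / (2 * M))|)) ^ 2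
        = 4 * M ^ 2 * Real.sin ((a - b) / (2 * M)) ^ 2 := by
      rw [mul_pow, mul_pow, sq_abs]; ring
    rw [hsq]
    linear_combination (4 * M ^ 2 * Real.sin ((a - b) / (2 * M)) ^ 2)
      * Real.sin_sq_add_cos_sq ((a / M + b / M) / 2)
  have hA0 : 0 ≤ A := abs_nonneg _
  have hB0 : 0 ≤ B := abs_nonneg _
  have hsum : 2 * (M * |Real.sin ((a - b) / (2 * M))|) ≤ A + B := by
    refine (pow_le_pow_iff_left₀ (by positivity) (by linarith) two_ne_zero).1 ?_
    nlinarith [mul_nonneg hA0 hB0]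
  have h1 : 0 ≤ A ^ p := Real.rpow_nonneg hA0 _
  have h2 : 0 ≤ B ^ p := Real.rpow_nonneg hB0 _
  change sinProf p M (a - b) ≤ A ^ p + B ^ p
  rw [sinProf]
  rcases le_total A B with h | h
  · have := Real.rpow_le_rpow (mul_nonneg hM.le (abs_nonneg _))
      (show M * |Real.sin ((a - b) / (2 * M))| ≤ B by linarith) hp0
    linarith
  · have := Real.rpow_le_rpow (mul_nonneg hM.le (abs_nonneg _))
      (show M * |Real.sin ((a - b) / (2 * M))| ≤ A by linarith) hp0
    linarith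

end Vale.Agent.P249
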