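import Mathlib
import Vale.Agent.P249.Chernoff
import Vale.Agent.P249.SparseRow
import Vale.Agent.P249.Reduce

/-! Truncation to circles, sampling of coordinates, and the dead zone. -/

namespace Vale.Agent.P249

open Finset

/-- Clamp to `[-θ, θ]`. -/
noncomputable def clipF (θ s : ℝ) : ℝ := max (-θ) (min θ s)

/-- The dead zone: the part of `s` outside `[-θ, θ]`. -/
noncomputable def dzone (θ s : ℝ) : ℝ := s - clipF θ s

lemma abs_clipF_le {θ : ℝ} (hθ : 0 ≤ θ) (s : ℝ) : |clipF θ s| ≤ θ :=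
  abs_le.2 ⟨le_max_left _ _, max_le (by linarith) (min_le_left _ _)⟩

lemma dzone_eq_zero {θ s : ℝ} (h : |s| ≤ θ) : dzone θ s = 0 := by
  obtain ⟨h1, h2⟩ := abs_le.1 h
  simp [dzone, clipF, min_eq_right h2, max_eq_right h1]

lemma abs_dzone_sub_le (θ a b : ℝ) : |dzone θ a - dzone θ b| ≤ |a - b| := by
  have key : ∀ x y : ℝ, x ≤ y →
      0 ≤ dzone θ y - dzone θ x ∧ dzone θ y - dzone θ x ≤ y - x := by
    intro x y hxy
    have h1 : clipF θ x ≤ clipF θ y := max_le_max le_rfl (min_le_min le_rfl hxy)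
    have h2 : clipF θ y - clipF θ x ≤ y - x := by
      simp only [clipF, max_def, min_def]
      split_ifs <;> linarith
    simp only [dzone]
    constructor <;> linarith
  rcases le_total a b with h | h
  · rw [abs_sub_comm, abs_sub_comm a, abs_of_nonneg (key a b h).1,
      abs_of_nonneg (by linarith : 0 ≤ b - a)]
    exact (key a b h).2
  · rw [abs_of_nonneg (key b a h).1, abs_of_nonneg (by linarith : 0 ≤ a - b)]
    exact (key b a h).2

lemma abs_dzone_le {θ : ℝ} (hθ : 0 ≤ θ) (s : ℝ) : |dzone θ s| ≤ |s| := by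
  have h := abs_dzone_sub_le θ s 0
  rwa [dzone_eq_zero (s := 0) (by simpa using hθ), sub_zero, sub_zero] at h

lemma abs_dzone_diff (θ a b : ℝ) (hθ : 0 ≤ θ) :
    |(dzone θ a - dzone θ b) - (a - b)| ≤ 2 * θ := by
  have : (dzone θ a - dzone θ b) - (a - b) = clipF θ b - clipF θ a := by simp [dzone]; ring
  rw [this]
  linarith [abs_sub (clipF θ b) (clipF θ a), abs_clipF_le hθ a, abs_clipF_le hθ b]

/-- One circle coordinate. -/
noncomputable def circC (M : ℝ) (b : Bool) (x : ℝ) : ℝ :=
  if b then M * Real.sin (x / M) else M * Real.cos (x / M)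

lemma circC_diff_le {M : ℝ} (hM : 0 < M) (b : Bool) (x y : ℝ) :
    |circC M b x - circC M b y| ≤ |x - y| ∧ |circC M b x - circC M b y| ≤ 2 * M := by
  have key : ∀ T : ℝ → ℝ, (∀ u, |T u| ≤ 1) → (∀ u w, |T u - T w| ≤ |u - w|) →
      |M * T (x / M) - M * T (y / M)| ≤ |x - y| ∧ |M * T (x / M) - M * T (y / M)| ≤ 2 * M := by
    intro T hT1 hT2
    rw [← mul_sub, abs_mul, abs_of_pos hM]
    constructor
    · have h := mul_le_mul_of_nonneg_left (hT2 (x / M) (y / M)) hM.le
      rwa [← sub_div, abs_div, abs_of_pos hM, mul_div_cancel₀ _ hM.ne'] at h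
    · nlinarith [abs_sub (T (x / M)) (T (y / M)), hT1 (x / M), hT1 (y / M)]
  cases b
  · exact key Real.cos Real.abs_cos_le_one fun u w => by
      simpa [Real.dist_eq] using Real.lipschitzWith_cos.dist_le_mul u w
  · exact key Real.sin Real.abs_sin_le_one fun u w => by
      simpa [Real.dist_eq] using Real.lipschitzWith_sin.dist_le_mul u w

lemma circC_detect {M : ℝ} (hM : 0 < M) {x y : ℝ} (h : |x - y| ≤ M) :
    ∃ b, |x - y| / 8 ≤ |circC M b x - circC M b y| := by
  have h1 := sinProf_le_circCost (p := 1) zero_le_one hM x y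
  simp only [sinProf, circCost, Real.rpow_one] at h1
  have h2 : |x - y| / (4 * M) ≤ |Real.sin ((x - y) / (2 * M))| := by
    have hv : |x - y| / (2 * M) ≤ 1 / 2 := by rw [div_le_iff₀ (by positivity)]; linarith
    have h3 := Real.mul_le_sin (x := |x - y| / (2 * M)) (by positivity)
      (hv.trans (by linarith [Real.pi_gt_three]))
    have h4 : |Real.sin (|x - y| / (2 * M))| = |Real.sin ((x - y) / (2 * M))| := by
      rcases abs_choice (x - y) with e | e <;> rw [e]
      rw [neg_div, Real.sin_neg, abs_neg]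
    have h5 : (1:ℝ) / 2 ≤ 2 / Real.pi := by
      rw [div_le_div_iff₀ (by norm_num) Real.pi_pos]; linarith [Real.pi_le_four]
    have h6 := mul_le_mul_of_nonneg_right h5 (show 0 ≤ |x - y| / (2 * M) by positivity)
    have : |x - y| / (4 * M) = 1 / 2 * (|x - y| / (2 * M)) := by ring
    linarith [le_abs_self (Real.sin (|x - y| / (2 * M)))]
  rw [div_le_iff₀ (by positivity)] at h2
  by_contra hc
  push Not at hc
  have a := hc true
  have b := hc false
  simp only [circC, if_true, Bool.false_eq_true, if_false] at a b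
  nlinarith

/-- Sampled, rescaled circle coordinates. -/
noncomputable def sampVec {N K : ℕ} (p M : ℝ) (J : Fin K → Fin N × Bool) (x : Fin N → ℝ) :
    Fin K → ℝ :=
  fun l => (2 * N / K : ℝ) ^ (1 / p) * circC M (J l).2 (x (J l).1)

lemma sampVec_diff_le {N K : ℕ} {p M : ℝ} (hM : 0 < M) (J : Fin K → Fin N × Bool)
    (x y : Fin N → ℝ) (l : Fin K) :
    |sampVec p M J x l - sampVec p M J y l| ≤ (2 * N / K : ℝ) ^ (1 / p) * (2 * M) := by
  rw [sampVec, sampVec, ← mul_sub, abs_mul, abs_of_nonneg (by positivity)]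
  exact mul_le_mul_of_nonneg_left (circC_diff_le hM _ _ _).2 (by positivity)

open Classical in
/-- Sampling preserves the mass of a magnitude range up to an additive error. -/
theorem exists_sample {p : ℝ} (hp : 0 < p) {n N : ℕ} (hN : 0 < N) (Y : Fin n → Fin N → ℝ)
    {M η : ℝ} (hM : 0 < M) (_hη : 0 ≤ η) {K : ℕ} (hK : 0 < K) {L e : ℝ}
    (hKe : 2 * N * (2 * M) ^ p * L ≤ K * e) (hfail : 2 * (n:ℝ) ^ 2 * Real.exp (-L) < 1) :
    ∃ J : Fin K → Fin N × Bool, ∀ a b,
      powDist p (sampVec p M J (Y a)) (sampVec p M J (Y b)) ≤ 4 * powDist p (Y a) (Y b) + e ∧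
      (∑ j ∈ univ.filter (fun j => η < |Y a j - Y b j| ∧ |Y a j - Y b j| ≤ M),
          |Y a j - Y b j| ^ p) / (2 * 8 ^ p) - e
        ≤ ∑ l ∈ univ.filter (fun l =>
              (2 * N / K : ℝ) ^ (1 / p) * (η / 8) ≤ |sampVec p M J (Y a) l - sampVec p M J (Y b) l|),
            |sampVec p M J (Y a) l - sampVec p M J (Y b) l| ^ p := by
  have hNR : (0:ℝ) < N := by exact_mod_cast hN
  have hKR : (0:ℝ) < K := by exact_mod_cast hK
  set w : Fin N × Bool → ℝ := fun _ => (2 * (N:ℝ))⁻¹ with hw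
  have hw0 : ∀ a, 0 ≤ w a := fun a => by positivity
  have hw1 : ∑ a, w a = 1 := by simp [hw]; field_simp
  set Δ : Fin n → Fin n → Fin N × Bool → ℝ := fun a b x =>
    |circC M x.2 (Y a x.1) - circC M x.2 (Y b x.1)| with hΔ
  set Z : Bool → Fin n → Fin n → Fin N × Bool → ℝ := fun up a b x =>
    if up ∨ η / 8 ≤ Δ a b x then Δ a b x ^ p else 0 with hZ
  have hB : 0 < (2 * M) ^ p := Real.rpow_pos_of_pos (by linarith) _
  have hΔ0 : ∀ a b x, 0 ≤ Δ a b x := fun a b x => abs_nonneg _
  have hZ0 : ∀ up a b x, 0 ≤ Z up a b x := fun up a b x => by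
    simp only [hZ]; split_ifs
    · exact Real.rpow_nonneg (hΔ0 a b x) _
    · exact le_rfl
  have hZle : ∀ up a b x, Z up a b x ≤ Δ a b x ^ p := fun up a b x => by
    simp only [hZ]; split_ifs
    · exact le_rfl
    · exact Real.rpow_nonneg (hΔ0 a b x) _
  have hZb : ∀ up a b x, Z up a b x ≤ (2 * M) ^ p := fun up a b x =>
    (hZle up a b x).trans (Real.rpow_le_rpow (hΔ0 a b x) (circC_diff_le hM _ _ _).2 hp.le)
  have hhi : ∀ up a b, ∑ x, w x * Z up a b x ≤ powDist p (Y a) (Y b) / N := by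
    intro up a b
    calc ∑ x, w x * Z up a b x ≤ ∑ x : Fin N × Bool, w x * |Y a x.1 - Y b x.1| ^ p :=
          Finset.sum_le_sum fun x _ => mul_le_mul_of_nonneg_left ((hZle up a b x).trans
            (Real.rpow_le_rpow (hΔ0 a b x) (circC_diff_le hM _ _ _).1 hp.le)) (hw0 x)
      _ = _ := by
          rw [Fintype.sum_prod_type, powDist, Finset.sum_div]
          refine Finset.sum_congr rfl fun j _ => ?_
          simp [hw]; field_simp
  set TS : Fin n → Fin n → ℝ := fun a b =>
    ∑ j ∈ univ.filter (fun j => η < |Y a j - Y b j| ∧ |Y a j - Y b j| ≤ M), |Y a j - Y b j| ^ p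
  have hlo : ∀ a b, TS a b / (8 ^ p * (2 * N)) ≤ ∑ x, w x * Z false a b x := by
    intro a b
    rw [Fintype.sum_prod_type]
    simp only [TS, Finset.sum_div, Finset.sum_filter]
    refine Finset.sum_le_sum fun j _ => ?_
    split_ifs with hj
    · obtain ⟨s, hs⟩ := circC_detect hM hj.2
      refine le_trans ?_ (Finset.single_le_sum (f := fun s => w (j, s) * Z false a b (j, s))
        (fun s _ => mul_nonneg (hw0 (j, s)) (hZ0 false a b (j, s))) (Finset.mem_univ s))
      have hth : η / 8 ≤ Δ a b (j, s) := by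
        simp only [hΔ]; linarith [hj.1]
      simp only [hZ, hth, or_true, if_true, hw]
      rw [inv_mul_eq_div, ← div_div, ← Real.div_rpow (abs_nonneg _) (by norm_num)]
      exact div_le_div_of_nonneg_right (Real.rpow_le_rpow (by positivity) hs hp.le) (by positivity)
    · rw [zero_div]; exact Finset.sum_nonneg fun s _ => mul_nonneg (hw0 (j, s)) (hZ0 false a b (j, s))
  set bad : (Fin n × Fin n) × Bool → (Fin K → Fin N × Bool) → Prop := fun q om =>
    if q.2 then 2 * K * (powDist p (Y q.1.1) (Y q.1.2) / N) + (2 * M) ^ p * L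
        < ∑ l, Z true q.1.1 q.1.2 (om l)
    else ∑ l, Z false q.1.1 q.1.2 (om l)
        < K * (TS q.1.1 q.1.2 / (8 ^ p * (2 * N))) / 2 - (2 * M) ^ p * L with hbad
  obtain ⟨J, hJ⟩ := exists_good (K := K) w hw0 hw1 bad (Real.exp (-L))
    (by
      rintro ⟨⟨a, b⟩, s⟩
      cases s
      · refine le_trans (le_of_eq (Finset.sum_congr ?_ fun _ _ => rfl))
          (chernoff (K := K) w hw0 hw1 (Z false a b) hB (hZ0 _ a b) (hZb _ a b)
            (TS a b / (8 ^ p * (2 * N))) (powDist p (Y a) (Y b) / N) (hlo a b) (hhi _ a b) L).2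
        ext om; simp [hbad]
      · refine le_trans (le_of_eq (Finset.sum_congr ?_ fun _ _ => rfl))
          (chernoff (K := K) w hw0 hw1 (Z true a b) hB (hZ0 _ a b) (hZb _ a b)
            0 (powDist p (Y a) (Y b) / N)
            (Finset.sum_nonneg fun x _ => mul_nonneg (hw0 x) (hZ0 _ _ _ _)) (hhi _ a b) L).1
        ext om; simp [hbad])
    (by simp only [Fintype.card_prod, Fintype.card_fin, Fintype.card_bool]; push_cast; nlinarith)
  refine ⟨J, fun a b => ?_⟩
  have hd : ∀ l, |sampVec p M J (Y a) l - sampVec p M J (Y b) l|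
      = (2 * N / K : ℝ) ^ (1 / p) * Δ a b (J l) := by
    intro l
    rw [sampVec, sampVec, ← mul_sub, abs_mul, abs_of_nonneg (by positivity)]
  have hdp : ∀ l, |sampVec p M J (Y a) l - sampVec p M J (Y b) l| ^ p
      = (2 * N / K : ℝ) * Δ a b (J l) ^ p := by
    intro l
    rw [hd, Real.mul_rpow (by positivity) (hΔ0 _ _ _), ← Real.rpow_mul (by positivity),
      one_div_mul_cancel hp.ne', Real.rpow_one]
  have hlam : (2 * N / K : ℝ) * ((2 * M) ^ p * L) ≤ e := by
    rw [div_mul_eq_mul_div, div_le_iff₀ hKR]; linarith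
  have h1 : ¬ bad ((a, b), true) J := hJ _
  have h2 : ¬ bad ((a, b), false) J := hJ _
  simp only [hbad, if_true, Bool.false_eq_true, if_false, not_lt] at h1 h2
  have hlnn : (0:ℝ) ≤ 2 * N / K := by positivity
  constructor
  · have he : powDist p (sampVec p M J (Y a)) (sampVec p M J (Y b))
        = (2 * N / K : ℝ) * ∑ l, Z true a b (J l) := by
      rw [powDist, Finset.mul_sum]
      exact Finset.sum_congr rfl fun l _ => by simp [hdp, hZ]
    rw [he]
    refine (mul_le_mul_of_nonneg_left h1 hlnn).trans ?_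
    have : (2 * N / K : ℝ) * (2 * K * (powDist p (Y a) (Y b) / N)) = 4 * powDist p (Y a) (Y b) := by
      field_simp; ring
    linarith
  · have he : ∑ l ∈ univ.filter (fun l => (2 * N / K : ℝ) ^ (1 / p) * (η / 8)
          ≤ |sampVec p M J (Y a) l - sampVec p M J (Y b) l|),
        |sampVec p M J (Y a) l - sampVec p M J (Y b) l| ^ p
        = (2 * N / K : ℝ) * ∑ l, Z false a b (J l) := by
      rw [Finset.mul_sum, Finset.sum_filter]
      refine Finset.sum_congr rfl fun l _ => ?_
      simp only [hd, mul_le_mul_iff_right₀ (show 0 < (2 * N / K : ℝ) ^ (1 / p) by positivity), hZ,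
        Bool.false_eq_true, false_or, mul_ite, mul_zero]
      split_ifs
      · rw [Real.mul_rpow (by positivity) (hΔ0 _ _ _), ← Real.rpow_mul hlnn,
          one_div_mul_cancel hp.ne', Real.rpow_one]
      · rfl
    rw [he]
    refine le_trans ?_ (mul_le_mul_of_nonneg_left h2 hlnn)
    have : (2 * N / K : ℝ) * (K * (TS a b / (8 ^ p * (2 * N))) / 2) = TS a b / (2 * 8 ^ p) := by
      field_simp
    simp only [TS] at this ⊢
    linarith

end Vale.Agent.P249
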