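import Mathlib
import Vale.Agent.P249.Chernoff
import Vale.Agent.P249.Khintchine
import Vale.Agent.P249.Reduce
import Vale.Agent.P249.Signs

/-! Signed hashing of sparse vectors. -/

namespace Vale.Agent.P249

open Finset

/-- The weight of all functions sending a given set into one value. -/
lemma sum_prodW_fixed {B K : ℕ} (hB : 0 < B) (T : Finset (Fin K)) (b : Fin B) :
    ∑ om ∈ univ.filter (fun om : Fin K → Fin B => ∀ l ∈ T, om l = b),
      prodW (fun _ => (B:ℝ)⁻¹) om = ((B:ℝ)⁻¹) ^ T.card := by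
  classical
  have hBR : (B:ℝ) ≠ 0 := by exact_mod_cast hB.ne'
  set g : Fin K → Fin B → ℝ :=
    fun l x => if l ∈ T then (if x = b then (B:ℝ)⁻¹ else 0) else (B:ℝ)⁻¹ with hg
  have h1 : ∀ om : Fin K → Fin B,
      (if (∀ l ∈ T, om l = b) then prodW (fun _ => (B:ℝ)⁻¹) om else 0) = ∏ l, g l (om l) := by
    intro om
    split_ifs with h
    · refine Finset.prod_congr rfl fun l _ => ?_
      simp only [hg]
      by_cases hl : l ∈ T <;> simp [hl, h l]
    · push Not at h
      obtain ⟨l, hl, hne⟩ := h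
      exact (Finset.prod_eq_zero (Finset.mem_univ l) (by simp [hg, hl, hne])).symm
  rw [Finset.sum_filter, Finset.sum_congr rfl fun om _ => h1 om, ← Fintype.prod_sum g]
  have h2 : ∀ l, ∑ x, g l x = if l ∈ T then (B:ℝ)⁻¹ else 1 := by
    intro l
    by_cases hl : l ∈ T <;> simp [hg, hl, hBR]
  simp only [h2]
  rw [Finset.prod_ite_mem, Finset.univ_inter, Finset.prod_const]

/-- A hash with small loads on a finite family of small sets. -/
theorem exists_hash {E : Type*} [Fintype E] {K B s ℓ : ℕ} (hB : 0 < B) (S : E → Finset (Fin K))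
    (hS : ∀ e, (S e).card ≤ s)
    (hfail : (Fintype.card E : ℝ) * (s:ℝ) ^ ℓ * B * ((B:ℝ)⁻¹) ^ ℓ < 1) :
    ∃ h : Fin K → Fin B, ∀ e b, ((S e).filter (fun l => h l = b)).card ≤ ℓ := by
  classical
  have hBR : (B:ℝ) ≠ 0 := by exact_mod_cast hB.ne'
  let EV := (e : E) × {T // T ∈ (S e).powersetCard ℓ} × Fin B
  obtain ⟨h, hh⟩ := exists_good (K := K) (fun _ : Fin B => (B:ℝ)⁻¹) (fun _ => by positivity)
    (by simp [hBR]) (fun (ev : EV) om => ∀ l ∈ ev.2.1.1, om l = ev.2.2) (((B:ℝ)⁻¹) ^ ℓ)
    (fun ev => by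
      refine le_trans (le_of_eq (Finset.sum_congr ?_ fun _ _ => rfl))
        (le_of_eq ((sum_prodW_fixed hB ev.2.1.1 ev.2.2).trans ?_))
      · ext om; simp
      · rw [(Finset.mem_powersetCard.1 ev.2.1.2).2])
    (lt_of_le_of_lt (mul_le_mul_of_nonneg_right (b := (Fintype.card EV : ℝ))
      (c := (Fintype.card E : ℝ) * (s:ℝ) ^ ℓ * B) (by
        have : Fintype.card EV ≤ Fintype.card E * s ^ ℓ * B := by
          simp only [EV, Fintype.card_sigma, Fintype.card_prod, Fintype.card_coe,
            Finset.card_powersetCard, Fintype.card_fin]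
          calc ∑ e, (S e).card.choose ℓ * B ≤ ∑ _e : E, s ^ ℓ * B :=
                Finset.sum_le_sum fun e _ => Nat.mul_le_mul_right B
                  ((Nat.choose_le_pow _ _).trans (Nat.pow_le_pow_left (hS e) ℓ))
            _ = _ := by simp [mul_assoc]
        exact_mod_cast this) (by positivity)) hfail)
  refine ⟨h, fun e b => ?_⟩
  by_contra hc
  push Not at hc
  obtain ⟨T, hT, hTc⟩ := Finset.exists_subset_card_eq (s := (S e).filter (fun l => h l = b))
    (n := ℓ) hc.le
  exact hh ⟨e, ⟨T, Finset.mem_powersetCard.2 ⟨hT.trans (Finset.filter_subset _ _), hTc⟩⟩, b⟩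
    fun l hl => (Finset.mem_filter.1 (hT hl)).2

/-- Signed hashing, repeated `R` times and normalized. -/
noncomputable def hashLin (p : ℝ) {K B R : ℕ} (h : Fin K → Fin B) (σ : Fin R → Fin K → Bool) :
    (Fin K → ℝ) →ₗ[ℝ] (Fin R × Fin B → ℝ) where
  toFun u x := ((R:ℝ)⁻¹) ^ (1 / p) * ∑ l ∈ univ.filter (fun l => h l = x.2), sgnB (σ x.1 l) * u l
  map_add' u v := by
    funext x
    simp [mul_add, Finset.sum_add_distrib]
  map_smul' c u := by
    funext x
    simp only [Pi.smul_apply, smul_eq_mul, RingHom.id_apply, Finset.mul_sum]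
    exact Finset.sum_congr rfl fun l _ => by ring

lemma powDist_hashLin_eq {p : ℝ} (hp : 0 < p) {K B R : ℕ} (h : Fin K → Fin B)
    (σ : Fin R → Fin K → Bool) (u : Fin K → ℝ) :
    powDist p (hashLin p h σ u) 0
      = (R:ℝ)⁻¹ * ∑ k, ∑ b, |∑ l ∈ univ.filter (fun l => h l = b), sgnB (σ k l) * u l| ^ p := by
  rw [powDist, Fintype.sum_prod_type, Finset.mul_sum]
  refine Finset.sum_congr rfl fun k _ => ?_
  rw [Finset.mul_sum]
  refine Finset.sum_congr rfl fun b _ => ?_
  have hR : (0:ℝ) ≤ (R:ℝ)⁻¹ := by positivity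
  simp only [hashLin, LinearMap.coe_mk, AddHom.coe_mk, Pi.zero_apply, sub_zero, abs_mul]
  rw [Real.mul_rpow (abs_nonneg _) (abs_nonneg _), abs_of_nonneg (Real.rpow_nonneg hR _),
    ← Real.rpow_mul hR, one_div_mul_cancel hp.ne', Real.rpow_one]

lemma powDist_hashLin_le {p : ℝ} (hp : 1 ≤ p) {K B R ℓ : ℕ} (hR : 0 < R) (h : Fin K → Fin B)
    (σ : Fin R → Fin K → Bool) (S : Finset (Fin K))
    (hload : ∀ b, (S.filter (fun l => h l = b)).card ≤ ℓ)
    (u : Fin K → ℝ) (hu : ∀ l ∉ S, u l = 0) :
    powDist p (hashLin p h σ u) 0 ≤ (ℓ:ℝ) ^ (p - 1) * ∑ l, |u l| ^ p := by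
  have hp0 : 0 < p := by linarith
  rw [powDist_hashLin_eq hp0]
  have hk : ∀ k : Fin R, ∑ b, |∑ l ∈ univ.filter (fun l => h l = b), sgnB (σ k l) * u l| ^ p
      ≤ (ℓ:ℝ) ^ (p - 1) * ∑ l, |u l| ^ p := by
    intro k
    rw [← Finset.sum_fiberwise univ h (fun l => |u l| ^ p), Finset.mul_sum]
    refine Finset.sum_le_sum fun b _ => ?_
    rw [← Finset.sum_subset (s₁ := S.filter (fun l => h l = b))
      (f := fun l => sgnB (σ k l) * u l)]
    · calc |∑ l ∈ S.filter (fun l => h l = b), sgnB (σ k l) * u l| ^ p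
          ≤ (∑ l ∈ S.filter (fun l => h l = b), |sgnB (σ k l) * u l|) ^ p :=
            Real.rpow_le_rpow (abs_nonneg _) (Finset.abs_sum_le_sum_abs _ _) hp0.le
        _ ≤ ((S.filter (fun l => h l = b)).card : ℝ) ^ (p - 1)
              * ∑ l ∈ S.filter (fun l => h l = b), |sgnB (σ k l) * u l| ^ p :=
            Real.rpow_sum_le_const_mul_sum_rpow _ _ hp
        _ ≤ _ := by
            simp only [abs_mul, abs_sgnB, one_mul]
            refine mul_le_mul ?_ ?_ (Finset.sum_nonneg fun l _ => Real.rpow_nonneg (abs_nonneg _) _)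
              (Real.rpow_nonneg (Nat.cast_nonneg _) _)
            · exact Real.rpow_le_rpow (Nat.cast_nonneg _) (by exact_mod_cast hload b) (by linarith)
            · exact Finset.sum_le_sum_of_subset_of_nonneg
                (fun l hl => by
                  simp only [Finset.mem_filter, Finset.mem_univ, true_and] at hl ⊢
                  exact hl.2)
                fun l _ _ => Real.rpow_nonneg (abs_nonneg _) _
    · intro l hl
      simp only [Finset.mem_filter, Finset.mem_univ, true_and] at hl ⊢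
      exact hl.2
    · intro l hl hl'
      simp only [Finset.mem_filter, Finset.mem_univ, true_and, not_and] at hl hl'
      rw [hu l fun hS => hl' hS hl, mul_zero]
  have hRR : (0:ℝ) < R := by exact_mod_cast hR
  rw [inv_mul_le_iff₀ hRR]
  exact (Finset.sum_le_sum fun k _ => hk k).trans (le_of_eq (by simp))

/-- Sign patterns preserving the coordinates in a given set for finitely many vectors. -/
theorem exists_hash_signs {p : ℝ} (hp : 1 ≤ p) {E : Type*} [Fintype E] {K B ℓ : ℕ}
    (h : Fin K → Fin B) (u : E → Fin K → ℝ) (S : E → Finset (Fin K))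
    (hload : ∀ e b, ((S e).filter (fun l => h l = b)).card ≤ ℓ)
    {R : ℕ} (hR0 : 0 < R) {L : ℝ} (hL : (Fintype.card E : ℝ) * Real.exp (-L) < 1)
    (hR : 8 * L ≤ R) :
    ∃ σ : Fin R → Fin K → Bool, ∀ e,
      ∑ l ∈ S e, |u e l| ^ p ≤ 8 * ℓ * powDist p (hashLin p h σ (u e)) 0 := by
  classical
  have hp0 : 0 < p := by linarith
  set F : E → Fin B → (Fin K → Bool) → ℝ :=
    fun e b a => |∑ l ∈ univ.filter (fun l => h l = b), sgnB (a l) * u e l| ^ p with hF
  set m : E → Fin B → ℝ := fun e b =>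
    (∑ l ∈ (S e).filter (fun l => h l = b), |u e l| ^ p) / ℓ with hm
  have hF0 : ∀ e b a, 0 ≤ F e b a := fun e b a => Real.rpow_nonneg (abs_nonneg _) _
  have hm0 : ∀ e b, 0 ≤ m e b := fun e b =>
    div_nonneg (Finset.sum_nonneg fun l _ => Real.rpow_nonneg (abs_nonneg _) _) (Nat.cast_nonneg _)
  set w : (Fin K → Bool) → ℝ := fun _ => ((2:ℝ) ^ K)⁻¹ with hw
  have hw0 : ∀ a, 0 ≤ w a := fun a => by positivity
  have hw1 : ∑ a, w a = 1 := by simp [hw]
  set M : E → ℝ := fun e => ∑ b, m e b with hM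
  have hM0 : ∀ e, 0 ≤ M e := fun e => Finset.sum_nonneg fun b _ => hm0 e b
  set Z : E → (Fin K → Bool) → ℝ := fun e a => ∑ b, min (F e b a) (m e b) with hZ
  have hZ0 : ∀ e a, 0 ≤ Z e a := fun e a =>
    Finset.sum_nonneg fun b _ => le_min (hF0 e b a) (hm0 e b)
  have hZb : ∀ e a, Z e a ≤ M e := fun e a => Finset.sum_le_sum fun b _ => min_le_right _ _
  have hpair : ∀ e b, m e b / 2 ≤ ∑ a, w a * min (F e b a) (m e b) := by
    intro e b
    rcases ((S e).filter (fun l => h l = b)).eq_empty_or_nonempty with h0 | h0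
    · have : m e b = 0 := by simp [hm, h0]
      simp only [this, zero_div]
      exact Finset.sum_nonneg fun a _ => mul_nonneg (hw0 a) (le_min (hF0 e b a) le_rfl)
    obtain ⟨j, hj, hjmax⟩ := Finset.exists_max_image _ (fun l => |u e l| ^ p) h0
    have hmj : m e b ≤ |u e j| ^ p := by
      have hℓ : (0:ℝ) < ℓ := by
        exact_mod_cast lt_of_lt_of_le h0.card_pos (hload e b)
      simp only [hm]
      rw [div_le_iff₀ hℓ]
      calc ∑ l ∈ (S e).filter (fun l => h l = b), |u e l| ^ p
          ≤ ∑ _l ∈ (S e).filter (fun l => h l = b), |u e j| ^ p := Finset.sum_le_sum hjmax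
        _ ≤ |u e j| ^ p * ℓ := by
            rw [Finset.sum_const, nsmul_eq_mul, mul_comm]
            exact mul_le_mul_of_nonneg_left (by exact_mod_cast hload e b)
              (Real.rpow_nonneg (abs_nonneg _) _)
    have hjb : h j = b := (Finset.mem_filter.1 hj).2
    have hone : ∀ a, m e b ≤ min (F e b a) (m e b) + min (F e b (flipOthers j a)) (m e b) := by
      intro a
      have hv := signed_pair_ge (V := ℝ) (fun l => if h l = b then u e l else 0) j a
      simp only [smul_eq_mul, Real.norm_eq_abs, if_pos hjb, mul_ite, mul_zero,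
        ← Finset.sum_filter] at hv
      have n0 := le_min (hF0 e b a) (hm0 e b)
      have n1 := le_min (hF0 e b (flipOthers j a)) (hm0 e b)
      rcases hv with hv | hv
      · have : m e b ≤ F e b a := hmj.trans (Real.rpow_le_rpow (abs_nonneg _) hv hp0.le)
        rw [min_eq_right this]; linarith
      · have : m e b ≤ F e b (flipOthers j a) :=
          hmj.trans (Real.rpow_le_rpow (abs_nonneg _) hv hp0.le)
        rw [min_eq_right this]; linarith
    have h1 : ∑ a, w a * min (F e b (flipOthers j a)) (m e b) = ∑ a, w a * min (F e b a) (m e b) :=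
      Fintype.sum_bijective _ (flipOthers_bijective j) _ _ fun a => rfl
    have h2 : ∑ a, w a * m e b ≤ ∑ a, (w a * min (F e b a) (m e b)
        + w a * min (F e b (flipOthers j a)) (m e b)) :=
      Finset.sum_le_sum fun a _ => by
        rw [← mul_add]; exact mul_le_mul_of_nonneg_left (hone a) (hw0 a)
    rw [← Finset.sum_mul, hw1, one_mul, Finset.sum_add_distrib, h1] at h2
    linarith
  have hmean : ∀ e, M e / 2 ≤ ∑ a, w a * Z e a := by
    intro e
    simp only [hM, hZ, Finset.sum_div, Finset.mul_sum]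
    rw [Finset.sum_comm]
    exact Finset.sum_le_sum fun b _ => hpair e b
  obtain ⟨σ, hσ⟩ := exists_good (K := R) w hw0 hw1
    (fun e om => 0 < M e ∧ ∑ k, Z e (om k) < R * (M e / 2) / 2 - M e * L) (Real.exp (-L))
    (fun e => by
      by_cases hMe : 0 < M e
      · refine le_trans (le_of_eq (Finset.sum_congr ?_ fun _ _ => rfl))
          (chernoff (K := R) w hw0 hw1 (Z e) hMe (hZ0 e) (hZb e) (M e / 2) (M e) (hmean e) (by
            calc ∑ a, w a * Z e a ≤ ∑ a, w a * M e :=
                  Finset.sum_le_sum fun a _ => mul_le_mul_of_nonneg_left (hZb e a) (hw0 a)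
              _ = M e := by rw [← Finset.sum_mul, hw1, one_mul]) L).2
        ext om; simp [hMe]
      · refine le_trans (le_of_eq (Finset.sum_eq_zero ?_)) (Real.exp_pos _).le
        intro om hom
        simp [hMe] at hom) hL
  refine ⟨σ, fun e => ?_⟩
  have hsum : ∑ l ∈ S e, |u e l| ^ p ≤ ℓ * M e := by
    simp only [hM, hm, ← Finset.sum_div]
    rw [Finset.sum_fiberwise (S e) h (fun l => |u e l| ^ p)]
    rcases Nat.eq_zero_or_pos ℓ with h0 | h0
    · have : S e = ∅ := by
        rw [Finset.eq_empty_iff_forall_notMem]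
        intro l hl
        have := hload e (h l)
        rw [h0, Nat.le_zero, Finset.card_eq_zero, Finset.filter_eq_empty_iff] at this
        exact this hl rfl
      simp [h0, this]
    · rw [mul_div_cancel₀ _ (by exact_mod_cast h0.ne')]
  have hkey : M e ≤ 8 * powDist p (hashLin p h σ (u e)) 0 := by
    rcases (hM0 e).eq_or_lt with hMe | hMe
    · rw [← hMe]; exact mul_nonneg (by norm_num) (powDist_nonneg _ _ _)
    have h1 := hσ e
    simp only [hMe, true_and, not_lt] at h1
    have h2 : ∑ k, Z e (σ k) ≤ ∑ k, ∑ b, F e b (σ k) :=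
      Finset.sum_le_sum fun k _ => Finset.sum_le_sum fun b _ => min_le_left _ _
    have hRR : (0:ℝ) < R := by exact_mod_cast hR0
    have h4 : M e * L ≤ M e * (R / 8) := mul_le_mul_of_nonneg_left (by linarith) hMe.le
    have h5 : powDist p (hashLin p h σ (u e)) 0 * R = ∑ k, ∑ b, F e b (σ k) := by
      rw [powDist_hashLin_eq hp0]
      simp only [hF]
      field_simp
    nlinarith
  calc ∑ l ∈ S e, |u e l| ^ p ≤ ℓ * M e := hsum
    _ ≤ ℓ * (8 * powDist p (hashLin p h σ (u e)) 0) :=
        mul_le_mul_of_nonneg_left hkey (Nat.cast_nonneg _)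
    _ = _ := by ring

end Vale.Agent.P249
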