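import Mathlib
import Vale.Agent.P249.Glue
import Vale.Agent.P249.Sample
import Vale.Agent.P249.Hash
import Vale.Agent.P249.Reduce

/-! One magnitude level of the bounded-range embedding, for every exponent `p ≥ 1`. -/

namespace Vale.Agent.P249

open Finset

variable {n : ℕ}

lemma smoothAt_map {V W : Type*} [NormedAddCommGroup V] [NormedSpace ℝ V] [NormedAddCommGroup W]
    [NormedSpace ℝ W] (f : V →ₗ[ℝ] W) (t : Fin n → Fin n → ℝ) (S : ℕ) (k : ℤ) (G : Fin n → V)
    (x : Fin n) : smoothAt t S k (fun z => f (G z)) x = f (smoothAt t S k G x) := by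
  simp [smoothAt, avgF, map_smul, map_sum]

lemma smoothAt_sub {V : Type*} [NormedAddCommGroup V] [NormedSpace ℝ V]
    (t : Fin n → Fin n → ℝ) (S : ℕ) (k : ℤ) (G G' : Fin n → V) (x : Fin n) :
    smoothAt t S k (fun z => G z - G' z) x = smoothAt t S k G x - smoothAt t S k G' x := by
  simp [smoothAt, avgF, Finset.sum_sub_distrib, smul_sub]

/-- Signed hashing into a normed space. -/
noncomputable def hashV (p : ℝ) [Fact (1 ≤ ENNReal.ofReal p)] {K B R : ℕ} (h : Fin K → Fin B)
    (σ : Fin R → Fin K → Bool) :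
    (Fin K → ℝ) →ₗ[ℝ] PiLp (ENNReal.ofReal p) (fun _ : Fin R × Fin B => ℝ) :=
  (WithLp.linearEquiv (ENNReal.ofReal p) ℝ (Fin R × Fin B → ℝ)).symm.toLinearMap ∘ₗ hashLin p h σ

lemma norm_hashV {p : ℝ} (hp : 0 < p) [Fact (1 ≤ ENNReal.ofReal p)] {K B R : ℕ}
    (h : Fin K → Fin B) (σ : Fin R → Fin K → Bool) (u : Fin K → ℝ) :
    ‖hashV p h σ u‖ = powDist p (hashLin p h σ u) 0 ^ (1 / p) := by
  have hr : (ENNReal.ofReal p).toReal = p := ENNReal.toReal_ofReal hp.le
  rw [PiLp.norm_eq_sum (by rw [hr]; exact hp), hr]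
  simp [hashV, powDist, Real.norm_eq_abs]

lemma norm_hashV_le {p : ℝ} (hp : 1 ≤ p) [Fact (1 ≤ ENNReal.ofReal p)] {K B R ℓ : ℕ}
    (hℓ : 0 < ℓ) (hR : 0 < R) (h : Fin K → Fin B) (σ : Fin R → Fin K → Bool) (S : Finset (Fin K))
    (hload : ∀ b, (S.filter (fun l => h l = b)).card ≤ ℓ)
    (u : Fin K → ℝ) (hu : ∀ l ∉ S, u l = 0) :
    ‖hashV p h σ u‖ ≤ ℓ * (∑ l, |u l| ^ p) ^ (1 / p) := by
  have hp0 : 0 < p := by linarith
  have hℓ1 : (1:ℝ) ≤ ℓ := by exact_mod_cast hℓ
  have hs : 0 ≤ ∑ l, |u l| ^ p := Finset.sum_nonneg fun l _ => Real.rpow_nonneg (abs_nonneg _) _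
  rw [norm_hashV hp0]
  calc powDist p (hashLin p h σ u) 0 ^ (1 / p) ≤ ((ℓ:ℝ) ^ p * ∑ l, |u l| ^ p) ^ (1 / p) := by
        refine Real.rpow_le_rpow (powDist_nonneg _ _ _) ?_ (by positivity)
        refine (powDist_hashLin_le hp hR h σ S hload u hu).trans
          (mul_le_mul_of_nonneg_right ?_ hs)
        exact Real.rpow_le_rpow_of_exponent_le hℓ1 (by linarith)
    _ = _ := by
        rw [Real.mul_rpow (Real.rpow_nonneg (Nat.cast_nonneg _) _) hs,
          ← Real.rpow_mul (Nat.cast_nonneg _), mul_one_div_cancel hp0.ne', Real.rpow_one]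

lemma root_four_add_le {p T x r e : ℝ} (hp : 1 ≤ p) (hT : 0 ≤ T) (hx0 : 0 ≤ x) (hx : x ^ p = T)
    (hr : 0 ≤ r) (he : e ≤ r ^ p) {P : ℝ} (hP0 : 0 ≤ P) (hP : P ≤ 4 * T + e) :
    P ^ (1 / p) ≤ 4 * (x + r) := by
  have hp0 : 0 < p := by linarith
  have h1 := Real.add_rpow_le_rpow_add hx0 hr hp
  have h4 : (4:ℝ) ≤ 4 ^ p := Real.self_le_rpow_of_one_le (by norm_num) hp
  have hrp : 0 ≤ r ^ p := Real.rpow_nonneg hr _
  have h2 : P ≤ (4 * (x + r)) ^ p := by
    rw [Real.mul_rpow (by norm_num) (by linarith)]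
    nlinarith [mul_le_mul h4 h1 (by positivity) (by positivity)]
  calc P ^ (1 / p) ≤ ((4 * (x + r)) ^ p) ^ (1 / p) :=
        Real.rpow_le_rpow hP0 h2 (by positivity)
    _ = _ := by rw [← Real.rpow_mul (by linarith), mul_one_div_cancel hp0.ne', Real.rpow_one]

open Classical in
/-- The supported coordinates of a difference of two sampled vectors of nearby points. -/
noncomputable def nearSupp {K : ℕ} (t : Fin n → Fin n → ℝ) (Rm θ : ℝ) (u : Fin n → Fin K → ℝ)
    (a c : Fin n) : Finset (Fin K) :=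
  if t a c ≤ Rm then univ.filter (fun l => θ < |u a l - u c l|) else ∅

lemma sparse_card {p : ℝ} (hp : 0 < p) {K : ℕ} {θ : ℝ} (hθ : 0 ≤ θ) (v : Fin K → ℝ)
    (F : Finset (Fin K)) (hF : ∀ l ∈ F, θ ≤ |v l|) {T : ℝ} (hT : ∑ l, |v l| ^ p ≤ T) :
    (F.card : ℝ) * θ ^ p ≤ T := by
  calc (F.card : ℝ) * θ ^ p = ∑ _l ∈ F, θ ^ p := by simp
    _ ≤ ∑ l ∈ F, |v l| ^ p := Finset.sum_le_sum fun l hl => Real.rpow_le_rpow hθ (hF l hl) hp.le
    _ ≤ ∑ l, |v l| ^ p := Finset.sum_le_sum_of_subset_of_nonneg (Finset.subset_univ _)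
        fun l _ _ => Real.rpow_nonneg (abs_nonneg _) _
    _ ≤ T := hT

/-- Parameters of one level, with the hypotheses relating them. -/
structure LevelParams (p : ℝ) (n : ℕ) (U S s B R ℓ : ℕ) (k0 : ℤ) (r A W L ε : ℝ) : Prop where
  hU : 0 < U
  hS : 0 < S
  hB : 0 < B
  hR : 0 < R
  hℓ : 0 < ℓ
  hs : 1 ≤ s
  hr : 0 < r
  hA : 1 ≤ A
  hW : 1 ≤ W
  hε0 : 0 < ε
  hε1 : ε ≤ 1
  hrk : r ≤ (2:ℝ) ^ k0
  hAk : 384 * W * (A * r) * Real.log n ≤ (2:ℝ) ^ k0
  hAk' : 4 * (A * r) ≤ (2:ℝ) ^ k0
  hL : 0 < L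
  hfail : 2 * (n:ℝ) ^ 2 * Real.exp (-L) < 1
  hsize : 10 * L / ε * (64 * W * (16 * (2:ℝ) ^ (k0 + U)) / r) ^ p ≤ s
  hhash : 2 * (n:ℝ) ^ 4 * (2 * s : ℕ) ^ ℓ * B * ((B:ℝ)⁻¹) ^ ℓ < 1
  hsign : 8 * L ≤ R

/-- The embedding associated with one magnitude level `M`. -/
theorem exists_level {p : ℝ} (hp : 1 ≤ p) [Fact (1 ≤ ENNReal.ofReal p)] {N : ℕ} (hn : 2 ≤ n)
    (hN : 0 < N)
    (Y : Fin n → Fin N → ℝ) {t : Fin n → Fin n → ℝ} (ht : FMetric t)
    (htp : ∀ a b, t a b ^ p = powDist p (Y a) (Y b))
    {U S s B R ℓ : ℕ} {k0 : ℤ} {r A W L ε : ℝ} (P : LevelParams p n U S s B R ℓ k0 r A W L ε)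
    (hfine : ∀ x y, x ≠ y → (2:ℝ) ^ (k0 + U) / S ≤ t x y) {M : ℝ} (hM : 0 < M) :
    ∃ g : Fin n → PiLp (ENNReal.ofReal p) (fun _ : Fin R × Fin B => ℝ), ∀ a b,
      ‖g a - g b‖ ≤ ℓ * ((100 + 504 * Real.log n / U) * (t a b + r)) ∧
      ‖g a - g b‖ ≤ ℓ * (24 * (2:ℝ) ^ (k0 + U)) ∧
      (r ≤ t a b → t a b ≤ A * r →
        (∑ j ∈ univ.filter (fun j => M / W < |Y a j - Y b j| ∧ |Y a j - Y b j| ≤ M),
            |Y a j - Y b j| ^ p) / (2 * 8 ^ p) - ε * r ^ p
          ≤ 8 * ℓ * 4 ^ p * ‖g a - g b‖ ^ p) := by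
  classical
  have hp0 : 0 < p := by linarith
  have hn0 : (0:ℝ) < n := by exact_mod_cast (by omega : 0 < n)
  have hW0 : 0 < W := lt_of_lt_of_le one_pos P.hW
  have hrp : 0 < r ^ p := Real.rpow_pos_of_pos P.hr _
  have hNR : (0:ℝ) < N := by exact_mod_cast hN
  -- sampling
  set x0 : ℝ := 2 * N * (2 * M) ^ p * L / (ε * r ^ p) with hx0
  have hx0pos : 0 < x0 := by
    have := P.hL; have := P.hε0; positivity
  set K : ℕ := ⌈x0⌉₊ with hKdef
  have hK : 0 < K := Nat.ceil_pos.2 hx0pos
  have hKR : (0:ℝ) < K := by exact_mod_cast hK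
  have hε0 := P.hε0
  obtain ⟨J, hJ⟩ := exists_sample (η := M / W) hp0 hN Y hM (by positivity) hK
    (e := ε * r ^ p) (L := L) (by
      have h := Nat.le_ceil x0
      rw [← hKdef] at h
      rw [hx0, div_le_iff₀ (by positivity)] at h
      linarith) P.hfail
  set u : Fin n → Fin K → ℝ := fun a => sampVec p M J (Y a) with hu
  set lam : ℝ := (2 * N / K : ℝ) ^ (1 / p) with hlam
  have hlam0 : 0 < lam := by positivity
  set θ : ℝ := lam * (M / W / 32) with hθdef
  have hθ : 0 < θ := by positivity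
  set Rm : ℝ := 16 * (2:ℝ) ^ (k0 + U) with hRm
  have hk2 : ∀ v : ℕ, v ≤ U → (2:ℝ) ^ (k0 + v) ≤ (2:ℝ) ^ (k0 + U) := fun v hv =>
    zpow_le_zpow_right₀ (by norm_num) (by have : (v:ℤ) ≤ U := by exact_mod_cast hv
                                          linarith)
  have hk0pos : (0:ℝ) < (2:ℝ) ^ k0 := zpow_pos (by norm_num) _
  have hrk : ∀ v : ℕ, r ≤ (2:ℝ) ^ (k0 + v) := fun v =>
    P.hrk.trans (zpow_le_zpow_right₀ (by norm_num) (by simp))
  have hrRm : r ≤ Rm := by
    have := hrk U; have : (0:ℝ) < (2:ℝ) ^ (k0 + U) := zpow_pos (by norm_num) _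
    linarith
  have hupow : ∀ a c, powDist p (u a) (u c) ≤ 4 * powDist p (Y a) (Y c) + ε * r ^ p := fun a c =>
    (hJ a c).1
  have hunorm : ∀ a c, powDist p (u a) (u c) ^ (1 / p) ≤ 4 * (t a c + r) := fun a c =>
    root_four_add_le hp (powDist_nonneg _ _ _) (ht.nonneg a c) (htp a c) P.hr.le
      (mul_le_of_le_one_left hrp.le P.hε1) (powDist_nonneg _ _ _) (hupow a c)
  -- sparsity of differences of nearby points
  have hcard : ∀ a c, t a c ≤ Rm → ∀ F : Finset (Fin K),
      (∀ l ∈ F, θ ≤ |u a l - u c l|) → F.card ≤ s := by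
    intro a c hac F hF
    rcases le_or_gt x0 1 with hx | hx
    · have : K ≤ 1 := Nat.ceil_le.2 (by simpa using hx)
      exact (Finset.card_le_univ F).trans (by simp only [Fintype.card_fin]; exact this.trans P.hs)
    · have hK2 : (K:ℝ) ≤ 2 * x0 := by
        have := Nat.ceil_lt_add_one hx0pos.le
        rw [← hKdef] at this; linarith
      have hT : ∑ l, |u a l - u c l| ^ p ≤ 5 * Rm ^ p := by
        refine (hupow a c).trans ?_
        rw [← htp]
        have h1 := Real.rpow_le_rpow (ht.nonneg a c) hac hp0.le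
        have h2 : ε * r ^ p ≤ Rm ^ p :=
          (mul_le_of_le_one_left hrp.le P.hε1).trans (Real.rpow_le_rpow P.hr.le hrRm hp0.le)
        linarith
      have hc := sparse_card hp0 hθ.le (fun l => u a l - u c l) F hF hT
      have hθp : θ ^ p = (2 * N / K : ℝ) * (M / (32 * W)) ^ p := by
        rw [hθdef, hlam, Real.mul_rpow (by positivity) (by positivity),
          ← Real.rpow_mul (by positivity), one_div_mul_cancel hp0.ne', Real.rpow_one, div_div,
          mul_comm W]
      have hlow : ε * r ^ p / (2 * L * (64 * W) ^ p) ≤ θ ^ p := by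
        rw [hθp]
        calc ε * r ^ p / (2 * L * (64 * W) ^ p)
            = (2 * N / (2 * x0)) * (M / (32 * W)) ^ p := by
              rw [hx0, Real.div_rpow hM.le (by positivity), Real.mul_rpow (by norm_num) hM.le,
                show (64:ℝ) * W = 2 * (32 * W) by ring,
                Real.mul_rpow (by norm_num : (0:ℝ) ≤ 2) (by positivity : (0:ℝ) ≤ 32 * W)]
              have := P.hL
              field_simp
          _ ≤ _ := by gcongr
      have h3 : (F.card : ℝ) * (ε * r ^ p / (2 * L * (64 * W) ^ p)) ≤ 5 * Rm ^ p :=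
        (mul_le_mul_of_nonneg_left hlow (Nat.cast_nonneg _)).trans hc
      have hsz := P.hsize
      rw [← hRm, Real.div_rpow (by positivity) P.hr.le,
        Real.mul_rpow (by positivity : (0:ℝ) ≤ 64 * W) (by positivity : (0:ℝ) ≤ Rm)] at hsz
      have hL0 := P.hL
      rw [mul_div_assoc', div_le_iff₀ (by positivity)] at h3
      have : (F.card : ℝ) ≤ (s : ℝ) := by
        refine le_trans ?_ hsz
        rw [div_mul_div_comm, le_div_iff₀ (by positivity)]
        linarith
      exact_mod_cast this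
  set big : Fin n → Fin n → Finset (Fin K) := fun a b =>
    if t a b ≤ Rm then univ.filter (fun l => lam * (M / W / 8) ≤ |u a l - u b l|) else ∅ with hbig
  set fam : (Fin n × Fin n) × (Fin n × Fin n) ⊕ (Fin n × Fin n) → Finset (Fin K) := fun e =>
    match e with
    | Sum.inl q => nearSupp t Rm θ u q.1.1 q.1.2 ∪ nearSupp t Rm θ u q.2.1 q.2.2
    | Sum.inr q => big q.1 q.2
  have hnear : ∀ a c, (nearSupp t Rm θ u a c).card ≤ s := by
    intro a c
    unfold nearSupp
    split_ifs with h
    · exact hcard a c h _ fun l hl => (Finset.mem_filter.1 hl).2.le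
    · simp
  have hfam : ∀ e, (fam e).card ≤ 2 * s := by
    rintro (⟨q1, q2⟩ | q)
    · simp only [fam]
      refine (Finset.card_union_le _ _).trans ?_
      have := hnear q1.1 q1.2
      have := hnear q2.1 q2.2
      omega
    · simp only [fam, hbig]
      split_ifs with h
      · refine (hcard q.1 q.2 h _ fun l hl => le_trans ?_ (Finset.mem_filter.1 hl).2).trans (by omega)
        rw [hθdef]
        refine mul_le_mul_of_nonneg_left ?_ hlam0.le
        have : 0 ≤ M / W := by positivity
        linarith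
      · simp
  obtain ⟨h, hload⟩ := exists_hash (B := B) P.hB fam hfam (by
    refine lt_of_le_of_lt ?_ P.hhash
    have hc : (Fintype.card ((Fin n × Fin n) × (Fin n × Fin n) ⊕ (Fin n × Fin n)) : ℝ)
        ≤ 2 * (n:ℝ) ^ 4 := by
      simp only [Fintype.card_sum, Fintype.card_prod, Fintype.card_fin]
      push_cast
      have : (1:ℝ) ≤ n := by exact_mod_cast (by omega : 1 ≤ n)
      nlinarith [one_le_pow₀ (n := 2) this]
    gcongr)
  -- averaged dead zone
  set D : Fin n → Fin n → Fin K → ℝ := fun a c l => dzone θ (u a l - u c l) with hD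
  set y : Fin n → Fin K → ℝ := fun a =>
    (U:ℝ)⁻¹ • ∑ v ∈ range U, smoothAt t S (k0 + v) (fun c => D a c) a with hy
  obtain ⟨σ, hσ⟩ := exists_hash_signs hp h (fun q : Fin n × Fin n => y q.1 - y q.2)
    (fun q => big q.1 q.2) (fun q b => hload (Sum.inr q) b) P.hR (L := L) (by
      have := P.hfail
      simp only [Fintype.card_prod, Fintype.card_fin]
      push_cast
      nlinarith [mul_nonneg (sq_nonneg (n:ℝ)) (Real.exp_pos (-L)).le]) P.hsign
  set H := hashV p h σ with hH
  have hUR : (0:ℝ) < U := by exact_mod_cast P.hU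
  have hℓR : (0:ℝ) ≤ ℓ := Nat.cast_nonneg _
  have hHy : ∀ a, H (y a) = (U:ℝ)⁻¹ • ∑ v ∈ range U, smoothAt t S (k0 + v) (fun c => H (D a c)) a := by
    intro a
    simp [hy, map_smul, map_sum, smoothAt_map H]
  refine ⟨fun a => H (y a), fun a b => ⟨?_, ?_, ?_⟩⟩
  all_goals beta_reduce
  rotate_left 1
  · -- boundedness
    have hone : ∀ x, ‖H (y x)‖ ≤ ℓ * (12 * (2:ℝ) ^ (k0 + U)) := by
      intro x
      rw [hHy, norm_smul, Real.norm_eq_abs, abs_of_pos (inv_pos.2 hUR), inv_mul_le_iff₀ hUR]
      refine (norm_sum_le _ _).trans ((Finset.sum_le_sum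
        (g := fun _ => (ℓ:ℝ) * (12 * (2:ℝ) ^ (k0 + U))) fun v hv => ?_).trans (le_of_eq (by simp)))
      have hvU := hk2 v (Finset.mem_range.1 hv).le
      rw [← sub_zero (smoothAt t S (k0 + v) _ x)]
      refine smoothAt_near ht P.hS _ _ x _ fun c hc => ?_
      rw [sub_zero]
      have h2 : (0:ℝ) < (2:ℝ) ^ (k0 + U) := zpow_pos (by norm_num) _
      have hcR : t x c ≤ Rm := by linarith
      refine (norm_hashV_le hp P.hℓ P.hR h σ (nearSupp t Rm θ u x c ∪ nearSupp t Rm θ u x c)
        (hload (Sum.inl ((x, c), (x, c)))) _ fun l hl => ?_).trans ?_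
      · refine dzone_eq_zero ?_
        simpa [nearSupp, hcR] using hl
      · refine mul_le_mul_of_nonneg_left (le_trans (Real.rpow_le_rpow
          (Finset.sum_nonneg fun l _ => Real.rpow_nonneg (abs_nonneg _) _)
          (Finset.sum_le_sum fun l _ => Real.rpow_le_rpow (abs_nonneg _) (abs_dzone_le hθ.le _)
            hp0.le) (by positivity)) ((hunorm x c).trans ?_)) hℓR
        linarith [hrk U]
    calc ‖H (y a) - H (y b)‖ ≤ ‖H (y a)‖ + ‖H (y b)‖ := norm_sub_le _ _
      _ ≤ _ := by linarith [hone a, hone b]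
  · -- lower bound
    intro hrt htA
    have htk : 4 * t a b ≤ (2:ℝ) ^ k0 := by linarith [P.hAk']
    have hab : t a b ≤ Rm := by
      have := hk2 0 (Nat.zero_le _); rw [Nat.cast_zero, add_zero] at this
      linarith [ht.nonneg a b]
    have hne : a ≠ b := by rintro rfl; rw [ht.self] at hrt; linarith [P.hr]
    have hcoord : ∀ l, |(y a l - y b l) - (u a l - u b l)| ≤ 3 * θ := by
      intro l
      have hproj : ∀ x, y x l = (U:ℝ)⁻¹ • ∑ v ∈ range U, smoothAt t S (k0 + v) (fun c => D x c l) x := by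
        intro x
        have e := fun v => smoothAt_map (n := n) (LinearMap.proj (R := ℝ) (φ := fun _ : Fin K => ℝ) l)
          t S (k0 + (v:ℕ)) (fun c => D x c) x
        simp only [LinearMap.coe_proj, Function.eval] at e
        simp [hy, e, Finset.sum_apply]
      have hkey : ∀ v ∈ range U, |(smoothAt t S (k0 + v) (fun c => D a c l) a
          - smoothAt t S (k0 + v) (fun c => D b c l) b) - (u a l - u b l)| ≤ 3 * θ := by
        intro v hv
        have hkv : (2:ℝ) ^ k0 ≤ (2:ℝ) ^ (k0 + v) := zpow_le_zpow_right₀ (by norm_num) (by simp)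
        have e1 : |smoothAt t S (k0 + v) (fun c => D a c l - D b c l) a - (u a l - u b l)| ≤ 2 * θ := by
          have := smoothAt_near ht P.hS (k0 + v) (fun c => D a c l - D b c l) a (u a l - u b l)
            (δ := 2 * θ) fun c _ => by
              simp only [Real.norm_eq_abs, hD]
              have := abs_dzone_diff θ (u a l - u c l) (u b l - u c l) hθ.le
              rwa [show u a l - u c l - (u b l - u c l) = u a l - u b l by ring] at this
          simpa [Real.norm_eq_abs] using this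
        have hfv : (2:ℝ) ^ (k0 + v) / S ≤ t a b := le_trans (div_le_div_of_nonneg_right
          (hk2 v (Finset.mem_range.1 hv).le) (Nat.cast_nonneg _)) (hfine a b hne)
        have e2 := smoothAt_gradient ht P.hS (k0 + v) a b (by linarith [ht.nonneg a b]) hfv
          (fun c => D b c l) (δ := lam * (2 * M)) (by positivity) fun z z' _ _ => by
            simp only [Real.norm_eq_abs, hD]
            refine (abs_dzone_sub_le _ _ _).trans ?_
            rw [show u b l - u z l - (u b l - u z' l) = u z' l - u z l by ring]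
            exact sampVec_diff_le hM J _ _ l
        rw [Real.norm_eq_abs] at e2
        have e3 : 6 * (lam * (2 * M)) * (t a b / (2:ℝ) ^ (k0 + v)) *
            (logBall t a ((2:ℝ) ^ (k0 + v + 2)) - logBall t a ((2:ℝ) ^ (k0 + v - 1))) ≤ θ := by
          have hl2 : logBall t a ((2:ℝ) ^ (k0 + v + 2)) - logBall t a ((2:ℝ) ^ (k0 + v - 1))
              ≤ Real.log n := by
            linarith [logBall_le t a ((2:ℝ) ^ (k0 + v + 2)), logBall_nonneg t a ((2:ℝ) ^ (k0 + v - 1))]
          have hr' : t a b / (2:ℝ) ^ (k0 + v) ≤ A * r / (2:ℝ) ^ k0 :=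
            div_le_div₀ (by linarith [ht.nonneg a b]) htA hk0pos hkv
          have hAr : 0 ≤ A * r := by linarith [ht.nonneg a b]
          refine (mul_le_mul_of_nonneg_left hl2
            (mul_nonneg (by positivity) (div_nonneg (ht.nonneg a b) (by positivity)))).trans ?_
          refine (mul_le_mul_of_nonneg_right (mul_le_mul_of_nonneg_left hr' (by positivity))
            (Real.log_natCast_nonneg n)).trans ?_
          rw [hθdef]
          calc 6 * (lam * (2 * M)) * (A * r / (2:ℝ) ^ k0) * Real.log n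
              = lam * (M / W / 32) * ((384 * W * (A * r) * Real.log n) / (2:ℝ) ^ k0) := by
                field_simp; ring
            _ ≤ lam * (M / W / 32) * 1 :=
                mul_le_mul_of_nonneg_left ((div_le_one hk0pos).2 P.hAk) (by positivity)
            _ = _ := mul_one _
        have e4 : smoothAt t S (k0 + v) (fun c => D a c l) a - smoothAt t S (k0 + v) (fun c => D b c l) b
            - (u a l - u b l)
            = (smoothAt t S (k0 + v) (fun c => D a c l - D b c l) a - (u a l - u b l))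
              + (smoothAt t S (k0 + v) (fun c => D b c l) a - smoothAt t S (k0 + v) (fun c => D b c l) b) := by
          rw [smoothAt_sub]; ring
        rw [e4]
        linarith [abs_add_le (smoothAt t S (k0 + v) (fun c => D a c l - D b c l) a - (u a l - u b l))
          (smoothAt t S (k0 + v) (fun c => D b c l) a - smoothAt t S (k0 + v) (fun c => D b c l) b),
          e2.trans e3]
      have e5 : (y a l - y b l) - (u a l - u b l) = (U:ℝ)⁻¹ * ∑ v ∈ range U,
          ((smoothAt t S (k0 + v) (fun c => D a c l) a - smoothAt t S (k0 + v) (fun c => D b c l) b)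
            - (u a l - u b l)) := by
        rw [hproj, hproj]
        simp [Finset.sum_sub_distrib, smul_eq_mul]
        field_simp
      rw [e5, abs_mul, abs_of_pos (inv_pos.2 hUR), inv_mul_le_iff₀ hUR]
      exact ((Finset.abs_sum_le_sum_abs _ _).trans (Finset.sum_le_sum hkey)).trans (le_of_eq (by simp))
    refine (hJ a b).2.trans ?_
    have hb2 : big a b = univ.filter (fun l => lam * (M / W / 8) ≤ |u a l - u b l|) := by
      simp [hbig, hab]
    change ∑ l ∈ univ.filter (fun l => lam * (M / W / 8) ≤ |u a l - u b l|), |u a l - u b l| ^ p ≤ _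
    rw [← hb2]
    calc ∑ l ∈ big a b, |u a l - u b l| ^ p
        ≤ ∑ l ∈ big a b, 4 ^ p * |y a l - y b l| ^ p := by
          refine Finset.sum_le_sum fun l hl => ?_
          rw [hb2] at hl
          have h1 := (Finset.mem_filter.1 hl).2
          have h2 := hcoord l
          have h3 : lam * (M / W / 8) = 4 * θ := by rw [hθdef]; ring
          have h4 := abs_sub_abs_le_abs_sub (u a l - u b l) (y a l - y b l)
          rw [abs_sub_comm (u a l - u b l)] at h4
          rw [← Real.mul_rpow (by norm_num) (abs_nonneg _)]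
          exact Real.rpow_le_rpow (abs_nonneg _) (by linarith) hp0.le
      _ = 4 ^ p * ∑ l ∈ big a b, |y a l - y b l| ^ p := by rw [Finset.mul_sum]
      _ ≤ 4 ^ p * (8 * ℓ * powDist p (hashLin p h σ (y a - y b)) 0) :=
          mul_le_mul_of_nonneg_left (by simpa using hσ (a, b)) (by positivity)
      _ = _ := by
          rw [← map_sub, hH, norm_hashV hp0, ← Real.rpow_mul (powDist_nonneg _ _ _),
            one_div_mul_cancel hp0.ne', Real.rpow_one]
          ring
  · -- upper bound
    rcases eq_or_ne a b with rfl | hne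
    · simp only [sub_self, norm_zero, ht.self]
      have : 0 ≤ Real.log n := Real.log_natCast_nonneg n
      have := P.hr
      positivity
    set τ := t a b with hτ
    have hτ0 : 0 ≤ τ := ht.nonneg a b
    set LB : ℕ → ℝ := fun v => logBall t a ((2:ℝ) ^ (k0 + v - 1)) with hLB
    have hterm : ∀ v ∈ range U, ‖smoothAt t S (k0 + v) (fun c => H (D a c)) a
        - smoothAt t S (k0 + v) (fun c => H (D b c)) b‖
        ≤ ℓ * (100 * (τ + r)) + 168 * ℓ * τ * (LB (v + 3) - LB v) := by
      intro v hv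
      set k := k0 + (v:ℤ) with hk
      have hkpos : (0:ℝ) < (2:ℝ) ^ k := zpow_pos (by norm_num) _
      have hvU := hk2 v (Finset.mem_range.1 hv).le
      rw [← hk] at hvU
      have hLnn : 0 ≤ LB (v + 3) - LB v :=
        sub_nonneg.2 (logBall_mono t a (zpow_le_zpow_right₀ (by norm_num) (by push_cast; linarith)))
      have hrv : r ≤ (2:ℝ) ^ k := hrk v
      have hnz : ∀ x c, t x c ≤ Rm → ∀ l, l ∉ nearSupp t Rm θ u x c → D x c l = 0 := by
        intro x c hxc l hl
        refine dzone_eq_zero ?_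
        simpa [nearSupp, hxc] using hl
      have hnrm : ∀ x c x' c', t x c ≤ Rm → t x' c' ≤ Rm → ∀ w : Fin K → ℝ,
          (∀ l, |D x c l - D x' c' l| ≤ |w l|) →
          ‖H (D x c) - H (D x' c')‖ ≤ ℓ * (∑ l, |w l| ^ p) ^ (1 / p) := by
        intro x c x' c' h1 h2 w hw
        rw [← map_sub]
        refine (norm_hashV_le hp P.hℓ P.hR h σ
          (nearSupp t Rm θ u x c ∪ nearSupp t Rm θ u x' c')
          (hload (Sum.inl ((x, c), (x', c')))) _ fun l hl => ?_).trans
          (mul_le_mul_of_nonneg_left (Real.rpow_le_rpow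
            (Finset.sum_nonneg fun l _ => Real.rpow_nonneg (abs_nonneg _) _)
            (Finset.sum_le_sum fun l _ => Real.rpow_le_rpow (abs_nonneg _) (hw l) hp0.le)
            (by positivity)) hℓR)
        simp only [Finset.mem_union, not_or] at hl
        simp [hnz x c h1 l hl.1, hnz x' c' h2 l hl.2]
      by_cases h4 : 4 * τ ≤ (2:ℝ) ^ k
      · have e1 : ‖smoothAt t S k (fun c => H (D a c) - H (D b c)) a‖ ≤ ℓ * (4 * (τ + r)) := by
          rw [← sub_zero (smoothAt t S k _ a)]
          refine smoothAt_near ht P.hS _ _ a _ fun c hc => ?_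
          rw [sub_zero]
          refine (hnrm a c b c (by linarith) (by linarith [ht.tri b a c, ht.symm a b])
            (fun l => u a l - u b l) fun l => ?_).trans (mul_le_mul_of_nonneg_left (hunorm a b) hℓR)
          refine (abs_dzone_sub_le _ _ _).trans (le_of_eq ?_)
          congr 1; ring
        have e2 := smoothAt_gradient ht P.hS k a b (by linarith)
          (le_trans (div_le_div_of_nonneg_right hvU (Nat.cast_nonneg _)) (hfine a b hne))
          (fun c => H (D b c)) (δ := ℓ * (28 * (2:ℝ) ^ k)) (by positivity) fun z z' hz hz' => by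
            refine (hnrm b z b z' (by linarith [ht.tri b a z, ht.symm a b])
              (by linarith [ht.tri b a z', ht.symm a b]) (fun l => u z' l - u z l) fun l => ?_).trans
              (mul_le_mul_of_nonneg_left ((hunorm z' z).trans ?_) hℓR)
            · refine (abs_dzone_sub_le _ _ _).trans (le_of_eq ?_)
              congr 1; ring
            · linarith [ht.tri z' a z, ht.symm z' a]
        have e3 : 6 * ((ℓ:ℝ) * (28 * (2:ℝ) ^ k)) * (τ / (2:ℝ) ^ k) *
            (logBall t a ((2:ℝ) ^ (k + 2)) - logBall t a ((2:ℝ) ^ (k - 1)))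
            = 168 * ℓ * τ * (LB (v + 3) - LB v) := by
          simp only [hLB, hk]
          rw [show k0 + ((v + 3 : ℕ) : ℤ) - 1 = k0 + (v:ℤ) + 2 by push_cast; ring]
          field_simp; ring
        rw [e3] at e2
        have e4 : smoothAt t S k (fun c => H (D a c)) a - smoothAt t S k (fun c => H (D b c)) b
            = smoothAt t S k (fun c => H (D a c) - H (D b c)) a
              + (smoothAt t S k (fun c => H (D b c)) a - smoothAt t S k (fun c => H (D b c)) b) := by
          rw [smoothAt_sub]; abel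
        rw [e4]
        refine (norm_add_le _ _).trans (add_le_add (e1.trans ?_) e2)
        exact mul_le_mul_of_nonneg_left (by linarith [P.hr]) hℓR
      · push Not at h4
        have hone : ∀ x, ‖smoothAt t S k (fun c => H (D x c)) x‖ ≤ ℓ * (12 * (2:ℝ) ^ k) := by
          intro x
          rw [← sub_zero (smoothAt t S k _ x)]
          refine smoothAt_near ht P.hS _ _ x _ fun c hc => ?_
          have hxc : t x c ≤ Rm := by linarith
          have hxx : t x x ≤ Rm := by rw [ht.self]; linarith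
          have hzero : D x x = 0 := by
            funext l; simpa [hD] using dzone_eq_zero (θ := θ) (s := 0) (by simpa using hθ.le)
          have := hnrm x c x x hxc hxx (fun l => u x l - u c l) fun l => by
            rw [congrFun hzero l]
            simpa [hD] using abs_dzone_le hθ.le (u x l - u c l)
          rw [hzero, map_zero] at this
          refine this.trans (mul_le_mul_of_nonneg_left ((hunorm x c).trans ?_) hℓR)
          linarith
        refine le_add_of_le_of_nonneg ?_ (mul_nonneg (by positivity) hLnn)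
        calc _ ≤ _ + _ := norm_sub_le _ _
          _ ≤ ℓ * (12 * (2:ℝ) ^ k) + ℓ * (12 * (2:ℝ) ^ k) := add_le_add (hone a) (hone b)
          _ ≤ _ := by
              rw [← mul_add]
              exact mul_le_mul_of_nonneg_left (by linarith [P.hr]) hℓR
    rw [hHy, hHy, ← smul_sub, ← Finset.sum_sub_distrib, norm_smul, Real.norm_eq_abs,
      abs_of_pos (inv_pos.2 hUR), inv_mul_le_iff₀ hUR]
    refine ((norm_sum_le _ _).trans (Finset.sum_le_sum hterm)).trans ?_
    rw [Finset.sum_add_distrib, Finset.sum_const, Finset.card_range, nsmul_eq_mul, ← Finset.mul_sum]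
    have h5 := sum_shift_three LB U 0 (Real.log n) (fun j => logBall_nonneg _ _ _)
      (fun j => logBall_le _ _ _)
    have hlogn : 0 ≤ Real.log n := Real.log_natCast_nonneg n
    have h6 : 168 * (ℓ:ℝ) * τ * ∑ v ∈ range U, (LB (v + 3) - LB v)
        ≤ ℓ * (504 * Real.log n * (τ + r)) := by
      refine (mul_le_mul_of_nonneg_left h5 (by positivity)).trans ?_
      have := mul_nonneg (mul_nonneg hℓR hlogn) P.hr.le
      linarith
    have h7 : (U:ℝ) * (ℓ * ((100 + 504 * Real.log n / U) * (τ + r)))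
        = U * (ℓ * (100 * (τ + r))) + ℓ * (504 * Real.log n * (τ + r)) := by
      field_simp
    rw [h7]
    linarith

end Vale.Agent.P249
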