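import Mathlib
import Vale.Agent.P249.Khintchine

/-! Increments of Euclidean-Lipschitz functions along random sign vectors. -/

namespace Vale.Agent.P249

open Finset MeasureTheory Filter Topology

/-- Euclidean distance on functions. -/
noncomputable def edist2 {m : ℕ} (x y : Fin m → ℝ) : ℝ := Real.sqrt (∑ i, (x i - y i) ^ 2)

lemma edist2_nonneg {m : ℕ} (x y : Fin m → ℝ) : 0 ≤ edist2 x y := Real.sqrt_nonneg _

lemma edist2_le_norm {m : ℕ} (x y : Fin m → ℝ) :
    edist2 x y ≤ Real.sqrt m * ‖x - y‖ := by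
  rw [edist2, show Real.sqrt m * ‖x - y‖ = Real.sqrt ((m:ℝ) * ‖x - y‖ ^ 2) by
    rw [Real.sqrt_mul (Nat.cast_nonneg m), Real.sqrt_sq (norm_nonneg _)]]
  apply Real.sqrt_le_sqrt
  calc ∑ i, (x i - y i) ^ 2 ≤ ∑ _i : Fin m, ‖x - y‖ ^ 2 := by
        apply Finset.sum_le_sum
        intro i _
        have h := norm_le_pi_norm (x - y) i
        rw [Pi.sub_apply, Real.norm_eq_abs] at h
        rw [← sq_abs]
        exact pow_le_pow_left₀ (abs_nonneg _) h 2
    _ = (m:ℝ) * ‖x - y‖ ^ 2 := by simp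

variable {m : ℕ} {g : (Fin m → ℝ) → ℝ} {D : ℝ}

lemma lipschitz_of_edist2 (hD : 0 ≤ D) (hg : ∀ x y, |g x - g y| ≤ D * edist2 x y) :
    LipschitzWith (Real.toNNReal (D * Real.sqrt m)) g := by
  refine LipschitzWith.of_dist_le_mul fun x y => ?_
  rw [Real.dist_eq, Real.coe_toNNReal _ (by positivity), dist_eq_norm, mul_assoc]
  exact (hg x y).trans (mul_le_mul_of_nonneg_left (edist2_le_norm x y) hD)

lemma tendsto_scaled_diff {x : Fin m → ℝ} (hd : DifferentiableAt ℝ g x) (v : Fin m → ℝ) :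
    Tendsto (fun K : ℕ => (K:ℝ) * (g (x + (K:ℝ)⁻¹ • v) - g x)) atTop (𝓝 (fderiv ℝ g x v)) := by
  have h := hd.hasFDerivAt.lim (α := ℕ) (v := v) (c := fun K : ℕ => (K:ℝ)) (l := atTop)
    (by simpa using tendsto_natCast_atTop_atTop (R := ℝ))
  simpa [smul_eq_mul] using h

lemma fderiv_abs_le (hD : 0 ≤ D) (hg : ∀ x y, |g x - g y| ≤ D * edist2 x y) (x : Fin m → ℝ)
    (hd : DifferentiableAt ℝ g x) (v : Fin m → ℝ) :
    |fderiv ℝ g x v| ≤ D * Real.sqrt (∑ i, v i ^ 2) := by
  refine le_of_tendsto' (tendsto_scaled_diff hd v).abs fun K => ?_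
  rw [abs_mul, Nat.abs_cast]
  calc (K:ℝ) * |g (x + (K:ℝ)⁻¹ • v) - g x|
      ≤ (K:ℝ) * (D * edist2 (x + (K:ℝ)⁻¹ • v) x) :=
        mul_le_mul_of_nonneg_left (hg _ _) (Nat.cast_nonneg K)
    _ ≤ D * Real.sqrt (∑ i, v i ^ 2) := by
        have h1 : edist2 (x + (K:ℝ)⁻¹ • v) x = (K:ℝ)⁻¹ * Real.sqrt (∑ i, v i ^ 2) := by
          rw [edist2, ← Real.sqrt_sq (show (0:ℝ) ≤ (K:ℝ)⁻¹ by positivity),
            ← Real.sqrt_mul (sq_nonneg _), Real.sqrt_sq (show (0:ℝ) ≤ (K:ℝ)⁻¹ by positivity),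
            Finset.mul_sum]
          congr 1
          exact Finset.sum_congr rfl fun i _ => by simp [mul_pow]
        rw [h1]
        rcases Nat.eq_zero_or_pos K with rfl | hK
        · simp; positivity
        · have : (K:ℝ) ≠ 0 := by positivity
          field_simp
          exact le_rfl

/-- The sign vector. -/
noncomputable def sgnV {m : ℕ} (e : Fin m → Bool) : Fin m → ℝ := fun i => sgnB (e i)

lemma norm_sgnV_le (e : Fin m → Bool) : ‖sgnV e‖ ≤ 1 :=
  (pi_norm_le_iff_of_nonneg zero_le_one).2 fun i => by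
    simp [sgnV, Real.norm_eq_abs, abs_sgnB]

lemma sum_fderiv_rpow_le {p : ℝ} (hp : 0 < p) (hD : 0 ≤ D)
    (hg : ∀ x y, |g x - g y| ≤ D * edist2 x y) (x : Fin m → ℝ) (hd : DifferentiableAt ℝ g x) :
    ∑ e : Fin m → Bool, |fderiv ℝ g x (sgnV e)| ^ p ≤ 2 ^ m * momentConst p * D ^ p := by
  set L := fderiv ℝ g x with hL
  set a : Fin m → ℝ := fun i => L (Pi.single i 1) with ha
  have hv : ∀ v : Fin m → ℝ, L v = ∑ i, v i * a i := by
    intro v
    conv_lhs => rw [pi_eq_sum_univ' v]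
    simp [map_sum, ha]
  have hb : Real.sqrt (∑ i, a i ^ 2) ≤ D := by
    have h := fderiv_abs_le hD hg x hd a
    rw [← hL, hv, abs_of_nonneg (Finset.sum_nonneg fun i _ => mul_self_nonneg _)] at h
    simp only [← sq] at h
    rcases (Real.sqrt_nonneg (∑ i, a i ^ 2)).eq_or_lt with h0 | h0
    · rw [← h0]; exact hD
    · refine le_of_mul_le_mul_right ?_ h0
      rw [Real.mul_self_sqrt (Finset.sum_nonneg fun i _ => sq_nonneg _)]
      exact h
  simp only [hv, sgnV]
  refine (sum_abs_rpow_le m a p hp).trans ?_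
  exact mul_le_mul_of_nonneg_left (Real.rpow_le_rpow (Real.sqrt_nonneg _) hb hp.le)
    (mul_nonneg (by positivity) (zero_le_one.trans (one_le_momentConst p)))

/-- The cube `[0,m]^m`. -/
def boxQ (m : ℕ) : Set (Fin m → ℝ) := Set.Icc 0 (fun _ => (m:ℝ))

/-- The cube `[-1,m+1]^m`. -/
def boxQ' (m : ℕ) : Set (Fin m → ℝ) := Set.Icc (fun _ => (-1:ℝ)) (fun _ => (m:ℝ) + 1)

lemma translate_mem {x v : Fin m → ℝ} (hx : x ∈ boxQ m) (hv : ‖v‖ ≤ 1) :
    x + v ∈ boxQ' m := by
  refine ⟨fun i => ?_, fun i => ?_⟩ <;>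
  · have h1 : 0 ≤ x i := hx.1 i
    have h2 : x i ≤ (m:ℝ) := hx.2 i
    have h3 := (norm_le_pi_norm v i).trans hv
    rw [Real.norm_eq_abs, abs_le] at h3
    simp only [Pi.add_apply]
    linarith

lemma setIntegral_diff_le {p : ℝ} (hp : 1 ≤ p) (hc : Continuous g) (v : Fin m → ℝ)
    (hv : ‖v‖ ≤ 1) (K : ℕ) (hK : 0 < K) :
    ∫ x in boxQ m, |g (x + v) - g x| ^ p
      ≤ ∫ x in boxQ' m, |(K:ℝ) * (g (x + (K:ℝ)⁻¹ • v) - g x)| ^ p := by
  set h : (Fin m → ℝ) → ℝ := fun x => |g (x + (K:ℝ)⁻¹ • v) - g x| ^ p with hh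
  have hp0 : 0 ≤ p := by linarith
  have hKR : (0:ℝ) < K := by exact_mod_cast hK
  have hcont : Continuous h := (((hc.comp (continuous_add_const _)).sub hc).abs).rpow_const
    fun _ => Or.inr hp0
  have hshift : ∀ k ∈ Finset.range K,
      ∫ x in boxQ m, h (x + ((k:ℝ) * (K:ℝ)⁻¹) • v) ≤ ∫ x in boxQ' m, h x := by
    intro k hk
    set u := ((k:ℝ) * (K:ℝ)⁻¹) • v
    have hu : ‖u‖ ≤ 1 := by
      rw [norm_smul]
      refine mul_le_one₀ ?_ (norm_nonneg _) hv
      rw [Real.norm_eq_abs, abs_of_nonneg (by positivity), mul_inv_le_iff₀ hKR, one_mul]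
      exact_mod_cast (Finset.mem_range.1 hk).le
    rw [← (measurePreserving_add_right volume u).setIntegral_image_emb
      (measurableEmbedding_addRight u) h (boxQ m)]
    refine setIntegral_mono_set (hcont.continuousOn.integrableOn_compact isCompact_Icc)
      (Eventually.of_forall fun x => Real.rpow_nonneg (abs_nonneg _) _) ?_
    refine HasSubset.Subset.eventuallyLE ?_
    rintro _ ⟨x, hx, rfl⟩
    exact translate_mem hx hu
  have hpt : ∀ x, |g (x + v) - g x| ^ p
      ≤ (K:ℝ) ^ (p - 1) * ∑ k ∈ Finset.range K, h (x + ((k:ℝ) * (K:ℝ)⁻¹) • v) := by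
    intro x
    have hsum : g (x + v) - g x = ∑ k ∈ Finset.range K,
        (g (x + ((k:ℝ) * (K:ℝ)⁻¹) • v + (K:ℝ)⁻¹ • v) - g (x + ((k:ℝ) * (K:ℝ)⁻¹) • v)) := by
      have := Finset.sum_range_sub (fun k => g (x + ((k:ℝ) * (K:ℝ)⁻¹) • v)) K
      simp only [Nat.cast_zero, zero_mul, zero_smul, add_zero, mul_inv_cancel₀ hKR.ne',
        one_smul] at this
      rw [← this]
      refine Finset.sum_congr rfl fun k _ => ?_
      rw [add_assoc x, ← add_smul]
      push_cast
      rw [add_one_mul]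
    rw [hsum]
    refine (Real.rpow_le_rpow (abs_nonneg _) (Finset.abs_sum_le_sum_abs _ _) hp0).trans ?_
    have h2 := Real.rpow_sum_le_const_mul_sum_rpow (Finset.range K)
      (fun k : ℕ => g (x + ((k:ℝ) * (K:ℝ)⁻¹) • v + (K:ℝ)⁻¹ • v) - g (x + ((k:ℝ) * (K:ℝ)⁻¹) • v))
      hp
    rw [Finset.card_range] at h2
    exact h2
  have hci : ∀ k : ℕ, IntegrableOn (fun x => h (x + ((k:ℝ) * (K:ℝ)⁻¹) • v)) (boxQ m) :=
    fun k => (hcont.comp (continuous_add_const _)).continuousOn.integrableOn_compact isCompact_Icc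
  calc ∫ x in boxQ m, |g (x + v) - g x| ^ p
      ≤ ∫ x in boxQ m, (K:ℝ) ^ (p - 1) *
          ∑ k ∈ Finset.range K, h (x + ((k:ℝ) * (K:ℝ)⁻¹) • v) := by
        refine setIntegral_mono_on ?_ ?_ measurableSet_Icc fun x _ => hpt x
        · exact ((((hc.comp (continuous_add_const _)).sub hc).abs).rpow_const
            fun _ => Or.inr hp0).continuousOn.integrableOn_compact isCompact_Icc
        · exact (integrable_finsetSum _ fun k _ => hci k).const_mul _
    _ = (K:ℝ) ^ (p - 1) * ∑ k ∈ Finset.range K,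
          ∫ x in boxQ m, h (x + ((k:ℝ) * (K:ℝ)⁻¹) • v) := by
        rw [integral_const_mul, integral_finsetSum _ fun k _ => hci k]
    _ ≤ (K:ℝ) ^ (p - 1) * ∑ _k ∈ Finset.range K, ∫ x in boxQ' m, h x :=
        mul_le_mul_of_nonneg_left (Finset.sum_le_sum hshift) (Real.rpow_nonneg hKR.le _)
    _ = (K:ℝ) ^ p * ∫ x in boxQ' m, h x := by
        rw [Finset.sum_const, Finset.card_range, nsmul_eq_mul, ← mul_assoc,
          ← Real.rpow_add_one hKR.ne', sub_add_cancel]
    _ = _ := by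
        rw [← integral_const_mul]
        refine setIntegral_congr_fun measurableSet_Icc fun x _ => ?_
        simp only [hh]
        rw [abs_mul, Nat.abs_cast, Real.mul_rpow hKR.le (abs_nonneg _)]

/-- Translation-averaged increments are bounded by averaged gradients. -/
lemma setIntegral_diff_le_fderiv {p : ℝ} (hp : 1 ≤ p) (hD : 0 ≤ D)
    (hg : ∀ x y, |g x - g y| ≤ D * edist2 x y) (v : Fin m → ℝ) (hv : ‖v‖ ≤ 1) :
    IntegrableOn (fun x => |fderiv ℝ g x v| ^ p) (boxQ' m) ∧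
    ∫ x in boxQ m, |g (x + v) - g x| ^ p ≤ ∫ x in boxQ' m, |fderiv ℝ g x v| ^ p := by
  have hp0 : 0 ≤ p := by linarith
  have hL := lipschitz_of_edist2 hD hg
  have hc := hL.continuous
  set M : ℝ := (D * Real.sqrt m) ^ p
  have hfin : volume (boxQ' m) < ⊤ := isCompact_Icc.measure_lt_top
  have hbound : ∀ (K : ℕ) (x : Fin m → ℝ),
      |(K:ℝ) * (g (x + (K:ℝ)⁻¹ • v) - g x)| ^ p ≤ M := by
    intro K x
    refine Real.rpow_le_rpow (abs_nonneg _) ?_ hp0
    rw [abs_mul, Nat.abs_cast]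
    rcases Nat.eq_zero_or_pos K with rfl | hK
    · simp; positivity
    have h := hL.dist_le_mul (x + (K:ℝ)⁻¹ • v) x
    rw [Real.dist_eq, dist_eq_norm, add_sub_cancel_left, norm_smul, norm_inv,
      Real.norm_natCast, Real.coe_toNNReal _ (by positivity)] at h
    calc (K:ℝ) * |g (x + (K:ℝ)⁻¹ • v) - g x|
        ≤ (K:ℝ) * (D * Real.sqrt m * ((K:ℝ)⁻¹ * 1)) := by
          refine mul_le_mul_of_nonneg_left (h.trans ?_) (Nat.cast_nonneg K)
          gcongr
      _ = D * Real.sqrt m := by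
          have : (K:ℝ) ≠ 0 := by positivity
          field_simp
  have hint : IntegrableOn (fun x => |fderiv ℝ g x v| ^ p) (boxQ' m) := by
    refine IntegrableOn.of_bound hfin
      ((((measurable_fderiv_apply_const ℝ g v).abs).pow_const p).aestronglyMeasurable) M
      ?_
    refine ae_restrict_of_ae ?_
    filter_upwards [hL.ae_differentiableAt] with x hx
    rw [Real.norm_eq_abs, abs_of_nonneg (Real.rpow_nonneg (abs_nonneg _) _)]
    refine le_of_tendsto' ((tendsto_scaled_diff hx v).abs.rpow_const (Or.inr hp0)) ?_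
    exact fun K => hbound K x
  refine ⟨hint, ?_⟩
  have hlim : Tendsto (fun K : ℕ => ∫ x in boxQ' m, |(K:ℝ) * (g (x + (K:ℝ)⁻¹ • v) - g x)| ^ p)
      atTop (𝓝 (∫ x in boxQ' m, |fderiv ℝ g x v| ^ p)) := by
    refine tendsto_integral_of_dominated_convergence (fun _ => M) ?_ ?_ ?_ ?_
    · intro K
      exact (((continuous_const.mul ((hc.comp (continuous_add_const _)).sub hc)).abs).rpow_const
        fun _ => Or.inr hp0).aestronglyMeasurable
    · exact integrableOn_const hfin.ne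
    · intro K
      refine Eventually.of_forall fun x => ?_
      rw [Real.norm_eq_abs, abs_of_nonneg (Real.rpow_nonneg (abs_nonneg _) _)]
      exact hbound K x
    · refine ae_restrict_of_ae ?_
      filter_upwards [hL.ae_differentiableAt] with x hx
      exact (tendsto_scaled_diff hx v).abs.rpow_const (Or.inr hp0)
  refine ge_of_tendsto hlim ?_
  filter_upwards [eventually_gt_atTop 0] with K hK
  exact setIntegral_diff_le hp hc v hv K hK

lemma volume_boxQ (m : ℕ) : volume.real (boxQ m) = (m:ℝ) ^ m := by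
  simp [boxQ, measureReal_def, Real.volume_Icc_pi, ENNReal.toReal_prod]

lemma volume_boxQ'_le (m : ℕ) : volume.real (boxQ' m) ≤ Real.exp 2 * (m:ℝ) ^ m := by
  have hv : volume.real (boxQ' m) = ((m:ℝ) + 2) ^ m := by
    simp only [boxQ', measureReal_def, Real.volume_Icc_pi, ENNReal.toReal_prod]
    rw [Finset.prod_congr rfl fun i _ => ENNReal.toReal_ofReal (show (0:ℝ) ≤ (m:ℝ) + 1 - -1 by linarith [Nat.cast_nonneg (α := ℝ) m])]
    simp; ring
  rw [hv]
  rcases Nat.eq_zero_or_pos m with rfl | hm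
  · simp [Real.one_le_exp]
  · have hm' : (0:ℝ) < m := by exact_mod_cast hm
    have h : (1 + 2 / (m:ℝ)) ^ m ≤ Real.exp 2 := by
      calc (1 + 2 / (m:ℝ)) ^ m ≤ (Real.exp (2 / m)) ^ m :=
            pow_le_pow_left₀ (by positivity) (by linarith [Real.add_one_le_exp (2 / (m:ℝ))]) m
        _ = Real.exp 2 := by rw [← Real.exp_nat_mul]; congr 1; field_simp
    calc ((m:ℝ) + 2) ^ m = (1 + 2 / (m:ℝ)) ^ m * (m:ℝ) ^ m := by
          rw [← mul_pow]; congr 1; field_simp
      _ ≤ _ := mul_le_mul_of_nonneg_right h (by positivity)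

/-- A Lipschitz function changes by a bounded amount, on average, along random sign vectors. -/
theorem average_increment_le {p : ℝ} (hp : 1 ≤ p) (hD : 0 ≤ D)
    (hg : ∀ x y, |g x - g y| ≤ D * edist2 x y) :
    ∑ e : Fin m → Bool, ∫ x in boxQ m, |g (x + sgnV e) - g x| ^ p
      ≤ 2 ^ m * momentConst p * D ^ p * (Real.exp 2 * (m:ℝ) ^ m) := by
  have hp0 : 0 < p := by linarith
  have hL := lipschitz_of_edist2 hD hg
  have hfin : volume (boxQ' m) < ⊤ := isCompact_Icc.measure_lt_top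
  calc ∑ e : Fin m → Bool, ∫ x in boxQ m, |g (x + sgnV e) - g x| ^ p
      ≤ ∑ e : Fin m → Bool, ∫ x in boxQ' m, |fderiv ℝ g x (sgnV e)| ^ p :=
        Finset.sum_le_sum fun e _ =>
          (setIntegral_diff_le_fderiv hp hD hg _ (norm_sgnV_le e)).2
    _ = ∫ x in boxQ' m, ∑ e : Fin m → Bool, |fderiv ℝ g x (sgnV e)| ^ p :=
        (integral_finsetSum _ fun e _ =>
          (setIntegral_diff_le_fderiv hp hD hg _ (norm_sgnV_le e)).1).symm
    _ ≤ ∫ _x in boxQ' m, 2 ^ m * momentConst p * D ^ p := by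
        refine setIntegral_mono_ae (integrable_finsetSum _ fun e _ =>
          (setIntegral_diff_le_fderiv hp hD hg _ (norm_sgnV_le e)).1)
          (integrableOn_const hfin.ne) ?_
        filter_upwards [hL.ae_differentiableAt] with x hx
        exact sum_fderiv_rpow_le hp0 hD hg x hx
    _ = volume.real (boxQ' m) * (2 ^ m * momentConst p * D ^ p) := by simp
    _ ≤ (Real.exp 2 * (m:ℝ) ^ m) * (2 ^ m * momentConst p * D ^ p) :=
        mul_le_mul_of_nonneg_right (volume_boxQ'_le m)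
          (mul_nonneg (mul_nonneg (by positivity) (zero_le_one.trans (one_le_momentConst p)))
            (Real.rpow_nonneg hD _))
    _ = _ := by ring

end Vale.Agent.P249
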