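import Mathlib
import Vale.Agent.P249.Khintchine
import Vale.Agent.P249.Poincare

/-! A fine Euclidean lattice needs many coordinates in `ℓ_p`. -/

namespace Vale.Agent.P249

open Finset MeasureTheory

/-- The `ℓ_p` distance on functions. -/
noncomputable def lpDist {ι : Type*} [Fintype ι] (p : ℝ) (u v : ι → ℝ) : ℝ :=
  (∑ k, |u k - v k| ^ p) ^ (1 / p)

lemma lpDist_nonneg {ι : Type*} [Fintype ι] (p : ℝ) (u v : ι → ℝ) : 0 ≤ lpDist p u v :=
  Real.rpow_nonneg (Finset.sum_nonneg fun _ _ => Real.rpow_nonneg (abs_nonneg _) _) _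

lemma abs_le_lpDist {ι : Type*} [Fintype ι] {p : ℝ} (hp : 0 < p) (u v : ι → ℝ) (k : ι) :
    |u k - v k| ≤ lpDist p u v := by
  have h : |u k - v k| ^ p ≤ ∑ j, |u j - v j| ^ p :=
    Finset.single_le_sum (f := fun j => |u j - v j| ^ p)
      (fun j _ => Real.rpow_nonneg (abs_nonneg _) _) (Finset.mem_univ k)
  have h2 := Real.rpow_le_rpow (Real.rpow_nonneg (abs_nonneg _) _) h
    (show 0 ≤ 1 / p by positivity)
  rwa [← Real.rpow_mul (abs_nonneg _), mul_one_div_cancel hp.ne', Real.rpow_one] at h2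

lemma edist2_eq_dist {m : ℕ} (x y : Fin m → ℝ) :
    edist2 x y = dist (WithLp.toLp 2 x : EuclideanSpace ℝ (Fin m)) (WithLp.toLp 2 y) := by
  simp [edist2, EuclideanSpace.dist_eq, Real.dist_eq, sq_abs]

lemma edist2_triangle {m : ℕ} (x y z : Fin m → ℝ) : edist2 x z ≤ edist2 x y + edist2 y z := by
  simp only [edist2_eq_dist]; exact dist_triangle _ _ _

lemma edist2_comm {m : ℕ} (x y : Fin m → ℝ) : edist2 x y = edist2 y x := by
  simp only [edist2_eq_dist]; exact dist_comm _ _

lemma edist2_self {m : ℕ} (x : Fin m → ℝ) : edist2 x x = 0 := by simp [edist2]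

/-- McShane extension from finitely many points. -/
lemma exists_extension_edist2 {ι : Type*} [Fintype ι] [Nonempty ι] {m : ℕ} (P : ι → Fin m → ℝ)
    (F : ι → ℝ) {D : ℝ} (hD : 0 ≤ D) (hF : ∀ a b, |F a - F b| ≤ D * edist2 (P a) (P b)) :
    ∃ g : (Fin m → ℝ) → ℝ, (∀ x y, |g x - g y| ≤ D * edist2 x y) ∧ ∀ a, g (P a) = F a := by
  set g : (Fin m → ℝ) → ℝ := fun x =>
    Finset.univ.inf' Finset.univ_nonempty (fun a => F a + D * edist2 x (P a)) with hg
  have hmono : ∀ x y, g x ≤ g y + D * edist2 x y := by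
    intro x y
    obtain ⟨a, -, ha⟩ := Finset.exists_mem_eq_inf' Finset.univ_nonempty
      (fun a => F a + D * edist2 y (P a))
    have h1 : g x ≤ F a + D * edist2 x (P a) := Finset.inf'_le _ (Finset.mem_univ a)
    have h2 : g y = F a + D * edist2 y (P a) := ha
    nlinarith [edist2_triangle x y (P a)]
  refine ⟨g, fun x y => ?_, fun a => le_antisymm ?_ ?_⟩
  · rw [abs_sub_le_iff]
    constructor
    · linarith [hmono x y]
    · have h := hmono y x; rw [edist2_comm y x] at h; linarith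
  · calc g (P a) ≤ F a + D * edist2 (P a) (P a) := Finset.inf'_le _ (Finset.mem_univ a)
      _ = F a := by rw [edist2_self, mul_zero, add_zero]
  · refine Finset.le_inf' _ _ fun b _ => ?_
    have := (abs_le.1 (hF a b)).2
    linarith

/-- Number of steps per unit length. -/
noncomputable def latQ (m : ℕ) : ℕ := ⌈Real.sqrt m⌉₊

/-- Number of steps per side. -/
noncomputable def latM (m : ℕ) : ℕ := (m + 3) * latQ m

/-- The lattice points. -/
noncomputable def latPt (m : ℕ) (a : Fin m → Fin (latM m + 1)) : Fin m → ℝ :=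
  fun i => -1 + ((a i : ℕ) : ℝ) / (latQ m : ℝ)

lemma latQ_pos {m : ℕ} (hm : 0 < m) : 0 < latQ m :=
  Nat.ceil_pos.2 (Real.sqrt_pos.2 (by exact_mod_cast hm))

lemma latPt_injective {m : ℕ} (hm : 0 < m) : Function.Injective (latPt m) := by
  intro a b h
  funext i
  have hi := congrFun h i
  have hq : (latQ m : ℝ) ≠ 0 := by exact_mod_cast (latQ_pos hm).ne'
  simp only [latPt, add_right_inj, div_left_inj' hq, Nat.cast_inj] at hi
  exact Fin.ext hi

lemma exists_near {m : ℕ} (hm : 0 < m) {y : Fin m → ℝ} (hy : y ∈ boxQ' m) :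
    ∃ a, edist2 y (latPt m a) ≤ 1 := by
  have hq : (0:ℝ) < latQ m := by exact_mod_cast latQ_pos hm
  have hk : ∀ i, ⌊(y i + 1) * (latQ m : ℝ)⌋₊ < latM m + 1 := by
    intro i
    apply Nat.lt_succ_of_le
    apply Nat.floor_le_of_le
    rw [latM]; push_cast
    refine mul_le_mul_of_nonneg_right ?_ hq.le
    have : y i ≤ (m:ℝ) + 1 := hy.2 i
    linarith
  refine ⟨fun i => ⟨⌊(y i + 1) * (latQ m : ℝ)⌋₊, hk i⟩, ?_⟩
  rw [edist2, Real.sqrt_le_one]
  calc ∑ i, _ ≤ ∑ _i : Fin m, (1:ℝ) / m := by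
        refine Finset.sum_le_sum fun i _ => ?_
        have h0 : 0 ≤ (y i + 1) * (latQ m : ℝ) := by
          have : -1 ≤ y i := hy.1 i
          exact mul_nonneg (by linarith) hq.le
        have h1 := Nat.floor_le h0
        have h2 := Nat.lt_floor_add_one ((y i + 1) * (latQ m : ℝ))
        have hq2 : (m:ℝ) ≤ (latQ m : ℝ) ^ 2 := by
          have := Nat.le_ceil (Real.sqrt m)
          calc (m:ℝ) = Real.sqrt m ^ 2 := (Real.sq_sqrt (Nat.cast_nonneg m)).symm
            _ ≤ _ := pow_le_pow_left₀ (Real.sqrt_nonneg _) this 2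
        have he : y i - latPt m (fun i => ⟨⌊(y i + 1) * (latQ m : ℝ)⌋₊, hk i⟩) i
            = ((y i + 1) * (latQ m : ℝ) - ⌊(y i + 1) * (latQ m : ℝ)⌋₊) / latQ m := by
          simp only [latPt]; field_simp; ring
        rw [he, div_pow]
        refine div_le_div₀ zero_le_one ?_ (by exact_mod_cast hm) hq2
        exact pow_le_one₀ (by linarith) (by linarith)
    _ = 1 := by simp; field_simp

/-- The dimension bound for the lattice. -/
theorem lattice_dimension {p : ℝ} (hp : 1 ≤ p) {m : ℕ} (hm : 64 ≤ m) {D : ℝ} (hD : 1 ≤ D)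
    {d : ℕ} (f : (Fin m → Fin (latM m + 1)) → Fin d → ℝ)
    (hlow : ∀ a b, edist2 (latPt m a) (latPt m b) ≤ lpDist p (f a) (f b))
    (hup : ∀ a b, lpDist p (f a) (f b) ≤ D * edist2 (latPt m a) (latPt m b)) :
    Real.sqrt m ^ p ≤ (8:ℝ) ^ p * momentConst p * Real.exp 2 * D ^ p * d := by
  have hp0 : 0 < p := by linarith
  have hm0 : 0 < m := by omega
  have hD0 : 0 < D := by linarith
  have hC := one_le_momentConst p
  have h8 : Real.sqrt m ≥ 8 := by
    rw [ge_iff_le, Real.le_sqrt (by norm_num) (Nat.cast_nonneg m)]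
    have : (64:ℝ) ≤ (m:ℝ) := by exact_mod_cast hm
    linarith
  have hone : (1:ℝ) ≤ momentConst p * Real.exp 2 :=
    one_le_mul_of_one_le_of_one_le hC (Real.one_le_exp (by norm_num))
  rcases le_or_gt (Real.sqrt m) (8 * D * (d:ℝ) ^ (1 / p)) with hcase | hcase
  · calc Real.sqrt m ^ p ≤ (8 * D * (d:ℝ) ^ (1 / p)) ^ p :=
          Real.rpow_le_rpow (Real.sqrt_nonneg _) hcase hp0.le
      _ = (8:ℝ) ^ p * D ^ p * d := by
          rw [Real.mul_rpow (by positivity) (by positivity), Real.mul_rpow (by norm_num) hD0.le,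
            ← Real.rpow_mul (Nat.cast_nonneg d), one_div_mul_cancel hp0.ne', Real.rpow_one]
      _ = (8:ℝ) ^ p * 1 * D ^ p * d := by ring
      _ ≤ (8:ℝ) ^ p * (momentConst p * Real.exp 2) * D ^ p * d := by gcongr
      _ = _ := by ring
  have hext : ∀ k : Fin d, ∃ g : (Fin m → ℝ) → ℝ,
      (∀ x y, |g x - g y| ≤ D * edist2 x y) ∧ ∀ a, g (latPt m a) = f a k := fun k =>
    exists_extension_edist2 (latPt m) (fun a => f a k) hD0.le fun a b =>
      (abs_le_lpDist hp0 _ _ k).trans (hup a b)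
  choose g hgl hgf using hext
  have hpt : ∀ (e : Fin m → Bool), ∀ x ∈ boxQ m,
      (Real.sqrt m / 2) ^ p ≤ ∑ k, |g k (x + sgnV e) - g k x| ^ p := by
    intro e x hx
    have hx' : x ∈ boxQ' m := by
      simpa using translate_mem hx (show ‖(0 : Fin m → ℝ)‖ ≤ 1 by simp)
    obtain ⟨a, ha⟩ := exists_near hm0 hx'
    obtain ⟨b, hb⟩ := exists_near hm0 (translate_mem hx (norm_sgnV_le e))
    have hxy : edist2 (x + sgnV e) x = Real.sqrt m := by
      simp [edist2, sgnV, ← sq_abs, abs_sgnB]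
    have h1 : Real.sqrt m - 2 ≤ edist2 (latPt m b) (latPt m a) := by
      have t1 := edist2_triangle (x + sgnV e) (latPt m b) x
      have t2 := edist2_triangle (latPt m b) (latPt m a) x
      rw [edist2_comm (latPt m a) x] at t2
      linarith
    set u : Fin d → ℝ := fun k => g k (x + sgnV e) - g k x with hu
    set w : Fin d → ℝ := fun k => (f b k - f a k) - u k with hw
    have hwb : ∀ k, |w k| ≤ 2 * D := by
      intro k
      have e1 := hgl k (latPt m b) (x + sgnV e)
      have e2 := hgl k x (latPt m a)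
      rw [hgf, edist2_comm] at e1
      rw [hgf] at e2
      have e3 : D * edist2 (x + sgnV e) (latPt m b) ≤ D * 1 := mul_le_mul_of_nonneg_left hb hD0.le
      have e4 : D * edist2 x (latPt m a) ≤ D * 1 := mul_le_mul_of_nonneg_left ha hD0.le
      have : w k = (f b k - g k (x + sgnV e)) + (g k x - f a k) := by simp [hw, hu]; ring
      rw [this]
      linarith [abs_add_le (f b k - g k (x + sgnV e)) (g k x - f a k)]
    have hW : (∑ k, |w k| ^ p) ^ (1 / p) ≤ Real.sqrt m / 4 := by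
      calc (∑ k, |w k| ^ p) ^ (1 / p) ≤ ((d:ℝ) * (2 * D) ^ p) ^ (1 / p) := by
            refine Real.rpow_le_rpow
              (Finset.sum_nonneg fun k _ => Real.rpow_nonneg (abs_nonneg _) _) ?_ (by positivity)
            calc ∑ k, |w k| ^ p ≤ ∑ _k : Fin d, (2 * D) ^ p :=
                  Finset.sum_le_sum fun k _ => Real.rpow_le_rpow (abs_nonneg _) (hwb k) hp0.le
              _ = (d:ℝ) * (2 * D) ^ p := by simp
        _ = (d:ℝ) ^ (1 / p) * (2 * D) := by
            rw [Real.mul_rpow (Nat.cast_nonneg d) (by positivity),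
              ← Real.rpow_mul (by positivity : (0:ℝ) ≤ 2 * D), mul_one_div_cancel hp0.ne',
              Real.rpow_one]
        _ ≤ _ := by nlinarith [hcase.le]
    have h2 : lpDist p (f b) (f a)
        ≤ (∑ k, |u k| ^ p) ^ (1 / p) + (∑ k, |w k| ^ p) ^ (1 / p) := by
      have := Real.Lp_add_le Finset.univ u w hp
      refine le_trans (le_of_eq ?_) this
      simp [lpDist, hw]
    have h3 : Real.sqrt m / 2 ≤ (∑ k, |u k| ^ p) ^ (1 / p) := by
      linarith [hlow b a, h1, h2, hW]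
    have h4 := Real.rpow_le_rpow (by positivity) h3 hp0.le
    rwa [← Real.rpow_mul (Finset.sum_nonneg fun k _ => Real.rpow_nonneg (abs_nonneg _) _),
      one_div_mul_cancel hp0.ne', Real.rpow_one] at h4
  have hInt : ∀ (e : Fin m → Bool) (k : Fin d),
      IntegrableOn (fun x => |g k (x + sgnV e) - g k x| ^ p) (boxQ m) := fun e k =>
    (((((lipschitz_of_edist2 hD0.le (hgl k)).continuous).comp (continuous_add_const _)).sub
      (lipschitz_of_edist2 hD0.le (hgl k)).continuous).abs.rpow_const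
        fun _ => Or.inr hp0.le).continuousOn.integrableOn_compact isCompact_Icc
  have hA : ∀ e : Fin m → Bool,
      (m:ℝ) ^ m * (Real.sqrt m / 2) ^ p
        ≤ ∑ k, ∫ x in boxQ m, |g k (x + sgnV e) - g k x| ^ p := by
    intro e
    rw [← integral_finsetSum _ fun k _ => hInt e k]
    calc (m:ℝ) ^ m * (Real.sqrt m / 2) ^ p = ∫ _x in boxQ m, (Real.sqrt m / 2) ^ p := by
          simp [volume_boxQ]
      _ ≤ _ := setIntegral_mono_on (integrableOn_const isCompact_Icc.measure_lt_top.ne)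
          (integrable_finsetSum _ fun k _ => hInt e k) measurableSet_Icc (hpt e)
  have hB : (2:ℝ) ^ m * ((m:ℝ) ^ m * (Real.sqrt m / 2) ^ p)
      ≤ d * (2 ^ m * momentConst p * D ^ p * (Real.exp 2 * (m:ℝ) ^ m)) := by
    calc (2:ℝ) ^ m * ((m:ℝ) ^ m * (Real.sqrt m / 2) ^ p)
        = ∑ _e : Fin m → Bool, (m:ℝ) ^ m * (Real.sqrt m / 2) ^ p := by simp
      _ ≤ ∑ e : Fin m → Bool, ∑ k, ∫ x in boxQ m, |g k (x + sgnV e) - g k x| ^ p :=
          Finset.sum_le_sum fun e _ => hA e
      _ = ∑ k, ∑ e : Fin m → Bool, ∫ x in boxQ m, |g k (x + sgnV e) - g k x| ^ p :=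
          Finset.sum_comm
      _ ≤ ∑ _k : Fin d, 2 ^ m * momentConst p * D ^ p * (Real.exp 2 * (m:ℝ) ^ m) :=
          Finset.sum_le_sum fun k _ => average_increment_le hp hD0.le (hgl k)
      _ = _ := by simp
  have hmm : (0:ℝ) < 2 ^ m * (m:ℝ) ^ m := by positivity
  have hC0 : (Real.sqrt m / 2) ^ p ≤ momentConst p * Real.exp 2 * D ^ p * d := by
    refine le_of_mul_le_mul_left ?_ hmm
    linarith
  rw [Real.div_rpow (Real.sqrt_nonneg _) (by norm_num), div_le_iff₀ (by positivity)] at hC0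
  have h28 : (2:ℝ) ^ p ≤ 8 ^ p := Real.rpow_le_rpow (by norm_num) (by norm_num) hp0.le
  calc Real.sqrt m ^ p ≤ momentConst p * Real.exp 2 * D ^ p * d * 2 ^ p := hC0
    _ ≤ momentConst p * Real.exp 2 * D ^ p * d * 8 ^ p := by gcongr
    _ = _ := by ring

end Vale.Agent.P249
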