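import Mathlib
import Vale.Agent.P249.Level
import Vale.Agent.P249.Combine

/-! The bounded-range embedding for every exponent `p ≥ 1`. -/

namespace Vale.Agent.P249

open Finset

lemma sum_rpow_le_rpow_sum {ι : Type*} (s : Finset ι) (a : ι → ℝ) (ha : ∀ i ∈ s, 0 ≤ a i) {p : ℝ}
    (hp : 1 ≤ p) : ∑ i ∈ s, a i ^ p ≤ (∑ i ∈ s, a i) ^ p := by
  classical
  induction s using Finset.induction_on with
  | empty => simp [Real.zero_rpow (show p ≠ 0 by linarith)]
  | insert x s hx ih =>
    have h1 : ∀ i ∈ s, 0 ≤ a i := fun i hi => ha i (Finset.mem_insert_of_mem hi)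
    rw [Finset.sum_insert hx, Finset.sum_insert hx]
    exact (add_le_add le_rfl (ih h1)).trans
      (Real.add_rpow_le_rpow_add (ha x (Finset.mem_insert_self x s)) (Finset.sum_nonneg h1) hp)

lemma sum_magnitude_levels {N I : ℕ} {p A0 W : ℝ} (hp : 1 ≤ p) (hW : 1 ≤ W) (hA : 0 < A0)
    (v : Fin N → ℝ) (hv : ∀ j, |v j| ≤ A0) :
    ∑ j, |v j| ^ p ≤
      ∑ i ∈ range I, ∑ j ∈ univ.filter (fun j => A0 / W ^ i / W < |v j| ∧ |v j| ≤ A0 / W ^ i),
        |v j| ^ p + N * (A0 / W ^ I) ^ p := by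
  classical
  have hW0 : 0 < W := by linarith
  have hnn : ∀ j, 0 ≤ |v j| ^ p := fun j => Real.rpow_nonneg (abs_nonneg _) _
  simp only [Finset.sum_filter]
  rw [Finset.sum_comm]
  calc ∑ j, |v j| ^ p ≤ ∑ j, ((∑ i ∈ range I,
        (if A0 / W ^ i / W < |v j| ∧ |v j| ≤ A0 / W ^ i then |v j| ^ p else 0))
        + (A0 / W ^ I) ^ p) := by
        refine Finset.sum_le_sum fun j _ => ?_
        have hsum0 : ∀ i, 0 ≤
            (if A0 / W ^ i / W < |v j| ∧ |v j| ≤ A0 / W ^ i then |v j| ^ p else 0) := by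
          intro i; split_ifs
          · exact hnn j
          · exact le_rfl
        rcases le_or_gt (|v j|) (A0 / W ^ I) with h | h
        · linarith [Finset.sum_nonneg (s := range I) fun i _ => hsum0 i,
            Real.rpow_le_rpow (abs_nonneg _) h (by linarith : 0 ≤ p)]
        · have hex : ∃ i, A0 / W ^ i < |v j| := ⟨I, h⟩
          have h0 : Nat.find hex ≠ 0 := by
            intro h0
            have := Nat.find_spec hex
            rw [h0, pow_zero, div_one] at this
            linarith [hv j]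
          obtain ⟨i, hi⟩ := Nat.exists_eq_succ_of_ne_zero h0
          have h1 := Nat.find_spec hex
          have h2 := Nat.find_min hex (m := i) (by omega)
          have h3 : Nat.find hex ≤ I := Nat.find_min' hex h
          rw [hi, pow_succ, ← div_div] at h1
          push Not at h2
          refine le_add_of_le_of_nonneg ?_ (Real.rpow_nonneg (by positivity) _)
          refine le_trans ?_ (Finset.single_le_sum (fun i _ => hsum0 i)
            (Finset.mem_range.2 (by omega : i < I)))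
          rw [if_pos ⟨h1, h2⟩]
    _ = _ := by rw [Finset.sum_add_distrib]; simp

/-- Gluing the levels of one window. -/
theorem exists_window_any {p : ℝ} (hp : 1 ≤ p) [Fact (1 ≤ ENNReal.ofReal p)] {n N : ℕ} (hn : 2 ≤ n)
    (hN : 0 < N)
    (Y : Fin n → Fin N → ℝ) {t : Fin n → Fin n → ℝ} (ht : FMetric t)
    (htp : ∀ a b, t a b ^ p = powDist p (Y a) (Y b))
    {U S s B R ℓ I : ℕ} {k0 : ℤ} {r A W L ε : ℝ} (P : LevelParams p n U S s B R ℓ k0 r A W L ε)
    (hfine : ∀ x y, x ≠ y → (2:ℝ) ^ (k0 + U) / S ≤ t x y)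
    (hI : 0 < I) (hNW : 4 * N * A ≤ W ^ I) (hε : ε * (16 * I * 8 ^ p) ≤ 1) :
    ∃ G : Fin n → PiLp (ENNReal.ofReal p) (fun _ : Fin I × (Fin R × Fin B) => ℝ), ∀ a b,
      ‖G a - G b‖ ≤ I * ℓ * (100 + 504 * Real.log n / U) * (t a b + r) ∧
      ‖G a - G b‖ ≤ I * ℓ * (24 * (2:ℝ) ^ (k0 + U)) ∧
      (r ≤ t a b → t a b ≤ A * r → t a b / (1024 * ℓ) ≤ ‖G a - G b‖) := by
  classical
  have hp0 : 0 < p := by linarith
  have hW0 : 0 < W := lt_of_lt_of_le one_pos P.hW
  have hAr : 0 < A * r := mul_pos (lt_of_lt_of_le one_pos P.hA) P.hr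
  have hlev : ∀ i : Fin I, _ := fun i =>
    exists_level hp hn hN Y ht htp P hfine (M := A * r / W ^ (i : ℕ)) (by positivity)
  choose g hg using hlev
  refine ⟨fun a => WithLp.toLp _ (fun x => WithLp.ofLp (g x.1 a) x.2), fun a b => ?_⟩
  have hr' : (ENNReal.ofReal p).toReal = p := ENNReal.toReal_ofReal hp0.le
  have hnorm : ‖(WithLp.toLp _ (fun x => WithLp.ofLp (g x.1 a) x.2) :
        PiLp (ENNReal.ofReal p) (fun _ : Fin I × (Fin R × Fin B) => ℝ))
      - WithLp.toLp _ (fun x => WithLp.ofLp (g x.1 b) x.2)‖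
      = (∑ i, ‖g i a - g i b‖ ^ p) ^ (1 / p) := by
    rw [lpNorm_pow hp0, powDist, Fintype.sum_prod_type]
    congr 1
    refine Finset.sum_congr rfl fun i _ => ?_
    have := lpNorm_pow hp0 (WithLp.ofLp (g i a)) (WithLp.ofLp (g i b))
    simp only [WithLp.toLp_ofLp] at this
    rw [this, ← Real.rpow_mul (powDist_nonneg _ _ _), one_div_mul_cancel hp0.ne', Real.rpow_one]
    rfl
  rw [hnorm]
  have hle : (∑ i, ‖g i a - g i b‖ ^ p) ^ (1 / p) ≤ ∑ i, ‖g i a - g i b‖ := by
    calc _ ≤ ((∑ i, ‖g i a - g i b‖) ^ p) ^ (1 / p) :=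
          Real.rpow_le_rpow (Finset.sum_nonneg fun i _ => Real.rpow_nonneg (norm_nonneg _) _)
            (sum_rpow_le_rpow_sum _ _ (fun i _ => norm_nonneg _) hp) (by positivity)
      _ = _ := by
          rw [← Real.rpow_mul (Finset.sum_nonneg fun i _ => norm_nonneg _),
            mul_one_div_cancel hp0.ne', Real.rpow_one]
  refine ⟨?_, ?_, fun hrt htA => ?_⟩
  · refine hle.trans ((Finset.sum_le_sum fun i _ => (hg i a b).1).trans (le_of_eq ?_))
    simp; ring
  · refine hle.trans ((Finset.sum_le_sum fun i _ => (hg i a b).2.1).trans (le_of_eq ?_))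
    simp; ring
  · have hℓ : (1:ℝ) ≤ ℓ := by exact_mod_cast P.hℓ
    have hTt := htp a b
    have hv : ∀ j, |Y a j - Y b j| ≤ A * r := by
      intro j
      refine le_trans ?_ htA
      refine (Real.rpow_le_rpow_iff (abs_nonneg _) (ht.nonneg a b) hp0).1 ?_
      rw [hTt]
      exact Finset.single_le_sum (f := fun j => |Y a j - Y b j| ^ p)
        (fun j _ => Real.rpow_nonneg (abs_nonneg _) _) (Finset.mem_univ j)
    have hlev := sum_magnitude_levels (I := I) hp P.hW hAr (fun j => Y a j - Y b j) hv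
    have htail : (N:ℝ) * (A * r / W ^ I) ^ p ≤ t a b ^ p / 4 := by
      have hq : A / W ^ I ≤ 1 := by
        rw [div_le_one (by positivity)]
        refine le_trans ?_ hNW
        have hN1 : (1:ℝ) ≤ N := by exact_mod_cast hN
        calc A = 1 * A := (one_mul A).symm
          _ ≤ 4 * N * A := mul_le_mul_of_nonneg_right (by linarith) (by linarith [P.hA])
      have h1 : (N:ℝ) * (A / W ^ I) ≤ 1 / 4 := by
        rw [mul_div_assoc', div_le_iff₀ (by positivity)]
        linarith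
      rw [show A * r / W ^ I = A / W ^ I * r by ring,
        Real.mul_rpow (div_nonneg (by linarith [P.hA]) (by positivity)) P.hr.le]
      calc (N:ℝ) * ((A / W ^ I) ^ p * r ^ p) ≤ (N:ℝ) * (A / W ^ I * r ^ p) := by
            refine mul_le_mul_of_nonneg_left (mul_le_mul_of_nonneg_right ?_
              (Real.rpow_nonneg P.hr.le _)) (Nat.cast_nonneg _)
            calc (A / W ^ I) ^ p ≤ (A / W ^ I) ^ (1:ℝ) :=
                  Real.rpow_le_rpow_of_exponent_ge'
                    (div_nonneg (by linarith [P.hA]) (by positivity)) hq zero_le_one hp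
              _ = _ := Real.rpow_one _
        _ = (N:ℝ) * (A / W ^ I) * r ^ p := by ring
        _ ≤ 1 / 4 * t a b ^ p :=
            mul_le_mul h1 (Real.rpow_le_rpow P.hr.le hrt hp0.le) (Real.rpow_nonneg P.hr.le _) (by norm_num)
        _ = _ := by ring
    have hsum := Finset.sum_le_sum (s := univ) fun i (_ : i ∈ univ) => (hg i a b).2.2 hrt htA
    rw [Finset.sum_sub_distrib, ← Finset.sum_div, ← Finset.mul_sum,
      Fin.sum_univ_eq_sum_range (fun i =>
        ∑ j ∈ univ.filter (fun j => A * r / W ^ i / W < |Y a j - Y b j| ∧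
          |Y a j - Y b j| ≤ A * r / W ^ i), |Y a j - Y b j| ^ p) I, Finset.sum_const,
      Finset.card_univ, Fintype.card_fin, nsmul_eq_mul] at hsum
    set TS := ∑ i ∈ range I, ∑ j ∈ univ.filter (fun j => A * r / W ^ i / W < |Y a j - Y b j| ∧
          |Y a j - Y b j| ≤ A * r / W ^ i), |Y a j - Y b j| ^ p with hTSdef
    have hTS : 3 / 4 * t a b ^ p ≤ TS := by
      have e : ∑ j, |Y a j - Y b j| ^ p = t a b ^ p := hTt.symm
      linarith
    have h8 : (0:ℝ) < 8 ^ p := by positivity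
    have he : (I:ℝ) * (ε * r ^ p) ≤ t a b ^ p / (16 * 8 ^ p) := by
      rw [le_div_iff₀ (by positivity)]
      calc (I:ℝ) * (ε * r ^ p) * (16 * 8 ^ p) = (ε * (16 * I * 8 ^ p)) * r ^ p := by ring
        _ ≤ 1 * t a b ^ p := mul_le_mul hε (Real.rpow_le_rpow P.hr.le hrt hp0.le)
            (Real.rpow_nonneg P.hr.le _) (by norm_num)
        _ = _ := one_mul _
    have htp0 : 0 ≤ t a b ^ p := Real.rpow_nonneg (ht.nonneg a b) _
    rw [← Finset.mul_sum] at hsum
    have hkey : t a b ^ p / (4 * 8 ^ p) ≤ 8 * ℓ * 4 ^ p * ∑ i, ‖g i a - g i b‖ ^ p := by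
      refine le_trans ?_ hsum
      have h9 : 3 / 4 * t a b ^ p / (2 * 8 ^ p) ≤ TS / (2 * 8 ^ p) :=
        div_le_div_of_nonneg_right hTS (by positivity)
      have e1 : t a b ^ p / (4 * 8 ^ p) + t a b ^ p / (16 * 8 ^ p)
          ≤ 3 / 4 * t a b ^ p / (2 * 8 ^ p) := by
        rw [show t a b ^ p / (4 * 8 ^ p) + t a b ^ p / (16 * 8 ^ p)
          = 5 / 16 * (t a b ^ p / 8 ^ p) by ring,
          show 3 / 4 * t a b ^ p / (2 * 8 ^ p) = 6 / 16 * (t a b ^ p / 8 ^ p) by ring]
        exact mul_le_mul_of_nonneg_right (by norm_num) (by positivity)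
      linarith
    have hb : (t a b / (1024 * ℓ)) ^ p ≤ ∑ i, ‖g i a - g i b‖ ^ p := by
      rw [Real.div_rpow (ht.nonneg a b) (by positivity), div_le_iff₀ (by positivity)]
      rw [div_le_iff₀ (by positivity)] at hkey
      refine hkey.trans ?_
      have h32 : (32:ℝ) * ℓ * (32:ℝ) ^ p ≤ (1024 * ℓ) ^ p := by
        calc (32:ℝ) * ℓ * 32 ^ p ≤ (32 * ℓ) ^ p * 32 ^ p :=
              mul_le_mul_of_nonneg_right (Real.self_le_rpow_of_one_le (by linarith) hp) (by positivity)
          _ = _ := by rw [← Real.mul_rpow (by positivity) (by norm_num)]; ring_nf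
      have hS0 : 0 ≤ ∑ i, ‖g i a - g i b‖ ^ p :=
        Finset.sum_nonneg fun i _ => Real.rpow_nonneg (norm_nonneg _) _
      calc 8 * (ℓ:ℝ) * 4 ^ p * (∑ i, ‖g i a - g i b‖ ^ p) * (4 * 8 ^ p)
          = (∑ i, ‖g i a - g i b‖ ^ p) * (32 * ℓ * (4 ^ p * 8 ^ p)) := by ring
        _ = (∑ i, ‖g i a - g i b‖ ^ p) * (32 * ℓ * 32 ^ p) := by
            rw [← Real.mul_rpow (by norm_num) (by norm_num)]; norm_num
        _ ≤ _ := mul_le_mul_of_nonneg_left h32 hS0
    have := Real.rpow_le_rpow (Real.rpow_nonneg (div_nonneg (ht.nonneg a b) (by positivity)) _) hb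
      (show 0 ≤ 1 / p by positivity)
    rwa [← Real.rpow_mul (div_nonneg (ht.nonneg a b) (by positivity)), mul_one_div_cancel hp0.ne',
      Real.rpow_one] at this

end Vale.Agent.P249
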